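import Crest.Agent.N218.K.Defs

/-!
# Row 218, block D1 (helper66): maps of sphere bundles, the collapse, homotopy, excision
-/

set_option autoImplicit false
set_option linter.unusedVariables false
set_option linter.unusedSectionVars false

open Crest.Agent.R204.K357 unitInterval Topology Filter Set OnePoint

noncomputable section

namespace Crest.Agent.N218.K

/-! ## homotopies of ex-maps -/
section ex
variable {X : Type} [TopologicalSpace X] {A B C : Ex X}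

theorem pull_htpy {S T : Type} [TopologicalSpace S] [CompactSpace S] [TopologicalSpace T]
    {f g : C(S, T)} (H : f.Homotopy g) : pull f = pull g :=
  RingHom.ext fun x => DFunLike.congr_fun (R204.HInv313.map_compHom_eq (B := ℂ) H) x

theorem pull_cm {S T U : Type} [TopologicalSpace S] [TopologicalSpace T] [TopologicalSpace U]
    (f : C(S, T)) (g : C(T, U)) (x : KX U) : pull (g.comp f) x = pull f (pull g x) :=
  K0.map_comp
    ((ContinuousMap.compRightAlgHom ℂ ℂ f : C(T, ℂ) →ₐ[ℂ] C(S, ℂ)) : C(T, ℂ) →+* C(S, ℂ))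
    ((ContinuousMap.compRightAlgHom ℂ ℂ g : C(U, ℂ) →ₐ[ℂ] C(T, ℂ)) : C(U, ℂ) →+* C(T, ℂ)) x

/-- composition of maps over the identity -/
def H1.cm (F : H1 A B) (G : H1 B C) : H1 A C :=
  ⟨G.f.comp F.f, fun e => (G.hp _).trans (F.hp e), fun x => (congrArg G.f (F.hs x)).trans (G.hs x)⟩

theorem Hm.ht_iff {F G : H1 A B} : F.Ht G ↔ F.f.HomotopicWith G.f
    fun f => (∀ e, B.p (f e) = A.p e) ∧ ∀ x, f (A.s x) = B.s x :=
  ⟨fun ⟨H, a, b, c, d⟩ => ⟨⟨⟨H, c, d⟩, fun t => ⟨a t, b t⟩⟩⟩,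
    fun ⟨H⟩ => ⟨H.toContinuousMap, fun t => (H.prop' t).1, fun t => (H.prop' t).2,
      H.map_zero_left, H.map_one_left⟩⟩

theorem Hm.Ht.rfl' (F : H1 A B) : F.Ht F :=
  Hm.ht_iff.2 (ContinuousMap.HomotopicWith.refl _ ⟨F.hp, F.hs⟩)
theorem Hm.Ht.of_eq {F G : H1 A B} (h : F.f = G.f) : F.Ht G :=
  Hm.ht_iff.2 (h ▸ ContinuousMap.HomotopicWith.refl _ ⟨F.hp, F.hs⟩)
theorem Hm.Ht.sy {F G : H1 A B} (h : F.Ht G) : G.Ht F := Hm.ht_iff.2 (Hm.ht_iff.1 h).symm
theorem Hm.Ht.tr {F G H : H1 A B} (h : F.Ht G) (h' : G.Ht H) : F.Ht H :=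
  Hm.ht_iff.2 ((Hm.ht_iff.1 h).trans (Hm.ht_iff.1 h'))
theorem Hm.Ht.pull_eq {F G : H1 A B} (h : F.Ht G) : pull F.f = pull G.f :=
  let ⟨H⟩ := Hm.ht_iff.1 h; pull_htpy H.toHomotopy
theorem Hm.Ht.cm {F F' : H1 A B} {G G' : H1 B C} (h : F.Ht F') (h' : G.Ht G') :
    (F.cm G).Ht (F'.cm G') := by
  obtain ⟨H, a, b, c, d⟩ := h
  obtain ⟨H', a', b', c', d'⟩ := h'
  exact ⟨⟨fun z => H' (z.1, H z), by fun_prop⟩, fun t e => (a' _ _).trans (a t e),
    fun t x => (congrArg (fun e => H' (t, e)) (b t x)).trans (b' t x),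
    fun e => (c' _).trans (congrArg G.f (c e)), fun e => (d' _).trans (congrArg G'.f (d e))⟩
end ex

variable {Γ Γ' : Type} [Group Γ] [TopologicalSpace Γ] [Group Γ'] [TopologicalSpace Γ']
  [CompactSpace Γ] [CompactSpace Γ']

/-! ## points of sphere bundles -/
section pts
variable {Y : GS Γ} {M N L : LS Γ} {Y' : GS Γ'} {M' : LS Γ'}

theorem pt_surj (e : (Sb Y M).E) : ∃ y w, pt Y M y w = e :=
  let ⟨z, h⟩ := (Y.prod M.sph).pr_surj e; ⟨z.1, z.2, h⟩
theorem pt_iff {y y' : Y.Z} {w w' : OnePoint M.Z} :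
    pt Y M y w = pt Y M y' w' ↔ ∃ g, Y.act g y = y' ∧ M.sph.act g w = w' :=
  (Y.prod M.sph).pr_eq.trans (exists_congr fun g => Prod.ext_iff)
theorem pt_act (g : Γ) (y : Y.Z) (w : OnePoint M.Z) :
    pt Y M (Y.act g y) (M.sph.act g w) = pt Y M y w := (Y.prod M.sph).pr_act g (y, w)
theorem p_pt (y : Y.Z) (w : OnePoint M.Z) : (Sb Y M).p (pt Y M y w) = Y.pr y := rfl
theorem s_pr (y : Y.Z) : (Sb Y M).s (Y.pr y) = pt Y M y ∞ := rfl
theorem cont_pt : Continuous fun z : Y.Z × OnePoint M.Z => pt Y M z.1 z.2 :=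
  (Y.prod M.sph).pr.continuous
theorem Hm.f_inf (F : H1 (Sb Y M) (Sb Y N)) (y : Y.Z) : F.f (pt Y M y ∞) = pt Y N y ∞ :=
  F.hs (Y.pr y)

theorem sb_ind {P : (Sb Y M).E → Prop} (h0 : ∀ y, P (pt Y M y ∞))
    (h1 : ∀ y (w : M.Z), P (pt Y M y w)) (e : (Sb Y M).E) : P e := by
  obtain ⟨y, w, rfl⟩ := pt_surj e
  induction w using OnePoint.rec with
  | infty => exact h0 y
  | coe w => exact h1 y w

/-- invariant families descend -/
theorem sb_lift {T B : Type} [TopologicalSpace T] [TopologicalSpace B]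
    (G : T × (Y.Z × OnePoint M.Z) → B) (hG : Continuous G)
    (inv : ∀ t g y w, G (t, (Y.act g y, M.sph.act g w)) = G (t, (y, w))) :
    ∃ H : C(T × (Sb Y M).E, B), ∀ t y w, H (t, pt Y M y w) = G (t, (y, w)) := by
  have q : IsOpenQuotientMap (Y.prod M.sph).pr :=
    ⟨GS.pr_surj _, (GS.pr _).continuous, GS.pr_open _⟩
  refine ⟨⟨fun z => Quotient.lift (s := (Y.prod M.sph).rel) (fun x => G (z.1, x))
    (fun x _ ⟨g, e⟩ => e ▸ (inv z.1 g x.1 x.2).symm) z.2, ?_⟩, fun _ _ _ => rfl⟩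
  exact ((IsOpenQuotientMap.id (X := T)).prodMap q).isQuotientMap.continuous_iff.2 hG

/-- properness of a family of pointed maps -/
def Prp {P A B : Type} [TopologicalSpace A] [TopologicalSpace B] (g : P × A → OnePoint B) : Prop :=
  ∀ K', IsCompact K' → ∃ K, IsCompact K ∧ ∀ p w w', w ∉ K → g (p, w) = (w' : B) → w' ∉ K'

/-- general maps of sphere bundles (change of group, base and fibre) -/
theorem sb_map (j : C(Y'.Z, Y.Z)) {g : Y'.Z × M'.Z → OnePoint M.Z} (ct : Continuous g)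
    (pr : Prp g) (eq : ∀ γ' y, ∃ γ, Y.act γ (j y) = j (Y'.act γ' y) ∧
      ∀ w, M.sph.act γ (g (y, w)) = g (Y'.act γ' y, M'.act γ' w)) :
    ∃ F : Hm (Sb Y' M') (Sb Y M) (Y'.qmap Y j fun γ' y => (eq γ' y).imp fun _ h => h.1),
      ∀ y (w : M'.Z), F.f (pt Y' M' y w) = pt Y M (j y) (g (y, w)) := by
  refine ⟨⟨GS.qmap _ (Y.prod M.sph) ⟨fun z => (j z.1, opx g z),
    (j.continuous.comp continuous_fst).prodMk (continuous_opx ct pr)⟩ fun γ' z => ?_, ?_, ?_⟩,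
    fun _ _ => rfl⟩
  · obtain ⟨γ, a, b⟩ := eq γ' z.1
    refine ⟨γ, Prod.ext a ?_⟩
    obtain ⟨y, w⟩ := z
    induction w using OnePoint.rec with
    | infty => rfl
    | coe w => exact b w
  · intro e; obtain ⟨y, w, rfl⟩ := pt_surj e; rfl
  · intro x; obtain ⟨y, rfl⟩ := Y'.pr_surj x; rfl

variable (Y M N) in
/-- pointed equivariant fibre maps -/
structure Pm (g : Y.Z × M.Z → OnePoint N.Z) : Prop where
  ct : Continuous g
  pr : Prp g
  eq : ∀ γ y w, g (Y.act γ y, M.act γ w) = N.sph.act γ (g (y, w))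

/-- `F` is induced by `g` -/
def Rg (F : H1 (Sb Y M) (Sb Y N)) (g : Y.Z × M.Z → OnePoint N.Z) : Prop :=
  ∀ y (w : M.Z), F.f (pt Y M y w) = pt Y N y (g (y, w))

theorem Pm.exists_rg {g : Y.Z × M.Z → OnePoint N.Z} (h : Pm Y M N g) : ∃ F, Rg F g := by
  obtain ⟨F, e⟩ := sb_map (Y := Y) (M := N) (.id _) h.ct h.pr fun γ y =>
    ⟨γ, rfl, fun w => (h.eq γ y w).symm⟩
  refine ⟨⟨F.f, fun x => (F.hp x).trans ?_, fun x => Eq.trans ?_ ((F.hs x).trans ?_)⟩, e⟩
  · obtain ⟨y, w, rfl⟩ := pt_surj x; rfl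
  · rfl
  · obtain ⟨y, rfl⟩ := Y.pr_surj x; rfl

theorem Rg.opx {F : H1 (Sb Y M) (Sb Y N)} {g : Y.Z × M.Z → OnePoint N.Z} (h : Rg F g) (y : Y.Z)
    (w : OnePoint M.Z) : F.f (pt Y M y w) = pt Y N y (opx g (y, w)) := by
  induction w using OnePoint.rec with
  | infty => exact F.f_inf y
  | coe w => exact h y w

theorem Rg.ext {F G : H1 (Sb Y M) (Sb Y N)} {g : Y.Z × M.Z → OnePoint N.Z} (h : Rg F g)
    (h' : Rg G g) : F.f = G.f :=
  ContinuousMap.ext (sb_ind (fun y => (F.f_inf y).trans (G.f_inf y).symm)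
    fun y w => (h y w).trans (h' y w).symm)

theorem Rg.cm {F : H1 (Sb Y M) (Sb Y N)} {G : H1 (Sb Y N) (Sb Y L)} {g : Y.Z × M.Z → OnePoint N.Z}
    {g' : Y.Z × N.Z → OnePoint L.Z} (h : Rg F g) (h' : Rg G g') :
    Rg (F.cm G) fun x => K.opx g' (x.1, g x) := fun y w =>
  (congrArg G.f (h y w)).trans (h'.opx y _)

theorem rg_triv : Rg (Hm.triv (Sb Y M) (Sb Y N)) fun _ => ∞ := fun _ _ => rfl

variable (Y) in
/-- the cylinder -/
abbrev IY : GS Γ where
  Z := I × Y.Z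
  act g z := (z.1, Y.act g z.2)
  one z := Prod.ext rfl (Y.one _)
  mul g h z := Prod.ext rfl (Y.mul _ _ _)
  cont := continuous_snd.fst.prodMk (Y.cont.comp (continuous_fst.prodMk continuous_snd.snd))

theorem Pm.sl {G : (IY Y).Z × M.Z → OnePoint N.Z} (h : Pm (IY Y) M N G) (t : I) :
    Pm Y M N fun x => G ((t, x.1), x.2) :=
  ⟨h.ct.comp ((continuous_const.prodMk continuous_fst).prodMk continuous_snd),
    fun K' k => (h.pr K' k).imp fun K a => ⟨a.1, fun p => a.2 (t, p)⟩, fun γ y w => h.eq γ (t, y) w⟩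

theorem Pm.ht {G : (IY Y).Z × M.Z → OnePoint N.Z} (h : Pm (IY Y) M N G)
    {F0 F1 : H1 (Sb Y M) (Sb Y N)} (h0 : Rg F0 fun x => G ((0, x.1), x.2))
    (h1 : Rg F1 fun x => G ((1, x.1), x.2)) : F0.Ht F1 := by
  obtain ⟨H, e⟩ := sb_lift (Y := Y) (M := M) (T := I)
    (fun z => pt Y N z.2.1 (K.opx G ((z.1, z.2.1), z.2.2)))
    (cont_pt.comp (continuous_snd.fst.prodMk ((continuous_opx h.ct h.pr).comp
      ((continuous_fst.prodMk continuous_snd.fst).prodMk continuous_snd.snd)))) fun t g y w => by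
      refine Eq.trans (congrArg _ ?_) (pt_act g y _)
      induction w using OnePoint.rec with
      | infty => rfl
      | coe w => exact h.eq g (t, y) w
  refine ⟨H, fun t x => ?_, fun t x => ?_, sb_ind (fun y => ?_) fun y w => ?_,
    sb_ind (fun y => ?_) fun y w => ?_⟩
  · obtain ⟨y, w, rfl⟩ := pt_surj x; exact congrArg (Sb Y N).p (e t y w)
  · obtain ⟨y, rfl⟩ := Y.pr_surj x; exact e t y ∞
  · exact (e 0 y ∞).trans (F0.f_inf y).symm
  · exact (e 0 y w).trans (h0 y w).symm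
  · exact (e 1 y ∞).trans (F1.f_inf y).symm
  · exact (e 1 y w).trans (h1 y w).symm
end pts

/-! ## scaling -/
section sc
variable {E : Type} [NormedAddCommGroup E] [NormedSpace ℝ E]

open Classical in
/-- division by a nonnegative number -/
def sc (z : ℝ × OnePoint E) : OnePoint E :=
  if z.1 = 0 then ∞ else opx (fun p : ℝ × E => ((p.1⁻¹ • p.2 : E) : OnePoint E)) z

theorem sc_zero (w : OnePoint E) : sc (0, w) = ∞ := if_pos rfl
theorem sc_inf (c : ℝ) : sc (c, (∞ : OnePoint E)) = ∞ := by unfold sc; split_ifs <;> rfl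
theorem sc_coe {c : ℝ} (h : c ≠ 0) (w : E) : sc (c, (w : OnePoint E)) = (c⁻¹ • w : E) := if_neg h
theorem sc_one (w : OnePoint E) : sc (1, w) = w := by
  induction w using OnePoint.rec with
  | infty => exact sc_inf 1
  | coe w => rw [sc_coe one_ne_zero, inv_one, one_smul]
theorem sc_eq {c : ℝ} {w : OnePoint E} {v : E} (h : sc (c, w) = v) :
    c ≠ 0 ∧ w = (c • v : E) := by
  have c0 : c ≠ 0 := fun a => by rw [a, sc_zero] at h; exact infty_ne_coe _ h
  induction w using OnePoint.rec with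
  | infty => rw [sc_inf] at h; exact absurd h (infty_ne_coe _)
  | coe w =>
    rw [sc_coe c0] at h
    exact ⟨c0, by rw [← coe_injective h, smul_inv_smul₀ c0]⟩

theorem sc_at [LocallyCompactSpace E] {z : ℝ × OnePoint E} (h : z.1 = 0 → z.2 ≠ (0 : E)) : ContinuousAt sc z := by
  obtain ⟨c, w⟩ := z
  by_cases a : sc (c, w) = ∞
  · rw [ContinuousAt, a, hasBasis_nhds_infty.tendsto_right_iff]
    rintro K ⟨-, hK⟩
    have k : IsCompact ((fun p : ℝ × E => (p.1, ((p.1 • p.2 : E) : OnePoint E))) ''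
        Icc (c - 1) (c + 1) ×ˢ K) :=
      (isCompact_Icc.prod hK).image (continuous_fst.prodMk (continuous_coe.comp (by fun_prop)))
    have n : (c, w) ∉ (fun p : ℝ × E => (p.1, ((p.1 • p.2 : E) : OnePoint E))) ''
        Icc (c - 1) (c + 1) ×ˢ K := by
      rintro ⟨⟨c', v⟩, -, e⟩
      obtain ⟨rfl, rfl⟩ := Prod.ext_iff.1 e
      by_cases c0 : c' = 0
      · exact h c0 (by simp [c0])
      · rw [sc_coe c0] at a; exact coe_ne_infty _ a
    have i : ∀ᶠ z : ℝ × OnePoint E in 𝓝 (c, w), z.1 ∈ Icc (c - 1) (c + 1) :=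
      continuous_fst.continuousAt.eventually (Icc_mem_nhds (by simp) (by simp))
    filter_upwards [k.isClosed.isOpen_compl.mem_nhds n, i]
    rintro ⟨c', w'⟩ b i
    induction e : sc (c', w') using OnePoint.rec with
    | infty => exact .inr rfl
    | coe v => exact .inl ⟨v, fun m => b ⟨(c', v), ⟨i, m⟩, Prod.ext rfl (sc_eq e).2.symm⟩, rfl⟩
  · have c0 : c ≠ 0 := fun e => a (e ▸ sc_zero w)
    induction w using OnePoint.rec with
    | infty => exact absurd (sc_inf c) a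
    | coe w =>
      have e : IsOpenEmbedding (Prod.map id (↑) : ℝ × E → ℝ × OnePoint E) :=
        IsOpenEmbedding.id.prodMap isOpenEmbedding_coe
      refine (e.continuousAt_iff (x := (c, w))).1 ?_
      have c1 : ContinuousAt (fun p : ℝ × E => ((p.1⁻¹ • p.2 : E) : OnePoint E)) (c, w) :=
        continuous_coe.continuousAt.comp ((continuousAt_fst.inv₀ c0).smul continuousAt_snd)
      refine c1.congr ?_
      filter_upwards [continuous_fst.continuousAt.eventually (isOpen_ne.mem_nhds c0)] with p b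
      exact (sc_coe b _).symm

theorem sc_act (W : Rep Γ) (γ : Γ) (c : ℝ) (w : OnePoint W.W) :
    sc (E := W.W) (c, W.ls.sph.act γ w) = W.ls.sph.act γ (sc (E := W.W) (c, w)) := by
  by_cases c0 : c = 0
  · rw [c0, sc_zero, sc_zero]; rfl
  induction w using OnePoint.rec with
  | infty => rw [sc_inf]; exact sc_inf c
  | coe w =>
    rw [sc_coe c0]
    exact (sc_coe c0 (W.ρ γ w)).trans (congrArg _ ((W.ρ γ).map_smul _ _).symm)
end sc

/-! ## the collapse -/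
namespace FP
variable {Y : GS Γ} {M : LS Γ} {W : Rep Γ} {P P' : FP Y M W}

theorem col_eq (χ : Y.Z × M.Z → ℝ) (x : Y.Z × M.Z) : P.col χ x = sc (χ x, (P.f x : OnePoint W.W)) :=
  rfl

theorem Ok.exists_cut (h : P.Ok) : ∃ χ, P.Cut χ := by
  obtain ⟨K, k, a, b⟩ := exists_compact_between h.cp h.op fun _ x => x.1
  obtain ⟨u, u1, u0, -, ui⟩ := exists_continuous_one_zero_of_isCompact h.cp
    isOpen_interior.isClosed_compl (disjoint_compl_right_iff_subset.2 a)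
  let A : Γ × (Y.Z × M.Z) → Y.Z × M.Z := fun p => (Y.act p.1 p.2.1, M.act p.1 p.2.2)
  have cA : Continuous A := (Y.cont.comp (continuous_fst.prodMk continuous_snd.fst)).prodMk
    (M.cont.comp (continuous_fst.prodMk continuous_snd.snd))
  have mul : ∀ g g' x, A (g * g', x) = A (g, A (g', x)) := fun g g' x =>
    Prod.ext (Y.mul _ _ _) (M.mul _ _ _)
  have one : ∀ x, A (1, x) = x := fun x => Prod.ext (Y.one _) (M.one _)
  have bd : ∀ x, BddAbove ((fun g => u (A (g, x))) '' univ) := fun x =>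
    ⟨1, by rintro _ ⟨g, -, rfl⟩; exact (ui _).2⟩
  have le : ∀ g x, u (A (g, x)) ≤ sSup ((fun g => u (A (g, x))) '' univ) := fun g x =>
    le_csSup (bd x) ⟨g, trivial, rfl⟩
  have kc : IsCompact (A '' univ ×ˢ K) := (isCompact_univ.prod k).image cA
  have sb : tsupport (fun x => sSup ((fun g => u (A (g, x))) '' univ)) ⊆ A '' univ ×ˢ K := by
    refine closure_minimal (fun x hx => ?_) kc.isClosed
    by_contra n
    refine hx (le_antisymm (csSup_le ⟨_, 1, trivial, rfl⟩ ?_) ((ui _).1.trans (le 1 x)))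
    rintro _ ⟨g, -, rfl⟩
    refine (u0 fun m => n ⟨(g⁻¹, A (g, x)), ⟨trivial, interior_subset m⟩, ?_⟩).le
    rw [← mul, inv_mul_cancel, one]
  refine ⟨fun x => sSup ((fun g => u (A (g, x))) '' univ),
    isCompact_univ.continuous_sSup (u.continuous.comp (cA.comp continuous_swap)),
    fun x => (ui _).1.trans (le 1 x), kc.of_isClosed_subset (isClosed_tsupport _) sb,
    sb.trans ?_, fun x o z => ?_, fun g x => congrArg sSup ?_⟩
  · rintro _ ⟨⟨g, x⟩, ⟨-, m⟩, rfl⟩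
    exact h.inv g x (b m)
  · refine lt_of_lt_of_le ?_ (le 1 x)
    rw [one, u1 ⟨o, z⟩]; exact one_pos
  · ext r
    exact ⟨fun ⟨g', _, e⟩ => ⟨g' * g, trivial, by rw [← e]; exact congrArg u (mul g' g x)⟩,
      fun ⟨g', _, e⟩ => ⟨g' * g⁻¹, trivial, by
        rw [← e]
        refine congrArg u ((mul (g' * g⁻¹) g x).symm.trans ?_)
        rw [inv_mul_cancel_right]⟩⟩

theorem Cut.mem {χ : Y.Z × M.Z → ℝ} (c : P.Cut χ) {x : Y.Z × M.Z} (h : χ x ≠ 0) : x ∈ P.O :=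
  c.sub (subset_tsupport _ h)

theorem Cut.pm {χ : Y.Z × M.Z → ℝ} (c : P.Cut χ) (h : P.Ok) : Pm Y M W.ls (P.col χ) := by
  refine ⟨continuous_iff_continuousAt.2 fun x => ?_, fun K' _ =>
    ⟨Prod.snd '' tsupport χ, c.cp.image continuous_snd, fun p w w' n e =>
      absurd ⟨(p, w), subset_tsupport _ (sc_eq (E := W.W) ((col_eq χ _).symm.trans e)).1, rfl⟩ n⟩, fun γ y w => ?_⟩
  · by_cases o : x ∈ P.O
    · exact (sc_at fun z e => (c.pos x o (coe_injective e)).ne' z).comp'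
        (c.ct.continuousAt.prodMk
          (continuous_coe.continuousAt.comp (h.ct.continuousAt (h.op.mem_nhds o))))
    · refine (continuousAt_const (y := (∞ : OnePoint W.W))).congr ?_
      filter_upwards [(isClosed_tsupport χ).isOpen_compl.mem_nhds fun m => o (c.sub m)] with z n
      exact (if_pos (image_eq_zero_of_notMem_tsupport n)).symm
  · by_cases z : χ (y, w) = 0
    · rw [col_eq, col_eq, c.inv γ (y, w), z, sc_zero, sc_zero]; rfl
    · rw [col_eq, col_eq, c.inv γ (y, w), h.eq γ (y, w) (c.mem z)]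
      exact sc_act W γ _ (P.f (y, w) : OnePoint W.W)

theorem Cut.rp {χ : Y.Z × M.Z → ℝ} (c : P.Cut χ) (h : P.Ok) : ∃ F, Rg F (P.col χ) ∧ P.Rp F :=
  let ⟨F, e⟩ := (c.pm h).exists_rg; ⟨F, e, χ, c, e⟩

theorem Ok.rp_hm (h : P.Ok) : P.Rp P.hm := by
  obtain ⟨χ, c⟩ := h.exists_cut
  obtain ⟨F, -, r⟩ := c.rp h
  have e : ∃ F, P.Rp F := ⟨F, r⟩
  rw [hm, dif_pos e]
  exact e.choose_spec

/-- slices of a homotopy of problems -/
def sl (Q : FP (IY Y) M W) (t : I) : FP Y M W :=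
  ⟨{x | ((t, x.1), x.2) ∈ Q.O}, fun x => Q.f ((t, x.1), x.2)⟩
/-- the constant homotopy -/
def cy (P : FP Y M W) : FP (IY Y) M W := ⟨{x | (x.1.2, x.2) ∈ P.O}, fun x => P.f (x.1.2, x.2)⟩

theorem cemb (t : I) : IsClosedEmbedding fun x : Y.Z × M.Z => (((t, x.1), x.2) : (IY Y).Z × M.Z) :=
  Function.LeftInverse.isClosedEmbedding (f := fun x : (IY Y).Z × M.Z => (x.1.2, x.2))
    (fun _ => rfl) (continuous_fst.snd.prodMk continuous_snd)
    ((continuous_const.prodMk continuous_fst).prodMk continuous_snd)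

theorem Ok.sl {Q : FP (IY Y) M W} (h : Q.Ok) (t : I) : (Q.sl t).Ok :=
  ⟨h.op.preimage (cemb t).continuous, fun g x o => h.inv g _ o,
    h.ct.comp (cemb t).continuous.continuousOn fun _ o => o, fun g x o => h.eq g _ o,
    (cemb t).isCompact_preimage h.cp⟩

theorem Cut.sl {Q : FP (IY Y) M W} {χ : (IY Y).Z × M.Z → ℝ} (c : Q.Cut χ) (t : I) :
    (Q.sl t).Cut fun x => χ ((t, x.1), x.2) := by
  have s : tsupport (fun x : Y.Z × M.Z => χ ((t, x.1), x.2)) ⊆
      (fun x : Y.Z × M.Z => (((t, x.1), x.2) : (IY Y).Z × M.Z)) ⁻¹' tsupport χ :=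
    closure_minimal (fun x m => subset_tsupport χ m)
      ((isClosed_tsupport χ).preimage (cemb t).continuous)
  exact ⟨c.ct.comp (cemb t).continuous, fun x => c.nn _,
    ((cemb t).isCompact_preimage c.cp).of_isClosed_subset (isClosed_tsupport _) s,
    fun x m => c.sub (s m), fun x o z => c.pos _ o z, fun g x => c.inv g ((t, x.1), x.2)⟩

theorem cy_cp {K : Set (Y.Z × M.Z)} (k : IsCompact K) :
    IsCompact {x : (IY Y).Z × M.Z | (x.1.2, x.2) ∈ K} := by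
  have : {x : (IY Y).Z × M.Z | (x.1.2, x.2) ∈ K} =
      (fun p : I × (Y.Z × M.Z) => ((p.1, p.2.1), p.2.2)) '' univ ×ˢ K := by
    ext x
    exact ⟨fun m => ⟨(x.1.1, (x.1.2, x.2)), ⟨trivial, m⟩, rfl⟩, fun ⟨p, m, e⟩ => e ▸ m.2⟩
  rw [this]
  exact (isCompact_univ.prod k).image
    ((continuous_fst.prodMk continuous_snd.fst).prodMk continuous_snd.snd)

theorem Ok.cy (h : P.Ok) : P.cy.Ok :=
  have c : Continuous fun x : (IY Y).Z × M.Z => (x.1.2, x.2) :=
    continuous_fst.snd.prodMk continuous_snd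
  ⟨h.op.preimage c, fun g x o => h.inv g _ o, h.ct.comp c.continuousOn fun _ o => o,
    fun g x o => h.eq g _ o, cy_cp h.cp⟩

/-- the representative is unique up to homotopy -/
theorem Rp.ht (h : P.Ok) {F G : H1 (Sb Y M) (Sb Y W.ls)} (a : P.Rp F) (b : P.Rp G) : F.Ht G := by
  obtain ⟨χ, c, e⟩ := a
  obtain ⟨χ', c', e'⟩ := b
  have cq : Continuous fun x : (IY Y).Z × M.Z => (x.1.2, x.2) :=
    continuous_fst.snd.prodMk continuous_snd
  have ct : Continuous fun x : (IY Y).Z × M.Z => (x.1.1 : ℝ) :=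
    continuous_subtype_val.comp continuous_fst.fst
  have k := cy_cp (c.cp.union c'.cp)
  have s : tsupport (fun x : (IY Y).Z × M.Z => (1 - x.1.1) * χ (x.1.2, x.2) +
      x.1.1 * χ' (x.1.2, x.2)) ⊆ {x | (x.1.2, x.2) ∈ tsupport χ ∪ tsupport χ'} := by
    refine closure_minimal (fun x m => ?_) k.isClosed
    by_contra n
    refine m ?_
    simp only [mem_ofPred_eq, mem_union, not_or] at n
    simp [image_eq_zero_of_notMem_tsupport n.1, image_eq_zero_of_notMem_tsupport n.2]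
  have C : P.cy.Cut fun x => (1 - x.1.1) * χ (x.1.2, x.2) + x.1.1 * χ' (x.1.2, x.2) :=
    ⟨((continuous_const.sub ct).mul (c.ct.comp cq)).add (ct.mul (c'.ct.comp cq)),
      fun x => add_nonneg (mul_nonneg (sub_nonneg.2 x.1.1.2.2) (c.nn _))
        (mul_nonneg x.1.1.2.1 (c'.nn _)),
      k.of_isClosed_subset (isClosed_tsupport _) s, fun x m => (s m).elim (c.sub ·) (c'.sub ·),
      fun x o z => by
        have p := c.pos _ o z
        have p' := c'.pos _ o z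
        have t0 := x.1.1.2.1
        have t1 := x.1.1.2.2
        rcases t0.eq_or_lt with t | t
        · rw [← t]; simpa using p
        · exact add_pos_of_nonneg_of_pos (mul_nonneg (sub_nonneg.2 t1) p.le) (mul_pos t p'),
      fun g x => by
        change (1 - (x.1.1 : ℝ)) * χ (Y.act g x.1.2, M.act g x.2) +
          (x.1.1 : ℝ) * χ' (Y.act g x.1.2, M.act g x.2) = _
        rw [c.inv g (x.1.2, x.2), c'.inv g (x.1.2, x.2)]⟩
  refine (C.pm h.cy).ht (fun y w => (e y w).trans (congrArg _ ?_))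
    fun y w => (e' y w).trans (congrArg _ ?_)
  · refine (col_eq _ _).trans (Eq.trans ?_ (col_eq _ _).symm); simp [FP.cy]
  · refine (col_eq _ _).trans (Eq.trans ?_ (col_eq _ _).symm); simp [FP.cy]

theorem Rp.ht_hm (h : P.Ok) {F : H1 (Sb Y M) (Sb Y W.ls)} (a : P.Rp F) : P.hm.Ht F :=
  h.rp_hm.ht h a

/-- **H** on slices -/
theorem Ok.ht_sl {Q : FP (IY Y) M W} (h : Q.Ok) : (Q.sl 0).hm.Ht (Q.sl 1).hm := by
  obtain ⟨χ, c⟩ := h.exists_cut
  obtain ⟨F0, e0, r0⟩ := (c.sl 0).rp (h.sl 0)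
  obtain ⟨F1, e1, r1⟩ := (c.sl 1).rp (h.sl 1)
  exact (r0.ht_hm (h.sl 0)).tr (((c.pm h).ht e0 e1).tr (r1.ht_hm (h.sl 1)).sy)

theorem Ok.shrink (h : P.Ok) (op : IsOpen P'.O)
    (inv : ∀ g, ∀ x ∈ P'.O, (Y.act g x.1, M.act g x.2) ∈ P'.O) (sub : P'.O ⊆ P.O)
    (eq : ∀ x ∈ P'.O, P'.f x = P.f x) (z : ∀ x ∈ P.O, P.f x = 0 → x ∈ P'.O) : P'.Ok :=
  ⟨op, inv, (h.ct.mono sub).congr eq,
    fun g x o => by rw [eq _ (inv g x o), eq _ o, h.eq g x (sub o)], by
    have : {x ∈ P'.O | P'.f x = 0} = {x ∈ P.O | P.f x = 0} := by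
      ext x
      exact ⟨fun a => ⟨sub a.1, (eq x a.1).symm.trans a.2⟩,
        fun a => ⟨z x a.1 a.2, (eq x (z x a.1 a.2)).trans a.2⟩⟩
    exact this ▸ h.cp⟩

theorem Rp.grow {F : H1 (Sb Y M) (Sb Y W.ls)} (r : P'.Rp F) (sub : P'.O ⊆ P.O)
    (eq : ∀ x ∈ P'.O, P'.f x = P.f x) (z : ∀ x ∈ P.O, P.f x = 0 → x ∈ P'.O) : P.Rp F := by
  obtain ⟨χ, c, e⟩ := r
  refine ⟨χ, ⟨c.ct, c.nn, c.cp, c.sub.trans sub,
    fun x o a => c.pos x (z x o a) ((eq x (z x o a)).trans a), c.inv⟩,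
    fun y w => (e y w).trans (congrArg _ ?_)⟩
  by_cases a : χ (y, w) = 0
  · rw [col_eq, col_eq, a, sc_zero, sc_zero]
  · rw [col_eq, col_eq, eq _ (c.mem a)]

/-- **X**: excision -/
theorem Ok.exc (h : P.Ok) (h' : P'.Ok) (sub : P'.O ⊆ P.O) (eq : ∀ x ∈ P'.O, P'.f x = P.f x)
    (z : ∀ x ∈ P.O, P.f x = 0 → x ∈ P'.O) : P.hm.Ht P'.hm :=
  (h'.rp_hm.grow sub eq z).ht_hm h

/-- **H**: homotopy of problems -/
theorem ht_of (P0 P1 : FP Y M W) (O : Set (I × (Y.Z × M.Z))) (f : I × (Y.Z × M.Z) → W.W)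
    (op : IsOpen O) (inv : ∀ g t x, (t, x) ∈ O → (t, (Y.act g x.1, M.act g x.2)) ∈ O)
    (ct : ContinuousOn f O)
    (eq : ∀ g t x, (t, x) ∈ O → f (t, (Y.act g x.1, M.act g x.2)) = W.ρ g (f (t, x)))
    (cp : IsCompact {z ∈ O | f z = 0})
    (o0 : ∀ x, x ∈ P0.O ↔ (0, x) ∈ O) (f0 : ∀ x ∈ P0.O, P0.f x = f (0, x))
    (o1 : ∀ x, x ∈ P1.O ↔ (1, x) ∈ O) (f1 : ∀ x ∈ P1.O, P1.f x = f (1, x)) :
    P0.Ok ∧ P1.Ok ∧ P0.hm.Ht P1.hm := by
  let e : (IY Y).Z × M.Z ≃ₜ I × (Y.Z × M.Z) := Homeomorph.prodAssoc I Y.Z M.Z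
  let Q : FP (IY Y) M W := ⟨e ⁻¹' O, f ∘ e⟩
  have q : Q.Ok := ⟨op.preimage e.continuous, fun g x o => inv g x.1.1 (x.1.2, x.2) o,
    ct.comp e.continuous.continuousOn fun _ o => o, fun g x o => eq g x.1.1 (x.1.2, x.2) o,
    e.isClosedEmbedding.isCompact_preimage cp⟩
  have key : ∀ (t : I) (R : FP Y M W), (∀ x, x ∈ R.O ↔ (t, x) ∈ O) →
      (∀ x ∈ R.O, R.f x = f (t, x)) → R.Ok ∧ (Q.sl t).hm.Ht R.hm := fun t R o a => by
    have : R.O = (Q.sl t).O := Set.ext o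
    have r : R.Ok := (q.sl t).shrink (this ▸ (q.sl t).op) (this ▸ (q.sl t).inv) this.le a
      fun x m _ => (o x).2 m
    exact ⟨r, (q.sl t).exc r this.le a fun x m _ => (o x).2 m⟩
  exact ⟨(key 0 P0 o0 f0).1, (key 1 P1 o1 f1).1,
    (key 0 P0 o0 f0).2.sy.tr (q.ht_sl.tr (key 1 P1 o1 f1).2)⟩

/-- **EMPTY** -/
theorem Ok.empty (h : P.Ok) (z : ∀ x ∈ P.O, P.f x ≠ 0) : P.hm.Ht (Hm.triv _ _) :=
  Rp.ht_hm h ⟨0, ⟨continuous_const, fun _ => le_rfl, by simp, by simp,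
    fun x o a => absurd a (z x o), fun _ _ => rfl⟩, fun y w =>
      congrArg (pt Y W.ls y) (sc_zero (E := W.W) (P.f (y, w))).symm⟩

theorem pb_eq (h : P.hm.Ht P'.hm) : P.pb = P'.pb := h.pull_eq

theorem Ok.pb_empty (h : P.Ok) (z : ∀ x ∈ P.O, P.f x ≠ 0) {x : KS Y W.ls} (r : (Sb Y W.ls).Rd x) :
    P.pb x = 0 := by
  have := DFunLike.congr_fun (h.empty z).pull_eq x
  refine this.trans ((pull_cm _ _ x).trans ?_)
  rw [show pull (Sb Y W.ls).s x = 0 from r, map_zero]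

/-- **PROPER**: a pointed map that is `f` on `O` and `∞` outside represents the problem -/
theorem Ok.proper (h : P.Ok) {g : Y.Z × M.Z → OnePoint W.W} (m : Pm Y M W.ls g)
    (a : ∀ x ∈ P.O, g x = P.f x) (b : ∀ x ∉ P.O, g x = ∞) {F : H1 (Sb Y M) (Sb Y W.ls)}
    (r : Rg F g) : P.hm.Ht F := by
  obtain ⟨χ, c, e⟩ := h.rp_hm
  have cq : Continuous fun x : (IY Y).Z × M.Z => (x.1.2, x.2) :=
    continuous_fst.snd.prodMk continuous_snd
  have ct : Continuous fun x : (IY Y).Z × M.Z => (x.1.1 : ℝ) :=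
    continuous_subtype_val.comp continuous_fst.fst
  have G : Pm (IY Y) M W.ls fun x =>
      sc (E := W.W) ((1 - x.1.1) * χ (x.1.2, x.2) + x.1.1, g (x.1.2, x.2)) := by
    refine ⟨continuous_iff_continuousAt.2 fun x => (sc_at (E := W.W) fun z n => ?_).comp'
      ((((continuous_const.sub ct).mul (c.ct.comp cq)).add ct).prodMk (m.ct.comp cq)).continuousAt,
      fun K' k' => ?_, fun γ y w => ?_⟩
    · have o : (x.1.2, x.2) ∈ P.O := by
        by_contra o; exact infty_ne_coe _ ((b _ o).symm.trans n)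
      have p := c.pos _ o (coe_injective ((a _ o).symm.trans n))
      have t0 := x.1.1.2.1
      have t1 := x.1.1.2.2
      simp only at z
      nlinarith [mul_nonneg (sub_nonneg.2 t1) p.le]
    · have k2 : IsCompact ((fun p : ℝ × W.W => p.1 • p.2) '' Icc 0 1 ×ˢ K') :=
        (isCompact_Icc.prod k').image (by fun_prop)
      obtain ⟨K, k, hK⟩ := m.pr _ k2
      refine ⟨K ∪ Prod.snd '' tsupport χ, k.union (c.cp.image continuous_snd),
        fun p w w' n s i => ?_⟩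
      have z : χ (p.2, w) = 0 :=
        image_eq_zero_of_notMem_tsupport fun j => n (.inr ⟨_, j, rfl⟩)
      have := (sc_eq (E := W.W) s).2
      simp only [z, mul_zero, zero_add] at this
      exact hK p.2 w _ (fun j => n (.inl j)) this ⟨((p.1 : ℝ), w'), ⟨p.1.2, i⟩, rfl⟩
    · change sc (E := W.W) ((1 - (y.1 : ℝ)) * χ (Y.act γ y.2, M.act γ w) + y.1,
        g (Y.act γ y.2, M.act γ w)) = _
      rw [c.inv γ (y.2, w), m.eq]
      exact sc_act W γ _ _
  refine G.ht (fun y w => (e y w).trans (congrArg _ ?_)) fun y w => (r y w).trans (congrArg _ ?_)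
  · by_cases z : χ (y, w) = 0
    · rw [col_eq]; simp [z, sc_zero]
    · rw [col_eq, ← a _ (c.mem z)]; simp
  · simp [sc_one]

end FP

end Crest.Agent.N218.K

end
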