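import Crest.Agent.N218.K.Pb
import Crest.Agent.N218.K.Col
import Crest.Agent.N218.Gp.Gp

/-!
# Row 218, block D1 (helper66): bordism calculus, existence and uniqueness of cycles
-/

set_option autoImplicit false
set_option linter.unusedVariables false
set_option linter.unusedSectionVars false

open unitInterval Topology Filter Set

noncomputable section

namespace Crest.Agent.N218.K

theorem cp_of_sub {Z E : Type} [TopologicalSpace Z] [T2Space Z] [TopologicalSpace E] [T1Space E]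
    [Zero E] {O K : Set Z} {f : Z → E} (k : IsCompact K) (s : K ⊆ O) (ct : ContinuousOn f O)
    (z : ∀ x ∈ O, f x = 0 → x ∈ K) : IsCompact {x ∈ O | f x = 0} := by
  have : {x ∈ O | f x = 0} = K ∩ f ⁻¹' {0} := by
    ext x; exact ⟨fun a => ⟨z x a.1 a.2, a.2⟩, fun a => ⟨s a.1, a.2⟩⟩
  rw [this]
  exact k.of_isClosed_subset
    ((ct.mono s).preimage_isClosed_of_isClosed k.isClosed isClosed_singleton) inter_subset_left

variable {Γ Γ' : Type} [Group Γ] [TopologicalSpace Γ] [Group Γ'] [TopologicalSpace Γ']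

theorem LS.cont_act (X : LS Γ) (g : Γ) : Continuous (X.act g) :=
  X.cont.comp (continuous_const.prodMk continuous_id)

theorem LS.fr_open [Finite Γ] (X : LS Γ) : IsOpen X.fr := by
  have : X.fr = ⋂ g, {x | X.act g x = x → g = 1} := by ext x; simp [LS.fr]
  rw [this]
  refine isOpen_iInter_of_finite fun g => ?_
  by_cases h : g = 1
  · simp [h]
  · simp only [h, imp_false]
    exact (isClosed_eq (X.cont_act g) continuous_id).isOpen_compl

theorem LS.fr_act (X : LS Γ) (g : Γ) {x : X.Z} (h : x ∈ X.fr) : X.act g x ∈ X.fr := fun g' e => by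
  have := h (g⁻¹ * g' * g) (by rw [X.mul, X.mul, e, X.inv_act])
  rwa [mul_assoc, inv_mul_eq_one, eq_comm, mul_eq_right] at this

namespace PB
variable {X X' : LS Γ} {V V' U : Rep Γ} {P Q R : PB X V} {S S' : Set X.Z}

theorem Ok.mono (h : P.Ok S) (s : S ⊆ S') : P.Ok S' :=
  ⟨h.op, h.inv, h.ct, h.eq, h.cp, h.fr.trans s⟩
theorem Ok.z_act (h : P.Ok S) (g : Γ) {x : X.Z} (a : x ∈ P.Z) : X.act g x ∈ P.Z :=
  ⟨h.inv g x a.1, by rw [h.eq g x a.1, a.2, map_zero]⟩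

theorem Le.rfl' (P : PB X V) : P.Le P := ⟨Subset.rfl, fun _ _ => rfl, fun _ a => a.1⟩
theorem Le.z_eq (h : P.Le Q) : P.Z = Q.Z :=
  Set.ext fun x => ⟨fun a => ⟨h.sub a.1, (h.eq x a.1).symm.trans a.2⟩,
    fun a => ⟨h.z a, (h.eq x (h.z a)).trans a.2⟩⟩
theorem Le.tr (h : P.Le Q) (h' : Q.Le R) : P.Le R :=
  ⟨h.sub.trans h'.sub, fun x a => (h.eq x a).trans (h'.eq x (h.sub a)),
    fun x a => h.z (h'.z_eq ▸ a)⟩
theorem Le.ok (h : P.Le Q) (q : Q.Ok S) (op : IsOpen P.O)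
    (inv : ∀ g, ∀ x ∈ P.O, X.act g x ∈ P.O) : P.Ok S :=
  ⟨op, inv, (q.ct.mono h.sub).congr h.eq,
    fun g x o => by rw [h.eq _ (inv g x o), h.eq _ o, q.eq g x (h.sub o)], h.z_eq ▸ q.cp,
    h.z_eq ▸ q.fr⟩
theorem on_le {N : Set X.Z} (z : P.Z ⊆ N) : (P.on N).Le P :=
  ⟨inter_subset_left, fun _ _ => rfl, fun _ a => ⟨a.1, z a⟩⟩
theorem Ok.on (h : P.Ok S) {N : Set X.Z} (op : IsOpen N) (inv : ∀ g, ∀ x ∈ N, X.act g x ∈ N)
    (z : P.Z ⊆ N) : (P.on N).Ok S :=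
  (on_le z).ok h (h.op.inter op) fun g x a => ⟨h.inv g x a.1, inv g x a.2⟩

section par
variable {T T' : Type} [TopologicalSpace T] [LocallyCompactSpace T] [T2Space T]
  [TopologicalSpace T'] [LocallyCompactSpace T'] [T2Space T']

/-- a family given by plain data -/
def fam (O : Set (X.Z × T)) (f : X.Z × T → V.W) : PB (X.prod (LS.triv Γ T)) V := ⟨O, f⟩

theorem fam_ok {O : Set (X.Z × T)} {f : X.Z × T → V.W} (op : IsOpen O)
    (inv : ∀ g x t, (x, t) ∈ O → (X.act g x, t) ∈ O) (ct : ContinuousOn f O)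
    (eq : ∀ g x t, (x, t) ∈ O → f (X.act g x, t) = V.ρ g (f (x, t)))
    (cp : IsCompact {z ∈ O | f z = 0}) (fr : ∀ x t, (x, t) ∈ O → f (x, t) = 0 → x ∈ S) :
    (fam O f).Ok (Prod.fst ⁻¹' S) :=
  ⟨op, fun g z => inv g z.1 z.2, ct, fun g z => eq g z.1 z.2, cp, fun z a => fr z.1 z.2 a.1 a.2⟩

theorem Ok.sl {H : PB (X.prod (LS.triv Γ T)) V} (h : H.Ok (Prod.fst ⁻¹' S)) (t : T) :
    (H.sl t).Ok S :=
  have c : IsClosedEmbedding fun x : X.Z => (x, t) :=
    Function.LeftInverse.isClosedEmbedding (f := Prod.fst) (fun _ => rfl) continuous_fst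
      (continuous_id.prodMk continuous_const)
  ⟨h.op.preimage c.continuous, fun g x a => h.inv g (x, t) a,
    h.ct.comp c.continuous.continuousOn fun _ a => a, fun g x a => h.eq g (x, t) a,
    c.isCompact_preimage h.cp, fun x a => h.fr (a := (x, t)) a⟩

/-- change of the parameter -/
def rp (H : PB (X.prod (LS.triv Γ T)) V) (c : T' → T) : PB (X.prod (LS.triv Γ T')) V :=
  fam {z : X.Z × T' | (z.1, c z.2) ∈ H.O} fun z => H.f (z.1, c z.2)

theorem Ok.rp [CompactSpace T'] {H : PB (X.prod (LS.triv Γ T)) V} (h : H.Ok (Prod.fst ⁻¹' S))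
    {c : T' → T} (hc : Continuous c) : (H.rp c).Ok (Prod.fst ⁻¹' S) :=
  have m : Continuous fun z : X.Z × T' => ((z.1, c z.2) : X.Z × T) :=
    continuous_fst.prodMk (hc.comp continuous_snd)
  fam_ok (h.op.preimage m) (fun g x t a => h.inv g (x, c t) a)
    (h.ct.comp m.continuousOn fun _ a => a) (fun g x t a => h.eq g (x, c t) a)
    (((h.cp.image continuous_fst).prod isCompact_univ).of_isClosed_subset
      (h.cp.isClosed.preimage m) fun z a => ⟨⟨(z.1, c z.2), a, rfl⟩, trivial⟩)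
    fun x t a b => h.fr (a := (x, c t)) ⟨a, b⟩
end par

/-- constructor of bordisms -/
theorem hb_of (hP : P.Ok S) (hQ : Q.Ok S) (O : Set (X.Z × I)) (f : X.Z × I → V.W) (op : IsOpen O)
    (inv : ∀ g x t, (x, t) ∈ O → (X.act g x, t) ∈ O) (ct : ContinuousOn f O)
    (eq : ∀ g x t, (x, t) ∈ O → f (X.act g x, t) = V.ρ g (f (x, t)))
    (cp : IsCompact {z ∈ O | f z = 0}) (fr : ∀ x t, (x, t) ∈ O → f (x, t) = 0 → x ∈ S)
    (l0 : Le ⟨{x | (x, 0) ∈ O}, fun x => f (x, 0)⟩ P)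
    (l1 : Le ⟨{x | (x, 1) ∈ O}, fun x => f (x, 1)⟩ Q) : Hb S P Q :=
  ⟨hP, hQ, fam O f, fam_ok op inv ct eq cp fr, l0, l1⟩

theorem Ok.hb_sl {H : PB X.cy V} (h : H.Ok (Prod.fst ⁻¹' S)) :
    Hb S (H.sl (0 : I)) (H.sl (1 : I)) := ⟨h.sl _, h.sl _, H, h, Le.rfl' _, Le.rfl' _⟩

theorem hb_le (hP : P.Ok S) (hQ : Q.Ok S) (hR : R.Ok S) (a : R.Le P) (b : R.Le Q) : Hb S P Q :=
  hb_of hP hQ (Prod.fst ⁻¹' R.O) (fun z => R.f z.1) (hR.op.preimage continuous_fst)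
    (fun g x _ => hR.inv g x) (hR.ct.comp continuousOn_fst fun _ a => a) (fun g x _ => hR.eq g x)
    ((hR.cp.prod isCompact_univ).of_isClosed_subset (hR.cp.isClosed.preimage continuous_fst)
      fun _ a => ⟨a, trivial⟩) (fun x _ o z => hR.fr ⟨o, z⟩) a b

theorem Ok.hb (h : P.Ok S) : Hb S P P := hb_le h h h (Le.rfl' P) (Le.rfl' P)
theorem Le.hb (h : P.Le Q) (hP : P.Ok S) (hQ : Q.Ok S) : Hb S P Q := hb_le hP hQ hP (Le.rfl' P) h

theorem Hb.mono (h : Hb S P Q) (s : S ⊆ S') : Hb S' P Q :=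
  let ⟨a, b, H, c, d⟩ := h; ⟨a.mono s, b.mono s, H, c.mono (preimage_mono s), d⟩

theorem Hb.sy (h : Hb S P Q) : Hb S Q P := by
  obtain ⟨a, b, H, c, d, e⟩ := h
  refine ⟨b, a, H.rp σ, c.rp continuous_symm, ?_, ?_⟩
  · change (H.sl (σ 0)).Le Q; rwa [symm_zero]
  · change (H.sl (σ 1)).Le P; rwa [symm_one]

theorem Hb.tr (h : Hb S P Q) (h' : Hb S Q R) : Hb S P R := by
  classical
  obtain ⟨p, q, H, c, d, e⟩ := h
  obtain ⟨-, r, H', c', d', e'⟩ := h'
  let a : I → I := fun t => projIcc 0 1 zero_le_one (2 * t)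
  let b : I → I := fun t => projIcc 0 1 zero_le_one (2 * t - 1)
  have a1 : ∀ t : I, (t : ℝ) = 1 / 2 → a t = 1 := fun t i => projIcc_of_right_le _ (by linarith)
  have b0 : ∀ t : I, (t : ℝ) = 1 / 2 → b t = 0 := fun t i => projIcc_of_le_left _ (by linarith)
  have a0 : a 0 = 0 := projIcc_of_le_left _ (by simp)
  have b1 : b 1 = 1 := projIcc_of_right_le _ (by norm_num)
  have A := c.rp (c := a) (continuous_projIcc.comp (by fun_prop))
  have B := c'.rp (c := b) (continuous_projIcc.comp (by fun_prop))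
  have ct : Continuous fun z : X.Z × I => (z.2 : ℝ) := by fun_prop
  let O : Set (X.Z × I) := {z | ((1 : ℝ) / 2 < z.2 ∨ z ∈ (H.rp a).O) ∧
    ((z.2 : ℝ) < 1 / 2 ∨ z ∈ (H'.rp b).O)}
  let f : X.Z × I → V.W := fun z => if (z.2 : ℝ) ≤ 1 / 2 then (H.rp a).f z else (H'.rp b).f z
  have cf : ContinuousOn f O := by
    refine ContinuousOn.if (fun z i => ?_) (A.ct.mono fun z i => ?_) (B.ct.mono fun z i => ?_)
    · have t := frontier_le_subset_eq ct continuous_const i.2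
      have i1 : (z.1, a z.2) ∈ H.O := i.1.1.resolve_left (not_lt.2 t.le)
      have i2 : (z.1, b z.2) ∈ H'.O := i.1.2.resolve_left (not_lt.2 t.ge)
      change H.f (z.1, a z.2) = H'.f (z.1, b z.2)
      rw [a1 _ t] at i1 ⊢
      rw [b0 _ t] at i2 ⊢
      exact (e.eq _ i1).trans (d'.eq _ i2).symm
    · rw [closure_le_eq ct continuous_const] at i
      exact i.1.1.resolve_left (not_lt.2 i.2)
    · simp only [not_le] at i
      exact i.1.2.resolve_left (not_lt.2 (closure_lt_subset_le continuous_const ct i.2))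
  refine hb_of p r O f (((isOpen_lt continuous_const ct).union A.op).inter
    ((isOpen_lt ct continuous_const).union B.op))
    (fun g x t i => ⟨i.1.imp_right (A.inv g (x, t)), i.2.imp_right (B.inv g (x, t))⟩) cf
    (fun g x t i => ?_) (cp_of_sub (K := ((H.rp a).Z ∩ {z : X.Z × I | (z.2 : ℝ) ≤ 1 / 2}) ∪
      ((H'.rp b).Z ∩ {z : X.Z × I | 1 / 2 ≤ (z.2 : ℝ)}))
      ((A.cp.inter_right (isClosed_le ct continuous_const)).union
        (B.cp.inter_right (isClosed_le continuous_const ct))) ?_ cf fun z i j => ?_)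
    (fun x t i j => ?_) ?_ ?_
  · by_cases k : (t : ℝ) ≤ 1 / 2
    · exact (if_pos k).trans ((A.eq g (x, t) (i.1.resolve_left (not_lt.2 k))).trans
        (congrArg _ (if_pos k).symm))
    · exact (if_neg k).trans ((B.eq g (x, t) (i.2.resolve_left fun l => k l.le)).trans
        (congrArg _ (if_neg k).symm))
  · rintro z (⟨i, j⟩ | ⟨i, j⟩)
    · refine ⟨.inr i.1, (lt_or_eq_of_le j).imp_right fun t => ?_⟩
      change (z.1, a z.2) ∈ H.Z at i
      change (z.1, b z.2) ∈ H'.O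
      rw [a1 _ t] at i
      rw [b0 _ t]
      exact d'.z (e.z_eq ▸ i)
    · refine ⟨(lt_or_eq_of_le j).imp_right fun t => ?_, .inr i.1⟩
      change (z.1, b z.2) ∈ H'.Z at i
      change (z.1, a z.2) ∈ H.O
      rw [b0 _ t.symm] at i
      rw [a1 _ t.symm]
      exact e.z (d'.z_eq ▸ i)
  · by_cases k : (Subtype.val z.2 : ℝ) ≤ 1 / 2
    · exact .inl ⟨⟨i.1.resolve_left (not_lt.2 k), (if_pos k).symm.trans j⟩, k⟩
    · exact .inr ⟨⟨i.2.resolve_left fun l => k l.le, (if_neg k).symm.trans j⟩, (not_le.1 k).le⟩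
  · by_cases k : (t : ℝ) ≤ 1 / 2
    · exact A.fr (a := (x, t)) ⟨i.1.resolve_left (not_lt.2 k), (if_pos k).symm.trans j⟩
    · exact B.fr (a := (x, t)) ⟨i.2.resolve_left fun l => k l.le, (if_neg k).symm.trans j⟩
  · refine Le.tr (Q := H.sl (a 0)) ⟨fun x i => i.1.resolve_left (by norm_num),
      fun x _ => if_pos (by norm_num), fun x i => ⟨.inr i.1, .inl (by norm_num)⟩⟩ ?_
    rwa [a0]
  · refine Le.tr (Q := H'.sl (b 1)) ⟨fun x i => i.2.resolve_left (by norm_num),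
      fun x _ => if_neg (by norm_num), fun x i => ⟨.inl (by norm_num), .inr i.1⟩⟩ ?_
    rwa [b1]

/-- a perturbation inside a compact set -/
theorem Ok.hb_pert (h : P.Ok S) {f : X.Z → V.W} {C : Set X.Z} (k : IsCompact C) (s : C ⊆ P.O ∩ S)
    (ct : ContinuousOn f P.O) (eq : ∀ g, ∀ x ∈ P.O, f (X.act g x) = V.ρ g (f x))
    (off : ∀ x ∈ P.O, x ∉ C → f x = P.f x) : Hb S P ⟨P.O, f⟩ := by
  have s1 : P.Z ∪ C ⊆ P.O := union_subset (fun _ a => a.1) fun _ a => (s a).1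
  have s2 : P.Z ∪ C ⊆ S := union_subset h.fr fun _ a => (s a).2
  have z1 : ∀ x ∈ P.O, f x = 0 → x ∈ P.Z ∪ C := fun x o z =>
    or_iff_not_imp_right.2 fun n => ⟨o, (off x o n).symm.trans z⟩
  have z2 : ∀ (x : X.Z) (t : ℝ), x ∈ P.O → (1 - t) • P.f x + t • f x = 0 → x ∈ P.Z ∪ C :=
    fun x t o z => or_iff_not_imp_right.2 fun n => ⟨o, by
      rw [off x o n, ← add_smul, sub_add_cancel, one_smul] at z; exact z⟩
  have c : ContinuousOn (fun z : X.Z × I => (1 - (z.2 : ℝ)) • P.f z.1 + (z.2 : ℝ) • f z.1)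
      (Prod.fst ⁻¹' P.O) :=
    ((Continuous.continuousOn (by fun_prop)).smul (h.ct.comp continuousOn_fst fun _ a => a)).add
      ((Continuous.continuousOn (by fun_prop)).smul (ct.comp continuousOn_fst fun _ a => a))
  exact hb_of h ⟨h.op, h.inv, ct, eq, cp_of_sub (h.cp.union k) s1 ct z1,
      fun x a => s2 (z1 x a.1 a.2)⟩ _ _ (h.op.preimage continuous_fst) (fun g x _ => h.inv g x) c
    (fun g x t o => by simp only [h.eq g x o, eq g x o, map_add, map_smul])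
    (cp_of_sub ((h.cp.union k).prod isCompact_univ) (fun _ a => s1 a.1) c
      fun z o e => ⟨z2 _ _ o e, trivial⟩) (fun x t o e => s2 (z2 _ _ o e))
    ⟨fun _ a => a, fun x _ => by simp, fun _ a => a.1⟩
    ⟨fun _ a => a, fun x _ => by simp, fun _ a => a.1⟩

/-- general position for problems -/
theorem Ok.gp [Finite Γ] (h : P.Fr) {N : Set X.Z} (hN : IsOpen N) (ZN : P.Z ⊆ N)
    (hd : ∀ x ∈ P.Z, Gp.Dm V.W x) : ∃ (s : X.Z → V.W) (C : Set X.Z), IsCompact C ∧ C ⊆ P.O ∩ N ∧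
      ContinuousOn s P.O ∧ (∀ g, ∀ x ∈ P.O, s (X.act g x) = V.ρ g (s x)) ∧ (∀ x ∈ P.O, s x ≠ 0) ∧
      ∀ x, x ∉ C → s x = P.f x := by
  have := Fintype.ofFinite Γ
  let : MulAction Γ X.Z := { smul := X.act, one_smul := X.one, mul_smul := X.mul }
  have : ContinuousConstSMul Γ X.Z := ⟨X.cont_act⟩
  obtain ⟨s, C, a, b, -, c, d, e, f, -⟩ := Gp.gp V.ρ h.op h.inv h.ct h.eq h.cp hN
    (fun x o z => ZN ⟨o, z⟩) (fun x o z => h.fr ⟨o, z⟩) (fun x o z => hd x ⟨o, z⟩) one_pos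
  exact ⟨s, C, a, b, c, d, e, f⟩

/-- **every free problem is bordant to a cycle** -/
theorem cyc_ex [Finite Γ] (h : P.Fr) (U : Rep Γ) (hd : ∀ x ∈ P.Z, Gp.Dm (V.W × U.W) x) :
    ∃ (P' : PB X V) (k : X.Z → U.W), P.Bd P' ∧ P'.Lift U k ∧ P'.O = P.O := by
  let R : PB X (V.prod U) := ⟨P.O, fun x => (P.f x, 0)⟩
  have z : R.Z = P.Z := Set.ext fun x =>
    ⟨fun a => ⟨a.1, congrArg Prod.fst a.2⟩, fun a => ⟨a.1, Prod.ext a.2 rfl⟩⟩
  have r : R.Fr := ⟨h.op, h.inv, h.ct.prodMk continuousOn_const,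
    fun g x o => Prod.ext (h.eq g x o) (map_zero (U.ρ g)).symm, z ▸ h.cp, z ▸ h.fr⟩
  obtain ⟨s, C, a, b, c, d, e, f⟩ := r.gp X.fr_open r.fr (z ▸ hd)
  exact ⟨⟨P.O, fun x => (s x).1⟩, fun x => (s x).2, h.hb_pert a b c.fst
    (fun g x o => congrArg Prod.fst (d g x o)) fun x _ n => congrArg Prod.fst (f x n),
    ⟨c.snd, fun g x o => congrArg Prod.snd (d g x o), fun x i n => e x i.1 (Prod.ext i.2 n)⟩, rfl⟩

/-- **bordant cycles are bordant as cycles** -/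
theorem cyc_bd [Finite Γ] (h : P.Bd Q) {k k' : X.Z → U.W} (l : P.Lift U k) (l' : Q.Lift U k')
    (hd : ∀ z : X.Z × ℝ, Gp.Dm (V.W × U.W) z) : ∃ (H : PB X.cy V) (κ : X.Z × I → U.W),
      H.Ok (Prod.fst ⁻¹' X.fr) ∧ H.Lift U κ ∧ (H.sl (0 : I)).Le P ∧ (H.sl (1 : I)).Le Q ∧
      (∀ x, κ (x, 0) = k x) ∧ ∀ x, κ (x, 1) = k' x := by
  obtain ⟨p, q, H, c, d, e⟩ := h
  let a : ℝ → I := fun t => projIcc 0 1 zero_le_one (3 * t - 1)
  have a0 : ∀ t, t ≤ 1 / 3 → a t = 0 := fun t i => projIcc_of_le_left _ (by linarith)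
  have a1 : ∀ t, 2 / 3 ≤ t → a t = 1 := fun t i => projIcc_of_right_le _ (by linarith)
  have m : Continuous fun z : X.Z × ℝ => ((z.1, a z.2) : X.Z × I) :=
    continuous_fst.prodMk (continuous_projIcc.comp (by fun_prop))
  let O : Set (X.Z × ℝ) := {z | (z.1, a z.2) ∈ H.O}
  have o0 : ∀ z ∈ O, z.2 ≤ 1 / 3 → z.1 ∈ P.O := fun z i j =>
    d.sub (show (z.1, (0 : I)) ∈ H.O from a0 _ j ▸ i)
  have o1 : ∀ z ∈ O, 2 / 3 ≤ z.2 → z.1 ∈ Q.O := fun z i j =>
    e.sub (show (z.1, (1 : I)) ∈ H.O from a1 _ j ▸ i)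
  have cut : ∀ (R : PB X V) (κ : X.Z → U.W) (u : ℝ → ℝ), IsOpen R.O → R.Lift U κ → Continuous u →
      (∀ z ∈ O, 0 ≤ u z.2 → z.1 ∈ R.O) →
      ContinuousOn (fun z : X.Z × ℝ => max (u z.2) 0 • κ z.1) O ∧ ∀ g x t, (x, t) ∈ O →
        max (u t) 0 • κ (X.act g x) = U.ρ g (max (u t) 0 • κ x) := fun R κ u r n cu i => by
    refine ⟨fun z j => ContinuousAt.continuousWithinAt ?_, fun g x t j => ?_⟩
    · rcases le_or_gt 0 (u z.2) with b | b
      · exact ((cu.comp continuous_snd).max continuous_const).continuousAt.smul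
          ((n.ct.continuousAt (r.mem_nhds (i z j b))).comp continuousAt_fst)
      · refine (continuousAt_const (y := (0 : U.W))).congr ?_
        filter_upwards [(isOpen_lt (cu.comp continuous_snd) continuous_const).mem_nhds b] with w b
        rw [max_eq_right (show u w.2 ≤ 0 from le_of_lt b), zero_smul]
    · rcases le_or_gt 0 (u t) with b | b
      · rw [n.eq g x (i _ j b), map_smul]
      · simp [max_eq_right b.le]
  obtain ⟨c0, e0⟩ := cut P k (fun t => 1 - 3 * t) p.op l (by fun_prop)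
    fun z i j => o0 z i (by linarith)
  obtain ⟨c1, e1⟩ := cut Q k' (fun t => 3 * t - 2) q.op l' (by fun_prop)
    fun z i j => o1 z i (by linarith)
  let F : X.Z × ℝ → V.W × U.W := fun z =>
    (H.f (z.1, a z.2), max (1 - 3 * z.2) 0 • k z.1 + max (3 * z.2 - 2) 0 • k' z.1)
  have cF : ContinuousOn F O := (c.ct.comp m.continuousOn fun _ i => i).prodMk (c0.add c1)
  have zF : ∀ z ∈ O, F z = 0 → (z.1, a z.2) ∈ H.Z ∧ z.2 ∈ Icc (1 / 3 : ℝ) (2 / 3) := by
    intro z i j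
    have j1 : (z.1, a z.2) ∈ H.Z := ⟨i, congrArg Prod.fst j⟩
    have j2 : max (1 - 3 * z.2) 0 • k z.1 + max (3 * z.2 - 2) 0 • k' z.1 = 0 := congrArg Prod.snd j
    refine ⟨j1, not_lt.1 fun b => ?_, not_lt.1 fun b => ?_⟩
    · rw [a0 _ b.le] at j1
      rw [max_eq_left (by linarith), max_eq_right (by linarith), zero_smul, add_zero,
        smul_eq_zero] at j2
      exact j2.elim (fun j2 => by linarith) (l.nz _ (d.z_eq ▸ j1))
    · rw [a1 _ b.le] at j1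
      rw [max_eq_right (by linarith), max_eq_left (by linarith), zero_smul, zero_add,
        smul_eq_zero] at j2
      exact j2.elim (fun j2 => by linarith) (l'.nz _ (e.z_eq ▸ j1))
  have kZ : IsCompact {z : X.Z × ℝ | (z.1, a z.2) ∈ H.Z ∧ z.2 ∈ Icc (0 : ℝ) 1} :=
    ((c.cp.image continuous_fst).prod isCompact_Icc).of_isClosed_subset
      ((c.cp.isClosed.preimage m).inter (isClosed_Icc.preimage continuous_snd))
      fun z i => ⟨⟨_, i.1, rfl⟩, i.2⟩
  have r : (fam (V := V.prod U) O F).Ok (Prod.fst ⁻¹' X.fr) :=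
    fam_ok (c.op.preimage m) (fun g x t i => c.inv g (x, a t) i) cF
      (fun g x t i => Prod.ext (c.eq g (x, a t) i)
        ((congrArg₂ _ (e0 g x t i) (e1 g x t i)).trans (map_add (U.ρ g) _ _).symm))
      (cp_of_sub (E := V.W × U.W) kZ (fun z i => i.1.1) cF fun z i j =>
        ⟨(zF z i j).1, by linarith [(zF z i j).2.1], by linarith [(zF z i j).2.2]⟩)
      fun x t i j => c.fr (zF _ i j).1
  obtain ⟨s, C, kC, sC, cs, es, ns, fs⟩ := Ok.gp (P := fam (V := V.prod U) O F)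
    (r.mono fun z i g b => i g (congrArg Prod.fst b)) (N := X.fr ×ˢ Ioo (0 : ℝ) 1)
    (show IsOpen (X.fr ×ˢ Ioo (0 : ℝ) 1) from X.fr_open.prod isOpen_Ioo) (fun z i => ⟨r.fr i,
      by linarith [(zF z i.1 i.2).2.1], by linarith [(zF z i.1 i.2).2.2]⟩) fun z _ => hd z
  have n : IsClosedEmbedding fun z : X.Z × I => ((z.1, z.2) : X.Z × ℝ) :=
    IsClosedEmbedding.id.prodMap isClosed_Icc.isClosedEmbedding_subtypeVal
  have cs' : ContinuousOn (fun z : X.Z × I => s (z.1, (z.2 : ℝ))) {z | (z.1, (z.2 : ℝ)) ∈ O} :=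
    cs.comp n.continuous.continuousOn fun _ i => i
  have zs : ∀ (x : X.Z) (t : I), (x, (t : ℝ)) ∈ O → (s (x, (t : ℝ))).1 = 0 → (x, (t : ℝ)) ∈
      {z : X.Z × ℝ | (z.1, a z.2) ∈ H.Z ∧ z.2 ∈ Icc (0 : ℝ) 1} ∪ C := fun x t i j =>
    or_iff_not_imp_right.2 fun b => ⟨⟨i, (congrArg Prod.fst (fs _ b)).symm.trans j⟩, t.2⟩
  have s0 : ∀ x, s (x, ((0 : I) : ℝ)) = F (x, 0) := fun x => fs _ fun b => (sC b).2.2.1.false
  have s1 : ∀ x, s (x, ((1 : I) : ℝ)) = F (x, 1) := fun x => fs _ fun b => (sC b).2.2.2.false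
  refine ⟨fam {z : X.Z × I | (z.1, (z.2 : ℝ)) ∈ O} fun z => (s (z.1, (z.2 : ℝ))).1,
    fun z => (s (z.1, (z.2 : ℝ))).2, fam_ok (r.op.preimage n.continuous)
      (fun g x t i => r.inv g (x, (t : ℝ)) i) cs'.fst
      (fun g x t i => congrArg Prod.fst (es g (x, (t : ℝ)) i))
      (cp_of_sub (n.isCompact_preimage (kZ.union kC))
        (fun z i => i.elim (fun i => i.1.1) fun i => (sC i).1) cs'.fst fun z => zs z.1 z.2)
      fun x t i j => (zs x t i j).elim (fun i => c.fr i.1) fun i => (sC i).2.1,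
    ⟨cs'.snd, fun g z i => congrArg Prod.snd (es g (z.1, Subtype.val z.2) i),
      fun z i j => ns _ i.1 (Prod.ext i.2 j)⟩, Le.tr (Q := H.sl (a 0)) ⟨fun _ i => i,
        fun x _ => congrArg Prod.fst (s0 x), fun _ i => i.1⟩ (by rwa [a0 0 (by norm_num)]),
    Le.tr (Q := H.sl (a 1)) ⟨fun _ i => i, fun x _ => congrArg Prod.fst (s1 x), fun _ i => i.1⟩
      (by rwa [a1 1 (by norm_num)]), fun x => (congrArg Prod.snd (s0 x)).trans ?_,
    fun x => (congrArg Prod.snd (s1 x)).trans ?_⟩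
  · norm_num [F]
  · norm_num [F]

end PB

variable [CompactSpace Γ]

/-- bordant fibrewise problems have homotopic collapses -/
theorem FP.ht_of_hb {Y : GS Γ} {M : LS Γ} {W : Rep Γ} {P Q : FP Y M W}
    (h : PB.Hb univ P.tp Q.tp) : P.hm.Ht Q.hm := by
  obtain ⟨p, q, H, c, d, e⟩ := h
  obtain ⟨a, b, t⟩ := FP.ht_of (Y := Y) (M := M) (W := W)
    ⟨(H.sl (0 : I)).O, (H.sl (0 : I)).f⟩ ⟨(H.sl (1 : I)).O, (H.sl (1 : I)).f⟩ (Prod.swap ⁻¹' H.O)
    (fun z => H.f z.swap) (c.op.preimage continuous_swap) (fun g t x => c.inv g (x, t))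
    (c.ct.comp continuous_swap.continuousOn fun _ i => i) (fun g t x => c.eq g (x, t))
    ((Homeomorph.prodComm _ _).isClosedEmbedding.isCompact_preimage c.cp)
    (fun _ => Iff.rfl) (fun _ _ => rfl) (fun _ => Iff.rfl) fun _ _ => rfl
  exact (((FP.ok_iff P).2 p).exc a d.sub d.eq fun x o z => d.z ⟨o, z⟩).tr
    (t.tr (((FP.ok_iff Q).2 q).exc b e.sub e.eq fun x o z => e.z ⟨o, z⟩).sy)

namespace PB
variable {X : LS Γ} {V U : Rep Γ} {P Q : PB X V} {S : Set X.Z} {Y : GS Γ} {j : Y.Z → U.W}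

/-- the dual problem is admissible -/
theorem Th_ok (h : P.Ok S) {k : X.Z → U.W} (l : P.Lift U k) (cj : Continuous j)
    (ej : ∀ g y, j (Y.act g y) = U.ρ g (j y)) (nj : ∀ y, j y ≠ 0) : (P.Th U k Y j).Ok := by
  have m : Continuous fun z : Y.Z × X.Z × ℝ => z.2.1 := continuous_snd.fst
  have ct : ContinuousOn (fun z : Y.Z × X.Z × ℝ =>
      ((P.f z.2.1, k z.2.1 - Real.exp z.2.2 • j z.1) : V.W × U.W)) {z | z.2.1 ∈ P.O} :=
    (h.ct.comp m.continuousOn fun _ i => i).prodMk ((l.ct.comp m.continuousOn fun _ i => i).sub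
      (Continuous.continuousOn (by fun_prop)))
  have ck : ContinuousOn (fun p : Y.Z × X.Z => k p.2) (univ ×ˢ P.Z) :=
    l.ct.comp continuousOn_snd fun _ i => i.2.1
  refine ⟨h.op.preimage m, fun g z i => h.inv g _ i, ct, fun g z i => Prod.ext (h.eq g _ i) ?_,
    cp_of_sub (E := V.W × U.W) (K := (fun p : Y.Z × X.Z => (p.1, (p.2, Real.log (‖k p.2‖ / ‖j p.1‖)))) '' univ ×ˢ P.Z)
      ((isCompact_univ.prod h.cp).image_of_continuousOn (continuousOn_fst.prodMk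
        (continuousOn_snd.prodMk ((ck.norm.div (cj.comp continuous_fst).norm.continuousOn
          fun p _ => norm_ne_zero_iff.2 (nj _)).log fun p i =>
            div_ne_zero (norm_ne_zero_iff.2 (l.nz _ i.2)) (norm_ne_zero_iff.2 (nj _))))))
      ?_ ct fun z i e => ⟨(z.1, z.2.1), ⟨trivial, i, congrArg Prod.fst e⟩, ?_⟩⟩
  · change k (X.act g z.2.1) - _ • j (Y.act g z.1) = U.ρ g (k z.2.1 - _ • j z.1)
    rw [l.eq g _ i, ej, map_sub, map_smul]; rfl
  · rintro _ ⟨p, i, rfl⟩; exact i.2.1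
  · have : k z.2.1 = Real.exp z.2.2 • j z.1 := sub_eq_zero.1 (congrArg Prod.snd e)
    refine Prod.ext rfl (Prod.ext rfl ?_)
    simp only [this, norm_smul, Real.norm_eq_abs, abs_of_pos (Real.exp_pos _)]
    rw [mul_div_cancel_right₀ _ (norm_ne_zero_iff.2 (nj _)), Real.log_exp]

theorem Le.th (h : P.Le Q) {k k' : X.Z → U.W} (e : ∀ x ∈ P.O, k x = k' x) :
    (P.Th U k Y j).tp.Le (Q.Th U k' Y j).tp :=
  ⟨fun z i => h.sub i, fun z i => Prod.ext (h.eq _ i) (congrArg (· - _) (e _ i)),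
    fun z i => h.z ⟨i.1, congrArg Prod.fst i.2⟩⟩

theorem Lift.sl {H : PB X.cy V} {κ : X.Z × I → U.W} (l : H.Lift U κ) (t : I) :
    (H.sl t).Lift U fun x => κ (x, t) :=
  ⟨l.ct.comp (continuous_id.prodMk continuous_const).continuousOn fun _ i => i,
    fun g x i => l.eq g (x, t) i, fun x i => l.nz (x, t) i⟩

/-- a bordism of cycles gives a bordism of the dual problems -/
theorem Th_hb {H : PB X.cy V} (h : H.Ok (Prod.fst ⁻¹' S)) {κ : X.Z × I → U.W} (l : H.Lift U κ)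
    (cj : Continuous j) (ej : ∀ g y, j (Y.act g y) = U.ρ g (j y)) (nj : ∀ y, j y ≠ 0) :
    Hb univ ((H.sl (0 : I)).Th U (fun x => κ (x, 0)) Y j).tp
      ((H.sl (1 : I)).Th U (fun x => κ (x, 1)) Y j).tp := by
  have T := Th_ok h l cj ej nj
  have m : IsClosedEmbedding fun z : (Y.Z × X.Z × ℝ) × I =>
      ((z.1.1, (z.1.2.1, z.2), z.1.2.2) : Y.Z × (X.Z × I) × ℝ) :=
    Function.LeftInverse.isClosedEmbedding (f := fun z => ((z.1, z.2.1.1, z.2.2), z.2.1.2))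
      (fun _ => rfl) (by fun_prop) (by fun_prop)
  exact hb_of ((FP.ok_iff _).1 (Th_ok (h.sl _) (l.sl _) cj ej nj))
    ((FP.ok_iff _).1 (Th_ok (h.sl _) (l.sl _) cj ej nj)) (_ ⁻¹' (H.Th U κ Y j).O)
    (fun z => (H.Th U κ Y j).f (z.1.1, (z.1.2.1, z.2), z.1.2.2)) (T.op.preimage m.continuous)
    (fun g x t i => T.inv g _ i) (T.ct.comp m.continuous.continuousOn fun _ i => i)
    (fun g x t i => T.eq g _ i) (m.isCompact_preimage T.cp) (fun _ _ _ _ => trivial)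
    (Le.rfl' _) (Le.rfl' _)

/-- **the dual problem depends only on the bordism class** -/
theorem cyc_hb [Finite Γ] (h : P.Bd Q) {k k' : X.Z → U.W} (l : P.Lift U k) (l' : Q.Lift U k')
    (hd : ∀ z : X.Z × ℝ, Gp.Dm (V.W × U.W) z) (cj : Continuous j)
    (ej : ∀ g y, j (Y.act g y) = U.ρ g (j y)) (nj : ∀ y, j y ≠ 0) :
    Hb univ (P.Th U k Y j).tp (Q.Th U k' Y j).tp := by
  obtain ⟨H, κ, a, b, c, d, e, f⟩ := cyc_bd h l l' hd
  have t := Th_hb a b cj ej nj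
  exact ((c.th fun x _ => e x).hb t.1 ((FP.ok_iff _).1 (Th_ok h.1 l cj ej nj))).sy.tr
    (t.tr ((d.th fun x _ => f x).hb t.2.1 ((FP.ok_iff _).1 (Th_ok h.2.1 l' cj ej nj))))

theorem cyc_un [Finite Γ] (h : P.Bd Q) {k k' : X.Z → U.W} (l : P.Lift U k) (l' : Q.Lift U k')
    (hd : ∀ z : X.Z × ℝ, Gp.Dm (V.W × U.W) z) (cj : Continuous j)
    (ej : ∀ g y, j (Y.act g y) = U.ρ g (j y)) (nj : ∀ y, j y ≠ 0) :
    (P.Th U k Y j).hm.Ht (Q.Th U k' Y j).hm := FP.ht_of_hb (cyc_hb h l l' hd cj ej nj)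

end PB

end Crest.Agent.N218.K

end
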