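import Crest.Agent.N218.K.Defs

/-!
# Row 218, block D0 (helper56): line bundles of characters
-/

set_option autoImplicit false
set_option linter.unusedVariables false

open Crest.Agent.R204.K357 Topology Filter Set OnePoint ComplexConjugate Matrix
open scoped Kronecker

noncomputable section

namespace Crest.Agent.N218.K

theorem pull_comp {X Y Z : Type} [TopologicalSpace X] [TopologicalSpace Y] [TopologicalSpace Z]
    (f : C(X, Y)) (g : C(Y, Z)) (x : KX Z) : pull (g.comp f) x = pull f (pull g x) :=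
  K0.map_comp ((ContinuousMap.compRightAlgHom ℂ ℂ f : C(Y, ℂ) →ₐ[ℂ] C(X, ℂ)) : C(Y, ℂ) →+* C(X, ℂ))
    ((ContinuousMap.compRightAlgHom ℂ ℂ g : C(Z, ℂ) →ₐ[ℂ] C(Y, ℂ)) : C(Z, ℂ) →+* C(Y, ℂ)) x

theorem pull_id {X : Type} [TopologicalSpace X] (x : KX X) : pull (.id X) x = x := K0.map_id x

theorem pull_pull {X Y Z : Type} [TopologicalSpace X] [TopologicalSpace Y] [TopologicalSpace Z]
    (f : C(X, Y)) (g : C(Y, Z)) (h : C(X, Z)) (H : ∀ x, g (f x) = h x) (x : KX Z) :
    pull f (pull g x) = pull h x := by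
  rw [← pull_comp]; congr 2; exact ContinuousMap.ext H

theorem pull_pull_id {X Y : Type} [TopologicalSpace X] [TopologicalSpace Y]
    (f : C(X, Y)) (g : C(Y, X)) (H : ∀ x, g (f x) = x) (x : KX X) : pull f (pull g x) = x := by
  rw [pull_pull f g (.id X) H, pull_id]

theorem ps_pull {X Y : Type} [TopologicalSpace X] [TopologicalSpace Y] (f : C(X, Y)) (x : KX Y) :
    ps _ (pull f x) = pull f (ps _ x) := psi_map _ x

section ln
variable {X X' : Type} [TopologicalSpace X] [TopologicalSpace X'] {ι κ μ : Type} [Fintype ι]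
  [Fintype κ] [Fintype μ]

/-- the class of an idempotent -/
def kc (e : Matrix ι ι C(X, ℂ)) : KX X := @K0.cls _ CommRing.toRing ι _ e

/-- unit vectors -/
def Un1 (w : ι → ℂ) : Prop := ∑ i, conj (w i) * w i = 1

/-- `v x = w w'^*` -/
def Op (v : Matrix ι κ C(X, ℂ)) (x : X) (w : ι → ℂ) (w' : κ → ℂ) : Prop :=
  ∀ i j, v i j x = w i * conj (w' j)

omit [Fintype ι] [Fintype μ] in
theorem mul_ap (v : Matrix ι κ C(X, ℂ)) (v' : Matrix κ μ C(X, ℂ)) (i : ι) (k : μ) (x : X) :
    (v * v') i k x = ∑ j, v i j x * v' j k x := by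
  simp [Matrix.mul_apply]

omit [Fintype ι] [Fintype μ] in
theorem Op.mul {v : Matrix ι κ C(X, ℂ)} {v' : Matrix κ μ C(X, ℂ)} {x : X} {w : ι → ℂ}
    {w' u : κ → ℂ} {w'' : μ → ℂ} (h : Op v x w w') (h' : Op v' x u w'') (i : ι) (k : μ) :
    (v * v') i k x = (∑ j, conj (w' j) * u j) * (w i * conj (w'' k)) := by
  rw [mul_ap, Finset.sum_mul]
  exact Finset.sum_congr rfl fun j _ => by rw [h, h']; ring

/-- orthogonal projections of rank one -/
def Ln (e : Matrix ι ι C(X, ℂ)) : Prop := ∀ x, ∃ w, Un1 w ∧ Op e x w w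

theorem Ln.idem {e : Matrix ι ι C(X, ℂ)} (h : Ln e) : e * e = e := by
  ext i k x
  obtain ⟨w, a, b⟩ := h x
  rw [b.mul b, a, one_mul, b]

theorem Ln.isLine {e : Matrix ι ι C(X, ℂ)} (h : Ln e) : IsLine e := fun i j k l => by
  ext x
  obtain ⟨w, a, b⟩ := h x
  simp only [ContinuousMap.mul_apply, b _ _]; ring

theorem Ln.ps {e : Matrix ι ι C(X, ℂ)} (h : Ln e) : ps _ (kc e) = kc e ^ 3 :=
  psi_line h.idem h.isLine

theorem pull_kc (f : C(X', X)) {e : Matrix ι ι C(X, ℂ)} (h : e * e = e) :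
    pull f (kc e) = kc (Matrix.of fun i j => (e i j).comp f) := K0.map_cls _ h

/-- comparison of two lines -/
theorem kc_ln {e : Matrix ι ι C(X, ℂ)} {e' : Matrix κ κ C(X, ℂ)} (v : Matrix ι κ C(X, ℂ))
    (h : ∀ x, ∃ w w', Un1 w ∧ Un1 w' ∧ Op e x w w ∧ Op e' x w' w' ∧ Op v x w w') :
    kc e = kc e' := by
  have he : Ln e := fun x => let ⟨w, _, a, _, b, _⟩ := h x; ⟨w, a, b⟩
  have he' : Ln e' := fun x => let ⟨_, w, _, a, _, b, _⟩ := h x; ⟨w, a, b⟩
  have st : ∀ x w w', Op v x w w' → Op (Matrix.of fun j i => star (v i j)) x w' w :=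
    fun x w w' a j i => by
      change star (v i j x) = _
      rw [a]; simp [mul_comm]
  refine K0.cls_eq he.idem he'.idem ⟨v, Matrix.of fun j i => star (v i j), ?_, ?_⟩
  · ext i k x
    obtain ⟨w, w', a, a', b, b', c⟩ := h x
    rw [c.mul (st x w w' c), a', one_mul, b]
  · ext i k x
    obtain ⟨w, w', a, a', b, b', c⟩ := h x
    rw [(st x w w' c).mul c, a, one_mul, b']

theorem kc_kron {e : Matrix ι ι C(X, ℂ)} {e' : Matrix κ κ C(X, ℂ)} (h : e * e = e)
    (h' : e' * e' = e') : kc (e ⊗ₖ e') = kc e * kc e' := K0.cls_kron h h'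

theorem kc_one : kc (1 : Matrix Unit Unit C(X, ℂ)) = 1 := K0.cls_one_unit

theorem Un1.kron {w : ι → ℂ} {w' : κ → ℂ} (h : Un1 w) (h' : Un1 w') :
    Un1 fun p : ι × κ => w p.1 * w' p.2 := by
  unfold Un1 at *
  have e : (∑ i, conj (w i) * w i) * ∑ j, conj (w' j) * w' j = 1 := by rw [h, h', one_mul]
  rw [Fintype.sum_prod_type, ← e, Finset.sum_mul_sum]
  exact Finset.sum_congr rfl fun i _ => Finset.sum_congr rfl fun j _ => by rw [map_mul]; ring

omit [Fintype ι] [Fintype κ] in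
theorem Op.kron {e : Matrix ι ι C(X, ℂ)} {e' : Matrix κ κ C(X, ℂ)} {x : X} {w : ι → ℂ}
    {w' : κ → ℂ} (h : Op e x w w) (h' : Op e' x w' w') :
    Op (e ⊗ₖ e') x (fun p => w p.1 * w' p.2) fun p => w p.1 * w' p.2 := fun i j => by
  simp only [kroneckerMap_apply, ContinuousMap.mul_apply, h _ _, h' _ _, map_mul]; ring

theorem un1_unit : Un1 fun _ : Unit => (1 : ℂ) := by simp [Un1]

theorem op_one (x : X) : Op (1 : Matrix Unit Unit C(X, ℂ)) x (fun _ => 1) fun _ => 1 :=
  fun _ _ => by simp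

end ln

theorem circ_conj (z : Circle) : (z : ℂ) * conj (z : ℂ) = 1 := by
  rw [Complex.mul_conj, Circle.normSq_coe]; simp

variable {Γ Γ' : Type} [Group Γ] [TopologicalSpace Γ] [Group Γ'] [TopologicalSpace Γ']

theorem Un1.smul {ι : Type} [Fintype ι] {u : ι → ℂ} (h : Un1 u) (z : Circle) :
    Un1 fun i => z * u i :=
  (Finset.sum_congr rfl fun i _ => by
    rw [map_mul]; linear_combination (conj (u i) * u i) * circ_conj z).trans h

theorem Un1.norm_le {ι : Type} [Fintype ι] {u : ι → ℂ} (hu : Un1 u) (i : ι) : ‖u i‖ ≤ 1 := by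
  have h : ∑ i, Complex.normSq (u i) = 1 := by
    have := congrArg Complex.re (show ∑ i, conj (u i) * u i = 1 from hu)
    simpa [Complex.normSq_apply] using this
  have := Finset.single_le_sum (f := fun i => Complex.normSq (u i))
    (fun i _ => Complex.normSq_nonneg _) (Finset.mem_univ i)
  rw [h, Complex.normSq_eq_norm_sq] at this
  nlinarith [norm_nonneg (u i)]

/-- the unit sphere of `ℂ^r` -/
abbrev US (r : ℕ) : Type := {u : Fin r → ℂ // Un1 u}

instance (r : ℕ) : CompactSpace (US r) :=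
  isCompact_iff_compactSpace.1 (Metric.isCompact_of_isClosed_isBounded
    (s := {u : Fin r → ℂ | Un1 u})
    (isClosed_eq (by fun_prop) continuous_const) (isBounded_iff_forall_norm_le.2 ⟨1, fun u hu =>
      (pi_norm_le_iff_of_nonneg zero_le_one).2 fun i => Un1.norm_le hu i⟩))

/-- the unit sphere of `r χ` -/
def Sp (χ : Γ →* Circle) (hχ : Continuous χ) (r : ℕ) : GS Γ where
  Z := US r
  act g u := ⟨fun i => χ g * u.1 i, u.2.smul _⟩
  one z := by ext; simp
  mul g h z := by ext; simp [mul_assoc]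
  cont := Continuous.subtype_mk (continuous_pi fun i =>
    (continuous_subtype_val.comp (hχ.comp continuous_fst)).mul
      ((continuous_apply i).comp (continuous_subtype_val.comp continuous_snd))) _

end Crest.Agent.N218.K

end
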