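import Crest.Agent.N218.K.Defs

/-!
# Row 218, block D0 (helper36): `Sb Y (M × ℝ)` is the fibrewise suspension of `Sb Y M`
-/

set_option autoImplicit false
set_option linter.unusedVariables false

open Crest.Agent.R204.K357 unitInterval Topology Filter Set OnePoint

noncomputable section

namespace Crest.Agent.N218.K

/-- the smash map -/
def wdg {A B : Type} (z : OnePoint A × OnePoint B) : OnePoint (A × B) :=
  OnePoint.rec ∞ (fun a => OnePoint.rec ∞ (fun b => ((a, b) : A × B)) z.2) z.1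

@[simp] theorem wdg_l {A B : Type} (b : OnePoint B) : wdg ((∞ : OnePoint A), b) = ∞ := rfl
@[simp] theorem wdg_r {A B : Type} (a : OnePoint A) : wdg (a, (∞ : OnePoint B)) = ∞ := by
  induction a using OnePoint.rec <;> rfl
@[simp] theorem wdg_coe {A B : Type} (a : A) (b : B) :
    wdg ((a : OnePoint A), (b : OnePoint B)) = ((a, b) : A × B) := rfl

theorem wdg_eq_coe {A B : Type} {z : OnePoint A × OnePoint B} {w : A × B} (h : wdg z = w) :
    z.1 = w.1 ∧ z.2 = w.2 := by
  obtain ⟨a, b⟩ := z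
  induction a using OnePoint.rec with
  | infty => exact absurd h (infty_ne_coe _)
  | coe a =>
    induction b using OnePoint.rec with
    | infty => exact absurd h (infty_ne_coe _)
    | coe b => obtain rfl := coe_injective h; exact ⟨rfl, rfl⟩

theorem continuous_wdg {A B : Type} [TopologicalSpace A] [TopologicalSpace B] [T2Space A]
    [T2Space B] [LocallyCompactSpace A] [LocallyCompactSpace B] : Continuous (wdg : OnePoint A × OnePoint B → OnePoint (A × B)) := by
  rw [continuous_iff_continuousAt]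
  have key : ∀ z : OnePoint A × OnePoint B, (z.1 = ∞ ∨ z.2 = ∞) → ContinuousAt wdg z := by
    intro z hz
    have e : wdg z = ∞ := by
      obtain ⟨a, b⟩ := z
      rcases hz with h | h
      · obtain rfl : a = ∞ := h
        rfl
      · obtain rfl : b = ∞ := h
        exact wdg_r _
    unfold ContinuousAt
    rw [e, hasBasis_nhds_infty.tendsto_right_iff]
    rintro K ⟨-, hK⟩
    have h1 : IsClosed ((↑) '' (Prod.fst '' K) : Set (OnePoint A)) :=
      ((hK.image continuous_fst).image continuous_coe).isClosed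
    have h2 : IsClosed ((↑) '' (Prod.snd '' K) : Set (OnePoint B)) :=
      ((hK.image continuous_snd).image continuous_coe).isClosed
    have h3 : ∀ᶠ w : OnePoint A × OnePoint B in 𝓝 z,
        w ∈ (((↑) '' (Prod.fst '' K)) ×ˢ ((↑) '' (Prod.snd '' K)))ᶜ := by
      refine (h1.prod h2).isOpen_compl.mem_nhds ?_
      rintro ⟨⟨a, -, ha⟩, ⟨b, -, hb⟩⟩
      rcases hz with h | h
      · exact coe_ne_infty _ (ha.trans h)
      · exact coe_ne_infty _ (hb.trans h)
    filter_upwards [h3] with w hw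
    induction e' : wdg w using OnePoint.rec with
    | infty => exact .inr rfl
    | coe v =>
      obtain ⟨e1, e2⟩ := wdg_eq_coe e'
      exact .inl ⟨v, fun hv => hw ⟨⟨_, ⟨v, hv, rfl⟩, e1.symm⟩, ⟨_, ⟨v, hv, rfl⟩, e2.symm⟩⟩, rfl⟩
  rintro ⟨a, b⟩
  induction a using OnePoint.rec with
  | infty => exact key _ (.inl rfl)
  | coe a =>
    induction b using OnePoint.rec with
    | infty => exact key _ (.inr rfl)
    | coe b =>
      have e : IsOpenEmbedding (Prod.map (↑) (↑) : A × B → OnePoint A × OnePoint B) :=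
        isOpenEmbedding_coe.prodMap isOpenEmbedding_coe
      exact (e.continuousAt_iff (x := (a, b))).1 continuous_coe.continuousAt

/-- the interval onto the compactified line -/
def thI (t : I) : OnePoint ℝ :=
  if (t : ℝ) * (1 - t) = 0 then ∞ else ((2 * (t : ℝ) - 1) / ((t : ℝ) * (1 - t)) : ℝ)

theorem thI_infty {t : I} : thI t = ∞ ↔ t = 0 ∨ t = 1 := by
  unfold thI
  split_ifs with h
  · simp only [true_iff]
    rcases mul_eq_zero.1 h with h | h
    · exact .inl (Subtype.ext h)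
    · exact .inr (Subtype.ext (by simpa using (sub_eq_zero.1 h).symm))
  · simp only [coe_ne_infty, false_iff]
    rintro (rfl | rfl) <;> simp at h

theorem thI_coe {t : I} {x : ℝ} (h : thI t = x) :
    0 < (t : ℝ) ∧ (t : ℝ) < 1 ∧ x * ((t : ℝ) * (1 - t)) = 2 * t - 1 := by
  unfold thI at h
  split_ifs at h with h0
  · exact absurd h (infty_ne_coe _)
  · obtain ⟨a, b⟩ := mul_ne_zero_iff.1 h0
    refine ⟨lt_of_le_of_ne t.2.1 (Ne.symm a), lt_of_le_of_ne t.2.2 fun e => b (by rw [e]; simp), ?_⟩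
    rw [← coe_injective h]; field_simp

theorem thI_inj {t t' : I} {x : ℝ} (h : thI t = x) (h' : thI t' = x) : t = t' := by
  obtain ⟨a, b, c⟩ := thI_coe h
  obtain ⟨a', b', c'⟩ := thI_coe h'
  apply Subtype.ext
  generalize (t : ℝ) = u at *
  generalize (t' : ℝ) = v at *
  have k : (u - v) * (u * v + (1 - u) * (1 - v)) = 0 := by
    have : (2 * u - 1) * (v * (1 - v)) = (2 * v - 1) * (u * (1 - u)) := by rw [← c, ← c']; ring
    linear_combination this
  rcases mul_eq_zero.1 k with k | k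
  · linarith
  · nlinarith [mul_pos a a', mul_pos (sub_pos.2 b) (sub_pos.2 b')]

theorem thI_surj : Function.Surjective thI := by
  intro z
  induction z using OnePoint.rec with
  | infty => exact ⟨0, thI_infty.2 (.inl rfl)⟩
  | coe x =>
    have hc : ContinuousOn (fun t : ℝ => 2 * t - 1 - x * (t * (1 - t))) (Icc 0 1) := by fun_prop
    obtain ⟨t, ht, e⟩ := intermediate_value_Icc zero_le_one hc
      (show (0 : ℝ) ∈ Icc _ _ from ⟨by norm_num, by norm_num⟩)
    have e' : 2 * t - 1 - x * (t * (1 - t)) = 0 := e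
    have h0 : t * (1 - t) ≠ 0 := fun h => by
      rw [h] at e'
      have : t = 1 / 2 := by linarith
      rw [this] at h; norm_num at h
    refine ⟨⟨t, ht⟩, ?_⟩
    unfold thI
    rw [if_neg h0]
    congr 1
    rw [div_eq_iff h0]; linarith

theorem continuous_thI : Continuous thI := by
  rw [continuous_iff_continuousAt]
  intro t
  by_cases h : (t : ℝ) * (1 - t) = 0
  · have e : thI t = ∞ := if_pos h
    unfold ContinuousAt
    rw [e, hasBasis_nhds_infty.tendsto_right_iff]
    rintro K ⟨-, hK⟩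
    obtain ⟨C, hC⟩ := hK.isBounded.exists_norm_le
    have h3 : ∀ᶠ s : I in 𝓝 t, C * ((s : ℝ) * (1 - s)) < |2 * (s : ℝ) - 1| := by
      refine ContinuousAt.eventually_lt (by fun_prop) (by fun_prop) ?_
      rw [h, mul_zero]
      rcases mul_eq_zero.1 h with h | h
      · rw [h]; norm_num
      · rw [show (t : ℝ) = 1 by linarith]; norm_num
    filter_upwards [h3] with s hs
    induction e' : thI s using OnePoint.rec with
    | infty => exact .inr rfl
    | coe x =>
      obtain ⟨a, b, c⟩ := thI_coe e'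
      refine .inl ⟨x, fun hx => ?_, rfl⟩
      have p := mul_pos a (sub_pos.2 b)
      rw [← c, abs_mul, abs_of_pos p] at hs
      exact absurd (mul_le_mul_of_nonneg_right (hC x hx) p.le) (not_le.2 hs)
  · have h3 : ∀ᶠ s : I in 𝓝 t, (s : ℝ) * (1 - s) ≠ 0 :=
      ContinuousAt.eventually_ne (by fun_prop) h
    refine ContinuousAt.congr (f := fun s : I =>
      (((2 * (s : ℝ) - 1) / ((s : ℝ) * (1 - s)) : ℝ) : OnePoint ℝ)) ?_ ?_
    · exact continuous_coe.continuousAt.comp (ContinuousAt.div (by fun_prop) (by fun_prop) h)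
    · filter_upwards [h3] with s hs
      exact (if_neg hs).symm

variable {Γ : Type} [Group Γ] [TopologicalSpace Γ] [CompactSpace Γ]

theorem pt_eq {Y : GS Γ} {M : LS Γ} {y y' : Y.Z} {w w' : OnePoint M.Z} :
    pt Y M y w = pt Y M y' w' ↔ ∃ g, Y.act g y = y' ∧ M.sph.act g w = w' := by
  exact (Y.prod M.sph).pr_eq.trans (exists_congr fun g => Prod.ext_iff)

theorem pt_surj' (Y : GS Γ) (M : LS Γ) (e : (Sb Y M).E) : ∃ y w, pt Y M y w = e := by
  obtain ⟨⟨y, w⟩, rfl⟩ := (Y.prod M.sph).pr_surj e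
  exact ⟨y, w, rfl⟩

theorem pt_bas {Y : GS Γ} {M : LS Γ} {y : Y.Z} {w : OnePoint M.Z} :
    pt Y M y w = (Sb Y M).s ((Sb Y M).p (pt Y M y w)) ↔ w = ∞ := by
  change pt Y M y w = pt Y M y ∞ ↔ _
  refine ⟨fun h => ?_, fun h => by rw [h]⟩
  obtain ⟨g, -, h⟩ := pt_eq.1 h.symm
  exact h.symm

theorem wdg_act (M : LS Γ) (g : Γ) (w : OnePoint M.Z) (t : OnePoint ℝ) :
    (M.prod (LS.triv Γ ℝ)).sph.act g (wdg (w, t)) = wdg (M.sph.act g w, t) := by
  induction w using OnePoint.rec with
  | infty => rfl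
  | coe w => induction t using OnePoint.rec <;> rfl

/-- the suspension coordinate -/
def susC (Y : GS Γ) (M : LS Γ) (z : (Sb Y M).E × I) : (Sb Y (M.prod (LS.triv Γ ℝ))).E :=
  Quotient.lift (s := (Y.prod M.sph).rel)
    (fun a => pt Y (M.prod (LS.triv Γ ℝ)) a.1 (wdg (a.2, thI z.2)))
    (fun a b ⟨g, h⟩ => pt_eq.2 ⟨g, congrArg Prod.fst h,
      (wdg_act M g a.2 _).trans (congrArg (fun w => wdg (w, thI z.2)) (congrArg Prod.snd h))⟩) z.1

theorem susC_pt (Y : GS Γ) (M : LS Γ) (y : Y.Z) (w : OnePoint M.Z) (t : I) :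
    susC Y M (pt Y M y w, t) = pt Y (M.prod (LS.triv Γ ℝ)) y (wdg (w, thI t)) := rfl

theorem continuous_susC (Y : GS Γ) (M : LS Γ) : Continuous (susC Y M) := by
  have q : IsOpenQuotientMap (Prod.map (Y.prod M.sph).pr (id : I → I)) :=
    IsOpenQuotientMap.prodMap ⟨(Y.prod M.sph).pr_surj, (Y.prod M.sph).pr.continuous,
      (Y.prod M.sph).pr_open⟩ .id
  refine q.isQuotientMap.continuous_iff.2 ?_
  exact (Y.prod (M.prod (LS.triv Γ ℝ)).sph).pr.continuous.comp
    (continuous_fst.fst.prodMk (continuous_wdg.comp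
      (continuous_fst.snd.prodMk (continuous_thI.comp continuous_snd))))

theorem bd_pt {Y : GS Γ} {M : LS Γ} {y : Y.Z} {w : OnePoint M.Z} {t : I} :
    (Sb Y M).Bd (pt Y M y w, t) ↔ wdg (w, thI t) = ∞ := by
  unfold Ex.Bd
  simp only [pt_bas]
  rw [← or_assoc, ← thI_infty]
  induction w using OnePoint.rec with
  | infty => simp
  | coe w => induction thI t using OnePoint.rec <;> simp

/-- **`Sb Y (M × ℝ)` is the fibrewise suspension of `Sb Y M`** -/
def sd (Y : GS Γ) (M : LS Γ) : SD (Sb Y M) (Sb Y (M.prod (LS.triv Γ ℝ))) where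
  c := ⟨susC Y M, continuous_susC Y M⟩
  hp z := by
    obtain ⟨e, t⟩ := z
    obtain ⟨y, w, rfl⟩ := pt_surj' Y M e
    rfl
  bd z h := by
    obtain ⟨e, t⟩ := z
    obtain ⟨y, w, rfl⟩ := pt_surj' Y M e
    exact congrArg (pt Y (M.prod (LS.triv Γ ℝ)) y) (bd_pt.1 h)
  surj e := by
    obtain ⟨y, w, rfl⟩ := pt_surj' Y _ e
    induction w using OnePoint.rec with
    | infty => exact ⟨(pt Y M y ∞, 0), rfl⟩
    | coe w =>
      obtain ⟨w, x⟩ : M.Z × ℝ := w
      obtain ⟨t, ht⟩ := thI_surj (x : ℝ)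
      refine ⟨(pt Y M y w, t), ?_⟩
      change pt Y (M.prod (LS.triv Γ ℝ)) y (wdg (_, thI t)) = _
      rw [ht]; rfl
  inj z z' h := by
    obtain ⟨e, t⟩ := z
    obtain ⟨e', t'⟩ := z'
    obtain ⟨y, w, rfl⟩ := pt_surj' Y M e
    obtain ⟨y', w', rfl⟩ := pt_surj' Y M e'
    obtain ⟨g, h1, h2⟩ := (pt_eq (M := M.prod (LS.triv Γ ℝ)) (y := y) (y' := y')
      (w := wdg (w, thI t)) (w' := wdg (w', thI t'))).1 h
    have h3 := (wdg_act M g w (thI t)).symm.trans h2
    rw [bd_pt, bd_pt]
    induction e' : wdg (w', thI t') using OnePoint.rec with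
    | infty =>
      refine .inr ⟨?_, rfl⟩
      induction e : wdg (w, thI t) using OnePoint.rec with
      | infty => rfl
      | coe v =>
        exact absurd ((congrArg ((M.prod (LS.triv Γ ℝ)).sph.act g) e).symm.trans (h2.trans e'))
          (coe_ne_infty _)
    | coe v =>
      obtain ⟨a, b⟩ := wdg_eq_coe e'
      obtain ⟨a', b'⟩ := wdg_eq_coe (h3.trans e')
      exact .inl (Prod.ext (pt_eq.2 ⟨g, h1, a'.trans a.symm⟩) (thI_inj b' b))

theorem sd_c (Y : GS Γ) (M : LS Γ) (y : Y.Z) (w : OnePoint M.Z) (t : I) :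
    (sd Y M).c (pt Y M y w, t) = pt Y (M.prod (LS.triv Γ ℝ)) y (wdg (w, thI t)) := rfl

end Crest.Agent.N218.K

end
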