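import Crest.Agent.N218.K.Cp1
import Crest.Agent.N218.Al.Kr

/-!
# Row 218, block D0 (helper56): K-theory of projective bundles
-/

set_option autoImplicit false
set_option linter.unusedVariables false

open Crest.Agent.R204.K357 Crest.Agent.R204.Ex837 Topology Set OnePoint ComplexConjugate Polynomial

noncomputable section

namespace Crest.Agent.N218.K

/-- the Thom isomorphism for one character -/
def THOM1 : Prop := ∀ (Γ : Type) [Group Γ] [TopologicalSpace Γ] [CompactSpace Γ] (Y : GS Γ)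
  (χ : Γ →* Circle) (hχ : Continuous χ), Nonempty (Sec Y χ) → (Sb Y (ch χ hχ)).Th (lam1 Y χ hχ)

namespace Cp

variable {Γ : Type} [Group Γ] [TopologicalSpace Γ]

/-- the tautological section over `Y × S(r χ)` -/
def spS (Y : GS Γ) (χ : Γ →* Circle) (hχ : Continuous χ) (r : ℕ) : Sec (YS Y χ hχ r) χ :=
  ⟨Fin r, ⟨fun z : Y.Z × US r => z.2.1, continuous_subtype_val.comp continuous_snd⟩,
    fun z : Y.Z × US r => z.2.2, fun _ _ _ => rfl⟩

/-- the tautological section over `S(r χ)` -/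
def spS0 (χ : Γ →* Circle) (hχ : Continuous χ) (r : ℕ) : Sec (Sp χ hχ r) χ :=
  ⟨Fin r, ⟨fun z : US r => z.1, continuous_subtype_val⟩, fun z : US r => z.2, fun _ _ _ => rfl⟩

theorem cw_rel (w : UD) : (cw w : ℂ) * cw w + conj (w : ℂ) * w = 1 := by
  have c : ((cw w : ℝ) : ℂ) ^ 2 = 1 - (‖(w : ℂ)‖ ^ 2 : ℝ) := by exact_mod_cast cw_sq w
  rw [conj_mul_self]; linear_combination c

theorem al_thD (w : UD) : al (thD w) = (cw w : ℂ) * cw w := by
  by_cases h : cw w = 0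
  · rw [thD_bd h, h, al_infty]; simp
  · rw [thD_in h, al_coe, ← Complex.ofReal_mul]
    congr 1
    have := cw_sq w
    rw [norm_mul, norm_inv, Complex.norm_real, Real.norm_of_nonneg (cw_nn _)]
    refine inv_eq_of_mul_eq_one_right ?_
    field_simp
    linarith

theorem be_thD (w : UD) : be (thD w) = (w : ℂ) * cw w := by
  by_cases h : cw w = 0
  · rw [thD_bd h, h, be_infty]; simp
  · have := al_thD w
    have h' : (cw w : ℂ) ≠ 0 := by exact_mod_cast h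
    rw [thD_in h] at this ⊢
    rw [be_coe, this]; field_simp

variable [CompactSpace Γ] {Y : GS Γ} {χ : Γ →* Circle} (hχ : Continuous χ) (r : ℕ)

theorem cP_L (H : StS Y χ) :
    pull (cP hχ r H) (Lc (YS Y χ hχ (r + 1)) χ) = (spS Y χ hχ r).H hχ := by
  rw [Lc_eq (spS Y χ hχ (r + 1)), Sec.L, pull_kc _ (Sec.ln_out _).idem, Sec.H]
  let e : Fin (r + 1) → Fin r ⊕ Unit := Fin.cons (.inr ()) .inl
  refine (kc_ln (Matrix.of fun a (j : Fin (r + 1)) =>
    Sec.H2 hχ (spS Y χ hχ r) (spS Y χ hχ r) a (e j)) fun x => ?_).symm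
  obtain ⟨z, rfl⟩ := f2_surj Y χ hχ r x
  obtain ⟨y, u, w, rfl⟩ := pd_surj _ _ _ _ z
  have k := Sec.op_H2 hχ (spS Y χ hχ r) (spS Y χ hχ r) (y, u) (Complex.conj_ofReal (cw w))
    (al_thD w) (be_thD w) (cw_rel w)
  have e' : ∀ j, (spS Y χ hχ r).wv (y, u) (cw w) w (e j) = (jn r (u, w)).1 j :=
    fun j => Fin.cases rfl (fun _ => rfl) j
  refine ⟨_, (jn r (u, w)).1, Sec.un_wv _ _ (by rw [Complex.conj_ofReal, cw_rel]), (jn r (u, w)).2,
    k, fun i j => ?_, fun a j => (k a (e j)).trans (by rw [e'])⟩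
  change (spS Y χ hχ (r + 1)).out (spS Y χ hχ (r + 1)) i j (cP hχ r H _) = _
  rw [cP_f2]; rfl

theorem lam_cP (H : StS Y χ) :
    lam1 (YS Y χ hχ r) χ hχ = 1 - pull (cP hχ r H) (Lc (YS Y χ hχ (r + 1)) χ) := by
  rw [cP_L, lam1_eq hχ (spS Y χ hχ r)]

theorem jB_L (H : StS Y χ) : pull (jB hχ r H) (Lc (YS Y χ hχ (r + 1)) χ) = 1 := by
  rw [Lc_eq (spS Y χ hχ (r + 1)), Sec.L, pull_kc _ (Sec.ln_out _).idem, ← kc_one]
  refine kc_ln (Matrix.of fun (i : Fin (r + 1)) _ => .const _ ((e0 r).1 i)) fun x => ?_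
  obtain ⟨y, rfl⟩ := Y.pr_surj x
  exact ⟨(e0 r).1, _, (e0 r).2, un1_unit, fun i j => rfl, op_one _, fun i j => by simp⟩

/-- **K-theory of projective bundles** -/
theorem cp (T : THOM1) (H : StS Y χ) :
    (∀ x, ∃ p, eval₂ (pull (piB Y χ hχ r)) (Lc (YS Y χ hχ r) χ) p = x) ∧
      ∀ p, eval₂ (pull (piB Y χ hχ r)) (Lc (YS Y χ hχ r) χ) p = 0 ↔ (1 - X) ^ r ∣ p :=
  cp_of hχ H (fun r => Lc (YS Y χ hχ r) χ) (fun r => lam1 (YS Y χ hχ r) χ hχ)
    (fun r => T _ _ _ _ ⟨spS Y χ hχ r⟩) (fun r => lam_cP hχ r H)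
    (fun r => by
      rw [cP_L, lam1_eq hχ (spS Y χ hχ r), Lc_eq (spS Y χ hχ r)]; exact Sec.H_rel hχ _)
    (fun r => jB_L hχ r H) r

theorem cp_pz (T : THOM1) (H : StS Y χ) :
    Al.Pz (pull (piB Y χ hχ r)) (Lc (YS Y χ hχ r) χ) r 0 :=
  ⟨(cp hχ r T H).1, fun p h => let ⟨a, e⟩ := ((cp hχ r T H).2 p).1 h; ⟨a, 0, by simp [e]⟩⟩

theorem cp_nil (T : THOM1) (H : StS Y χ) : (1 - Lc (YS Y χ hχ r) χ) ^ r = 0 := by
  simpa [eval₂_pow] using ((cp hχ r T H).2 _).2 dvd_rfl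

end Cp

end Crest.Agent.N218.K

end
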