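import Crest.Agent.N218.K.St
import Crest.Agent.N218.K.Cy

/-!
# Row 218, block D1 (helper66): `CLE`, `CLU` and the calculus of `Cl`
-/

set_option autoImplicit false
set_option linter.unusedVariables false
set_option linter.unusedSectionVars false

open unitInterval Topology Filter Set Module

noncomputable section

namespace Crest.Agent.N218.K

section
variable {Γ : Type} [Group Γ] [TopologicalSpace Γ] (χ : Γ →* Circle) (hχ : Continuous χ) (r : ℕ)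

theorem rk_UU (V : Rep Γ) : finrank ℝ (V.W × (UU χ hχ r).W) = finrank ℝ V.W + 2 * r := by
  change finrank ℝ (V.W × (Fin r → ℂ)) = _
  rw [finrank_prod, finrank_pi_fintype]
  simp [mul_comm]

theorem us_ne (u : US r) : u.1 ≠ 0 := fun h => by
  have := u.2
  simp [Un1, h] at this

variable [CompactSpace Γ] {X : LS Γ} {V : Rep Γ} {P Q : PB X V}

theorem Tc_ok {S : Set X.Z} (h : P.Ok S) {k : X.Z → Fin r → ℂ} (l : P.Lift (UU χ hχ r) k) :
    (Tc χ hχ r P k).Ok :=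
  PB.Th_ok h l continuous_subtype_val (fun _ _ => rfl) (us_ne r)

variable {χ hχ r}
theorem Cl.fr {F} (h : Cl χ hχ r P F) : P.Fr := let ⟨_, _, b, _⟩ := h; b.1
theorem Cl.bd {F} (h : Cl χ hχ r Q F) (b : P.Bd Q) : Cl χ hχ r P F :=
  let ⟨P', k, c, d⟩ := h; ⟨P', k, b.tr c, d⟩
theorem cl_hm {P' : PB X V} (b : P.Bd P') {k : X.Z → Fin r → ℂ} (l : P'.Lift (UU χ hχ r) k) :
    Cl χ hχ r P (Tc χ hχ r P' k).hm := ⟨P', k, b, l, (Tc_ok χ hχ r b.2.1 l).rp_hm⟩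
theorem Dg.bd {l y} (h : Dg χ hχ r Q l y) (b : P.Bd Q) : Dg χ hχ r P l y :=
  let ⟨F, c, d⟩ := h; ⟨F, c.bd b, d⟩
theorem Eg.bd {l ρ x} (h : Eg χ hχ r Q l ρ x) (b : P.Bd Q) : Eg χ hχ r P l ρ x :=
  let ⟨F, c, d⟩ := h; ⟨F, c.bd b, d⟩

/-- uniqueness, for any source with general position -/
theorem Cl.ht [Finite Γ] (hd : ∀ z : X.Z × ℝ, Gp.Dm (V.W × (UU χ hχ r).W) z) {F F'}
    (h : Cl χ hχ r P F) (h' : Cl χ hχ r P F') : F.Ht F' := by
  obtain ⟨P1, k1, b1, l1, r1⟩ := h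
  obtain ⟨P2, k2, b2, l2, r2⟩ := h'
  exact (r1.ht_hm (Tc_ok χ hχ r b1.2.1 l1)).sy.tr ((PB.cyc_un (b1.sy.tr b2) l1 l2 hd
    continuous_subtype_val (fun _ _ => rfl) (us_ne r)).tr (r2.ht_hm (Tc_ok χ hχ r b2.2.1 l2)))

/-- existence, for any source with general position -/
theorem cl_ex [Finite Γ] (h : P.Fr) (hd : ∀ x ∈ P.Z, Gp.Dm (V.W × (UU χ hχ r).W) x) :
    ∃ F, Cl χ hχ r P F :=
  let ⟨_, _, b, l, _⟩ := PB.cyc_ex h (UU χ hχ r) hd; ⟨_, cl_hm b l⟩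
end

theorem clu : CLU := fun χ r X V h P F F' a b => a.ht (fun z => Gp.dm_fin (E := X.W × ℝ)
  (by rw [rk_UU, finrank_prod, finrank_self]; exact h) z) b

theorem cle : CLE := by
  intro Γ _ _ _ _ χ r X V hd P h
  let U := UU χ (cc χ) r
  let R : PB X.ls (V.prod U) := ⟨P.O, fun x => (P.f x, 0)⟩
  have z : R.Z = P.Z := Set.ext fun x =>
    ⟨fun a => ⟨a.1, congrArg Prod.fst a.2⟩, fun a => ⟨a.1, Prod.ext a.2 rfl⟩⟩
  have r' : R.Fr := ⟨h.op, h.inv, h.ct.prodMk continuousOn_const,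
    fun g x o => Prod.ext (h.eq g x o) (map_zero (U.ρ g)).symm, z ▸ h.cp, z ▸ h.fr⟩
  obtain ⟨s, C, k, b, c, d, e, f⟩ := r'.gp X.ls.fr_open r'.fr fun x _ =>
    Gp.dm_fin (E := X.W) (W := V.W × U.W) (by rw [rk_UU]; exact hd) x
  have s1 : P.Z ∪ C ⊆ P.O := union_subset (fun _ a => a.1) fun _ a => (b a).1
  have s2 : P.Z ∪ C ⊆ X.ls.fr := union_subset h.fr fun _ a => (b a).2
  have z2 : ∀ (x : X.ls.Z) (t : ℝ), x ∈ P.O → (1 - t) • P.f x + t • (s x).1 = 0 → x ∈ P.Z ∪ C :=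
    fun x t o z => or_iff_not_imp_right.2 fun n => ⟨o, by
      rw [f x n, ← add_smul, sub_add_cancel, one_smul] at z; exact z⟩
  have ct : ContinuousOn (fun z : X.ls.Z × I => (1 - (z.2 : ℝ)) • P.f z.1 + (z.2 : ℝ) • (s z.1).1)
      (Prod.fst ⁻¹' P.O) :=
    ((Continuous.continuousOn (by fun_prop)).smul (h.ct.comp continuousOn_fst fun _ a => a)).add
      ((Continuous.continuousOn (by fun_prop)).smul (c.fst.comp continuousOn_fst fun _ a => a))
  have eq : ∀ g, ∀ x ∈ P.O, (s (X.ls.act g x)).1 = V.ρ g (s x).1 := fun g x o =>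
    congrArg Prod.fst (d g x o)
  have H := PB.fam_ok (S := X.ls.fr) (h.op.preimage continuous_fst) (fun g x _ => h.inv g x) ct
    (fun g x t o => by simp only [h.eq g x o, eq g x o, map_add, map_smul])
    (cp_of_sub ((h.cp.union k).prod isCompact_univ) (fun _ a => s1 a.1) ct
      fun z o e => ⟨z2 _ _ o e, trivial⟩) fun x t o e => s2 (z2 _ _ o e)
  exact ⟨⟨P.O, fun x => (s x).1⟩, fun x => (s x).2, _,
    (h.hb_pert k b c.fst eq fun x _ n => congrArg Prod.fst (f x n)).2.1, rfl, rfl, H,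
    ⟨fun _ a => a, fun x _ => by simp [PB.sl, PB.fam], fun _ a => a.1⟩,
    ⟨fun _ a => a, fun x _ => by simp [PB.sl, PB.fam], fun _ a => a.1⟩,
    ⟨c.snd, fun g x o => congrArg Prod.snd (d g x o), fun x i n => e x i.1 (Prod.ext i.2 n)⟩⟩

end Crest.Agent.N218.K

end
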