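import Crest.Agent.N218.K.St

/-!
# Row 218, block D1 (helper29): `ψ`-invariant units act by signs
-/

set_option autoImplicit false

noncomputable section

namespace Crest.Agent.N218.K

namespace Ut
open Al PowerSeries

theorem one_big (j : ℕ) : One (2 * 2 ^ j) 7 (L ^ (8 * 2 ^ j)) := by
  induction j with
  | zero => simpa using one_8 dvd_rfl
  | succ j ih =>
    convert ih.sq (OS.pow_mem (ofNat_mem OS 2) j) using 1
    · ring
    · rw [← pow_mul]; congr 1; ring

theorem iS_mem (p : Polynomial ℤ) : iS p ∈ OS := by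
  induction p using Polynomial.induction_on' with
  | add p q hp hq => rw [map_add]; exact OS.add_mem hp hq
  | monomial n a =>
    rw [iS, Polynomial.aeval_monomial]
    exact OS.mul_mem (by rw [eq_intCast]; exact intCast_mem OS a) (OS.pow_mem L_mem n)

theorem ps_iS (p : Polynomial ℤ) : Al.ps (iS p) = iS (Polynomial.expand ℤ 3 p) := by
  induction p using Polynomial.induction_on' with
  | add p q hp hq => simp only [map_add, hp, hq]
  | monomial n a =>
    rw [Polynomial.expand_monomial, iS, Polynomial.aeval_monomial, Polynomial.aeval_monomial,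
      eq_intCast, map_mul, map_intCast, map_pow, ps_L', ← pow_mul, mul_comm n]

theorem cc_iS (p : Polynomial ℤ) : coeff 0 (iS p) = ((p.eval 1 : ℤ) : ℚ) := by
  rw [coeff_zero_eq_constantCoeff_apply]
  induction p using Polynomial.induction_on' with
  | add p q hp hq => simp only [map_add, hp, hq, Polynomial.eval_add, Int.cast_add]
  | monomial n a => simp [iS, cc_L]

theorem rel {k : ℕ} (hk : 17 ≤ k) {p : Polynomial ℤ}
    (h : p ∈ Ideal.span {(1 - Polynomial.X : Polynomial ℤ) ^ 7, Polynomial.X ^ 2 ^ k - 1}) :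
    ∃ a ∈ OS, ∃ b, iS p = C 32768 * a + t ^ 7 * b := by
  obtain ⟨x, y, rfl⟩ := Ideal.mem_span_pair.1 h
  obtain ⟨j, rfl⟩ := Nat.exists_eq_add_of_le hk
  obtain ⟨a, ha, b, -, e⟩ := one_big (14 + j)
  have h2 := OS.pow_mem (ofNat_mem OS 2) j
  refine ⟨2 ^ j * a * iS y, OS.mul_mem (OS.mul_mem h2 ha) (iS_mem y), iS x + b * iS y, ?_⟩
  have hX : iS Polynomial.X = L := Polynomial.aeval_X _
  rw [show 8 * 2 ^ (14 + j) = 2 ^ (17 + j) by ring] at e
  simp only [map_add, map_mul, map_pow, map_sub, map_one, hX, e, map_ofNat]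
  rw [L]; ring

theorem co_eq {a b c d e f g x : ℚ} {h A B : S} (k : pl a b c d e f g + t ^ 7 * h =
    C x * A + t ^ 7 * B) : b = x * coeff 1 A ∧ c = x * coeff 2 A ∧ d = x * coeff 3 A ∧
      e = x * coeff 4 A ∧ f = x * coeff 5 A := by
  have := fun n => congrArg (coeff n) k
  simp only [map_add, coeff_C_mul, t, coeff_X_pow_mul'] at this
  refine ⟨?_, ?_, ?_, ?_, ?_⟩
  · simpa [pl, t, coeff_X_pow, coeff_X, coeff_C] using this 1
  · simpa [pl, t, coeff_X_pow, coeff_X, coeff_C] using this 2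
  · simpa [pl, t, coeff_X_pow, coeff_X, coeff_C] using this 3
  · simpa [pl, t, coeff_X_pow, coeff_X, coeff_C] using this 4
  · simpa [pl, t, coeff_X_pow, coeff_X, coeff_C] using this 5

theorem ps_pl (a b c d e f g : ℚ) (h : S) : ∃ g' h', Al.ps (pl a b c d e f g + t ^ 7 * h) -
    (pl a b c d e f g + t ^ 7 * h) = pl 0 (2 * b) (8 * c - 3 * b) (26 * d - 18 * c + b)
      (80 * e - 81 * d + 15 * c) (242 * f - 324 * e + 108 * d - 6 * c) g' + t ^ 7 * h' := by
  refine ⟨728 * g - 1215 * f + 594 * e - 81 * d + c, r ^ 7 * Al.ps h - h +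
    C d * (36 - 9 * t + t ^ 2) +
    C e * (-648 + 459 * t - 216 * t ^ 2 + 66 * t ^ 3 - 12 * t ^ 4 + t ^ 5) +
    C f * (2835 - 4050 * t + 3915 * t ^ 2 - 2673 * t ^ 3 + 1305 * t ^ 4 - 450 * t ^ 5 +
      105 * t ^ 6 - 15 * t ^ 7 + t ^ 8) +
    C g * ((t - 3) * (r ^ 5 + 3 * r ^ 4 + 9 * r ^ 3 + 27 * r ^ 2 + 81 * r + 243)), ?_⟩
  simp only [pl, map_add, map_sub, map_mul, map_pow, ps_C, ps_t, map_ofNat, map_zero, r]
  ring

end Ut

open Al PowerSeries in
/-- **UNIT** -/
theorem unit : UNIT := by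
  intro k hk w w' h1 h2
  have e1 : w.eval 1 * w'.eval 1 = 1 := by
    obtain ⟨x, y, e⟩ := Ideal.mem_span_pair.1 h1
    have := congrArg (Polynomial.eval 1) e
    simp only [Polynomial.eval_add, Polynomial.eval_mul, Polynomial.eval_pow, Polynomial.eval_sub,
      Polynomial.eval_one, Polynomial.eval_X, one_pow, sub_self] at this
    linear_combination -this
  refine ⟨Units.mkOfMulEqOne _ _ e1, fun h hh => ?_⟩
  obtain ⟨A, hA, B, eq⟩ := Ut.rel hk h2
  obtain ⟨z, hz⟩ := exists_pl (iS w)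
  rw [Ut.cc_iS] at hz
  generalize coeff 1 (iS w) = b, coeff 2 (iS w) = c, coeff 3 (iS w) = d, coeff 4 (iS w) = e,
    coeff 5 (iS w) = f, coeff 6 (iS w) = g at hz
  obtain ⟨g', z', k⟩ := Ut.ps_pl ((w.eval 1 : ℤ) : ℚ) b c d e f g z
  rw [map_sub, ← Ut.ps_iS, hz, k] at eq
  obtain ⟨k1, k2, k3, k4, k5⟩ := Ut.co_eq eq
  have m := fun (n : ℤ) {x : ℚ} (h : x ∈ O2) => O2.mul_mem (intCast_mem O2 n) h
  have b1 : b / 2048 ∈ O2 := by
    convert m 8 (hA 1) using 1; push_cast; linarith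
  have c1 : c / 2048 ∈ O2 := by
    convert O2.add_mem (m 2 (hA 2)) (m 3 (hA 1)) using 1; push_cast; linarith
  have d1 : d / 2048 ∈ O2 := by
    refine of_odd_mul (n := 13) (by decide) ?_
    convert O2.add_mem (O2.add_mem (m 8 (hA 3)) (m 9 c1)) (m (-4) (hA 1)) using 1
    push_cast; linarith
  have e1' : e / 128 ∈ O2 := by
    refine of_odd_mul (n := 5) (by decide) ?_
    convert O2.add_mem (O2.add_mem (m 16 (hA 4)) (m 81 d1)) (m (-15) c1) using 1
    push_cast; linarith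
  have f1 : f / 32 ∈ O2 := by
    refine of_odd_mul (n := 121) (by decide) ?_
    convert O2.add_mem (O2.add_mem (O2.add_mem (m 512 (hA 5)) (m 648 e1')) (m (-3456) d1))
      (m 192 c1) using 1
    push_cast; linarith
  have p := fun n => OS.pow_mem t_mem n
  have mm := fun (n : ℤ) {x : ℚ} (h : x ∈ O2) (i : ℕ) => OS.mul_mem (C_mem (m n h)) (p i)
  have := ph_32 (OS.mul_mem (OS.add_mem (OS.add_mem (OS.add_mem (OS.add_mem (mm 64 b1 1)
    (mm 64 c1 2)) (mm 64 d1 3)) (mm 4 e1' 4)) (mm 1 f1 5)) hh)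
  rw [Units.val_mkOfMulEqOne, ← ph_C, ← map_sub, hz]
  convert this using 1
  rw [← sub_eq_zero, ← map_sub, ← ph_t6 ((C g + t * z) * h)]
  congr 1
  have q : ∀ (x n : ℚ) (a : ℤ), 32 * (a : ℚ) / n = 1 →
      (32 : S) * C ((a : ℚ) * (x / n)) = C x := by
    intro x n a ha
    rw [show (32 : S) = C 32 from (map_ofNat C 32).symm, ← map_mul]
    congr 1; linear_combination x * ha
  rw [pl]
  linear_combination (-h * t) * q b 2048 64 (by norm_num) - h * t ^ 2 * q c 2048 64 (by norm_num) -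
    h * t ^ 3 * q d 2048 64 (by norm_num) - h * t ^ 4 * q e 128 4 (by norm_num) -
    h * t ^ 5 * q f 32 1 (by norm_num)

end Crest.Agent.N218.K

end
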