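import Crest.Agent.R204.Ex6_837
import Crest.Agent.N218.K.Defs

/-! Abstract smash products over a base ring `k`: the reduced `K`-group of the smash `S` is the
group of classes of the product `P` which die on both axes. -/

noncomputable section

namespace Crest.Agent.N218.K

open Crest.Agent.R204 Crest.Agent.R204.Ex837
open K357 (K0 psi)

section KA

variable {A B C : Type} [CommRing A] [CommRing B] [CommRing C] [Algebra ℂ A] [Algebra ℂ B]
  [Algebra ℂ C]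

theorem ka_comp (g : B →ₐ[ℂ] C) (f : A →ₐ[ℂ] B) (x : KC A) :
    KA (g.comp f) x = KA g (KA f x) := K0.map_comp (g : B →+* C) (f : A →+* B) x

theorem ka_id (x : KC A) : KA (AlgHom.id ℂ A) x = x := K0.map_id x

theorem ka_ka (g : B →ₐ[ℂ] C) (f : A →ₐ[ℂ] B) (h : A →ₐ[ℂ] C) (H : ∀ a, g (f a) = h a)
    (x : KC A) : KA g (KA f x) = KA h x := by
  rw [← ka_comp]; congr 2; exact AlgHom.ext H

theorem ka_ka_id (g : B →ₐ[ℂ] A) (f : A →ₐ[ℂ] B) (H : ∀ a, g (f a) = a)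
    (x : KC A) : KA g (KA f x) = x := by
  rw [ka_ka g f (AlgHom.id ℂ A) H, ka_id]

theorem ka_sq {D : Type} [CommRing D] [Algebra ℂ D] (g : B →ₐ[ℂ] D) (f : A →ₐ[ℂ] B)
    (g' : C →ₐ[ℂ] D) (f' : A →ₐ[ℂ] C) (H : ∀ a, g (f a) = g' (f' a)) (x : KC A) :
    KA g (KA f x) = KA g' (KA f' x) := by
  rw [← ka_comp, ← ka_comp]; congr 2; exact AlgHom.ext H

theorem ka_congr {f g : A →ₐ[ℂ] B} (H : ∀ a, f a = g a) (x : KC A) : KA f x = KA g x := by
  rw [AlgHom.ext H]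

theorem psi_ka (p : ℕ) [Fact p.Prime] (f : A →ₐ[ℂ] B) (x : KC A) :
    psi p B (KA f x) = KA f (psi p A x) := K357.psi_map f x

theorem ka_cls (f : A →ₐ[ℂ] B) {I : Type*} [Fintype I] {e : Matrix I I A} (he : e * e = e) :
    KA f (K0.cls e) = K0.cls (e.map f) := K0.map_cls (f : A →+* B) he

end KA

/-- product and smash data over the base `k` -/
structure Pd (k B B' P S : Type) [CommRing k] [CommRing B] [CommRing B'] [CommRing P] [CommRing S]
    [Algebra ℂ k] [Algebra ℂ B] [Algebra ℂ B'] [Algebra ℂ P] [Algebra ℂ S] where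
  u : k →ₐ[ℂ] B
  u' : k →ₐ[ℂ] B'
  uS : k →ₐ[ℂ] S
  e : B →ₐ[ℂ] k
  e' : B' →ₐ[ℂ] k
  eS : S →ₐ[ℂ] k
  i1 : B →ₐ[ℂ] P
  i2 : B' →ₐ[ℂ] P
  r1 : P →ₐ[ℂ] B
  r2 : P →ₐ[ℂ] B'
  inc : S →ₐ[ℂ] P
  e_u : ∀ c, e (u c) = c
  e_u' : ∀ c, e' (u' c) = c
  r1_i1 : ∀ b, r1 (i1 b) = b
  r2_i2 : ∀ b, r2 (i2 b) = b
  r1_i2 : ∀ b, r1 (i2 b) = u (e' b)
  r2_i1 : ∀ b, r2 (i1 b) = u' (e b)
  e_r : ∀ F, e (r1 F) = e' (r2 F)
  i_u : ∀ c, i1 (u c) = i2 (u' c)
  inc_u : ∀ c, inc (uS c) = i1 (u c)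
  r1_inc : ∀ s, r1 (inc s) = u (eS s)
  r2_inc : ∀ s, r2 (inc s) = u' (eS s)
  inj : Function.Injective inc
  lift : ∀ F c, r1 F = u c → r2 F = u' c → ∃ s, inc s = F

namespace Pd

variable {k B B' P S : Type} [CommRing k] [CommRing B] [CommRing B'] [CommRing P] [CommRing S]
  [Algebra ℂ k] [Algebra ℂ B] [Algebra ℂ B'] [Algebra ℂ P] [Algebra ℂ S] (D : Pd k B B' P S)

/-- functions which are basic on the first axis -/
def T : Subalgebra ℂ P := AlgHom.equalizer D.r1 (D.u.comp (D.e.comp D.r1))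

theorem mem_T {F : P} : F ∈ D.T ↔ D.r1 F = D.u (D.e (D.r1 F)) := Iff.rfl

/-- first square -/
def sq1 : Sq D.T P k B where
  p1 := (D.T.val : D.T →+* P)
  p2 := ((D.e.comp (D.r1.comp D.T.val) : D.T →ₐ[ℂ] k) : D.T →+* k)
  al := (D.r1 : P →+* B)
  be := (D.u : k →+* B)
  comm x := x.2
  lift a c h := by
    have h' : D.r1 a = D.u c := h
    refine ⟨⟨a, by rw [mem_T, h', D.e_u]⟩, rfl, ?_⟩
    change D.e (D.r1 a) = c
    rw [h', D.e_u]
  inj _ _ h _ := Subtype.ext h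

/-- the smash inside `T` -/
def incT : S →ₐ[ℂ] D.T := D.inc.codRestrict D.T (fun s => by rw [mem_T, D.r1_inc, D.e_u])

/-- the second axis inside `T` -/
def i2T : B' →ₐ[ℂ] D.T := D.i2.codRestrict D.T (fun s => by rw [mem_T, D.r1_i2, D.e_u])

/-- second square -/
def sq2 : Sq S D.T k B' where
  p1 := (D.incT : S →+* D.T)
  p2 := (D.eS : S →+* k)
  al := ((D.r2.comp D.T.val : D.T →ₐ[ℂ] B') : D.T →+* B')
  be := (D.u' : k →+* B')
  comm x := D.r2_inc x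
  lift a c h := by
    have h' : D.r2 a = D.u' c := h
    have h1 : D.r1 a = D.u c := by rw [D.mem_T.1 a.2, D.e_r, h', D.e_u']
    obtain ⟨s, hs⟩ := D.lift a c h1 h'
    refine ⟨s, Subtype.ext hs, ?_⟩
    change D.eS s = c
    rw [← D.e_u (D.eS s), ← D.r1_inc, hs, h1, D.e_u]
  inj _ _ h _ := D.inj (congrArg Subtype.val h)

theorem eS_eq (s : S) : D.eS s = D.e (D.r1 (D.inc s)) := by rw [D.r1_inc, D.e_u]

theorem eS_uS (c : k) : D.eS (D.uS c) = c := by rw [eS_eq, D.inc_u, D.r1_i1, D.e_u]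

/-- **`inc^*` is injective** -/
theorem inj0 {z : KC S} (h1 : KA D.inc z = 0) : z = 0 := by
  have h2 : KA D.eS z = 0 := by
    rw [← ka_ka (D.e.comp D.r1) D.inc D.eS (fun s => (D.eS_eq s).symm), h1, map_zero]
  refine D.sq2.K0_inj (stLift_of_section _ (D.i2T : B' →+* D.T) D.r2_i2) ?_ h2
  refine D.sq1.K0_inj (stLift_of_section _ (D.i1 : B →+* P) D.r1_i1) ?_ ?_
  · exact (ka_ka D.T.val D.incT D.inc (fun _ => rfl) z).trans h1
  · exact (ka_ka (D.e.comp (D.r1.comp D.T.val)) D.incT D.eS (fun s => (D.eS_eq s).symm) z).trans h2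

theorem injective : Function.Injective (KA D.inc) :=
  (injective_iff_map_eq_zero _).2 fun _ h => D.inj0 h

/-- **a class dying on both axes comes from the smash** -/
theorem of_axes {z : KC P} (h1 : KA D.r1 z = 0) (h2 : KA D.r2 z = 0) :
    ∃ s : KC S, KA D.inc s = z ∧ KA D.eS s = 0 := by
  obtain ⟨t, ht, -⟩ := D.sq1.exists_rel (fun b => ⟨D.i1 b, D.r1_i1 b⟩) (x := z) h1
  have ht' : KA D.T.val t = z := ht
  obtain ⟨s, hs, hs'⟩ := D.sq2.exists_rel (fun b => ⟨D.i2T b, D.r2_i2 b⟩) (x := t)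
    ((ka_comp D.r2 D.T.val t).trans (by rw [ht', h2]))
  have hs1 : KA D.incT s = t := hs
  exact ⟨s, by rw [← ka_ka D.T.val D.incT D.inc (fun _ => rfl), hs1, ht'], hs'⟩

theorem r1_inc' {s : KC S} (h : KA D.eS s = 0) : KA D.r1 (KA D.inc s) = 0 := by
  rw [ka_sq D.r1 D.inc D.u D.eS D.r1_inc, h, map_zero]

theorem r2_inc' {s : KC S} (h : KA D.eS s = 0) : KA D.r2 (KA D.inc s) = 0 := by
  rw [ka_sq D.r2 D.inc D.u' D.eS D.r2_inc, h, map_zero]

/-- the reduced part of a class of `B` -/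
def rd (x : KC B) : KC B := x - KA D.u (KA D.e x)
/-- the reduced part of a class of `B'` -/
def rd' (x : KC B') : KC B' := x - KA D.u' (KA D.e' x)

theorem e_rd (x : KC B) : KA D.e (D.rd x) = 0 := by
  rw [rd, map_sub, ka_ka_id D.e D.u D.e_u, sub_self]
theorem e_rd' (x : KC B') : KA D.e' (D.rd' x) = 0 := by
  rw [rd', map_sub, ka_ka_id D.e' D.u' D.e_u', sub_self]
theorem rd_of {x : KC B} (h : KA D.e x = 0) : D.rd x = x := by rw [rd, h, map_zero, sub_zero]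
theorem rd_of' {x : KC B'} (h : KA D.e' x = 0) : D.rd' x = x := by rw [rd', h, map_zero, sub_zero]

theorem exists_mul {x : KC B} {y : KC B'} (hx : KA D.e x = 0) (hy : KA D.e' y = 0) :
    ∃ s : KC S, KA D.inc s = KA D.i1 x * KA D.i2 y ∧ KA D.eS s = 0 := by
  apply D.of_axes
  · rw [map_mul, ka_sq D.r1 D.i2 D.u D.e' D.r1_i2, hy, map_zero, mul_zero]
  · rw [map_mul, ka_sq D.r2 D.i1 D.u' D.e D.r2_i1, hx, map_zero, zero_mul]

/-- the external product (of the reduced parts) -/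
def mul (x : KC B) (y : KC B') : KC S := (D.exists_mul (D.e_rd x) (D.e_rd' y)).choose

theorem inc_mul' (x : KC B) (y : KC B') :
    KA D.inc (D.mul x y) = KA D.i1 (D.rd x) * KA D.i2 (D.rd' y) :=
  (D.exists_mul (D.e_rd x) (D.e_rd' y)).choose_spec.1

theorem eS_mul (x : KC B) (y : KC B') : KA D.eS (D.mul x y) = 0 :=
  (D.exists_mul (D.e_rd x) (D.e_rd' y)).choose_spec.2

theorem inc_mul {x : KC B} {y : KC B'} (hx : KA D.e x = 0) (hy : KA D.e' y = 0) :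
    KA D.inc (D.mul x y) = KA D.i1 x * KA D.i2 y := by
  rw [inc_mul', D.rd_of hx, D.rd_of' hy]

theorem eq_mul {x : KC B} {y : KC B'} (hx : KA D.e x = 0) (hy : KA D.e' y = 0) {s : KC S}
    (h : KA D.inc s = KA D.i1 x * KA D.i2 y) : s = D.mul x y :=
  D.injective (by rw [h, D.inc_mul hx hy])

theorem add_mul (x x' : KC B) (y : KC B') : D.mul (x + x') y = D.mul x y + D.mul x' y :=
  D.injective (by simp only [map_add, inc_mul', rd, map_sub]; ring)

theorem mul_add (x : KC B) (y y' : KC B') : D.mul x (y + y') = D.mul x y + D.mul x y' :=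
  D.injective (by simp only [map_add, inc_mul', rd', map_sub]; ring)

theorem sub_mul (x x' : KC B) (y : KC B') : D.mul (x - x') y = D.mul x y - D.mul x' y :=
  D.injective (by simp only [inc_mul', rd, map_sub]; ring)

theorem mul_sub (x : KC B) (y y' : KC B') : D.mul x (y - y') = D.mul x y - D.mul x y' :=
  D.injective (by simp only [inc_mul', rd', map_sub]; ring)

theorem zero_mul (y : KC B') : D.mul 0 y = 0 :=
  D.injective (by simp [inc_mul', rd])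

theorem mul_zero (x : KC B) : D.mul x 0 = 0 :=
  D.injective (by simp [inc_mul', rd'])

theorem inc_uS (c : KC k) : KA D.inc (KA D.uS c) = KA D.i1 (KA D.u c) :=
  ka_sq _ _ _ _ D.inc_u c

theorem i_u' (c : KC k) : KA D.i2 (KA D.u' c) = KA D.i1 (KA D.u c) :=
  (ka_sq _ _ _ _ D.i_u c).symm

theorem smul_mul (c : KC k) (x : KC B) (y : KC B') :
    D.mul (KA D.u c * x) y = KA D.uS c * D.mul x y :=
  D.injective (by
    simp only [inc_mul', rd, map_sub, map_mul, ka_ka_id D.e D.u D.e_u, inc_uS]; ring)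

theorem mul_smul (c : KC k) (x : KC B) (y : KC B') :
    D.mul x (KA D.u' c * y) = KA D.uS c * D.mul x y :=
  D.injective (by
    simp only [inc_mul', rd', map_sub, map_mul, ka_ka_id D.e' D.u' D.e_u', inc_uS, i_u']; ring)

theorem psi_mul (p : ℕ) [Fact p.Prime] (x : KC B) (y : KC B') :
    psi p S (D.mul x y) = D.mul (psi p B x) (psi p B' y) :=
  D.injective (by
    rw [← psi_ka, inc_mul', inc_mul', map_mul]
    simp only [psi_ka, rd, rd', map_sub])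

/-- **naturality** -/
theorem natural {k₂ B₂ B₂' P₂ S₂ : Type} [CommRing k₂] [CommRing B₂] [CommRing B₂'] [CommRing P₂]
    [CommRing S₂] [Algebra ℂ k₂] [Algebra ℂ B₂] [Algebra ℂ B₂'] [Algebra ℂ P₂] [Algebra ℂ S₂]
    (D₂ : Pd k₂ B₂ B₂' P₂ S₂) (f : B →ₐ[ℂ] B₂) (f' : B' →ₐ[ℂ] B₂') (g : P →ₐ[ℂ] P₂)
    (h : S →ₐ[ℂ] S₂) (h1 : ∀ b, g (D.i1 b) = D₂.i1 (f b)) (h2 : ∀ b, g (D.i2 b) = D₂.i2 (f' b))
    (h3 : ∀ s, g (D.inc s) = D₂.inc (h s)) {x : KC B} {y : KC B'} (hx : KA D.e x = 0)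
    (hy : KA D.e' y = 0) (hx' : KA D₂.e (KA f x) = 0) (hy' : KA D₂.e' (KA f' y) = 0) :
    KA h (D.mul x y) = D₂.mul (KA f x) (KA f' y) := by
  apply D₂.eq_mul hx' hy'
  rw [← ka_sq g D.inc D₂.inc h h3, D.inc_mul hx hy, map_mul, ka_sq g D.i1 D₂.i1 f h1,
    ka_sq g D.i2 D₂.i2 f' h2]

end Pd

end Crest.Agent.N218.K
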