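import Crest.Agent.N218.K.St
import Crest.Agent.N218.K.Prod
import Crest.Agent.N218.D7.Orb

/-!
# Row 218, block D1 (helper89): restriction of the invariants to a subgroup
-/

set_option autoImplicit false
set_option linter.unusedVariables false
set_option linter.unusedSectionVars false

open unitInterval Topology Filter Set OnePoint Polynomial

noncomputable section

namespace Crest.Agent.N218.K

namespace Vr

variable {Γ Γ' : Type} [Group Γ] [Fintype Γ] [TopologicalSpace Γ] [DiscreteTopology Γ] [Group Γ']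
  [Fintype Γ'] [TopologicalSpace Γ'] [DiscreteTopology Γ'] (χ : Γ →* Circle) (φ : Γ' →* Γ) (r : ℕ)

/-- the restriction as an equivariant map -/
def rE (M : LS Γ) : EqM (Sp (χ.comp φ) (cc _) r) (M.res φ (cc φ)) (Sp χ (cc χ) r) M φ (.id _) where
  f := ContinuousMap.snd
  hg _ _ := rfl
  hf _ _ w := by induction w using OnePoint.rec <;> rfl
  hi _ := rfl

/-- the projection of lens spaces -/
def rB : C((Sp (χ.comp φ) (cc _) r).Q, (Sp χ (cc χ) r).Q) :=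
  GS.qmap _ _ (.id _) fun γ _ => ⟨φ γ, rfl⟩

/-- the projection of sphere bundles -/
def rH (M : LS Γ) : Hm (Sb (Sp (χ.comp φ) (cc _) r) (M.res φ (cc φ))) (Sb (Sp χ (cc χ) r) M)
    (rB χ φ r) := (rE χ φ r M).hm

theorem rH_pt (M : LS Γ) (y) (w : OnePoint M.Z) :
    (rH χ φ r M).f (pt _ (M.res φ (cc φ)) y w) = pt _ M y w := rfl

theorem pull_LL : pull (rB χ φ r) (LL χ (cc χ) r) = LL (χ.comp φ) (cc _) r := by
  refine (pull_kc _ (Ln.idem fun x => ?_)).trans (congrArg kc (Matrix.ext fun i j =>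
    ContinuousMap.ext fun x => ?_))
  · obtain ⟨u, rfl⟩ := (Sp χ (cc χ) r).pr_surj x
    exact ⟨u.1, u.2, fun i j => rfl⟩
  · obtain ⟨u, rfl⟩ := (Sp (χ.comp φ) (cc _) r).pr_surj x
    rfl

theorem pull_ev (a : ℤ[X]) : pull (rB χ φ r) (ev χ (cc χ) r a) = ev (χ.comp φ) (cc _) r a := by
  rw [ev, ev, ← pull_LL]
  exact (aeval_algHom_apply (pull (rB χ φ r)).toIntAlgHom _ a).symm

variable {χ φ r} {X : LS Γ} {V : Rep Γ}

theorem ok_res {P : PB X V} {S : Set X.Z} (h : P.Ok S) {S' : Set X.Z} (e : S ⊆ S') :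
    (P.res φ (cc φ)).Ok S' :=
  ⟨h.op, fun g => h.inv (φ g), h.ct, fun g => h.eq (φ g), h.cp, h.fr.trans e⟩

theorem bd_res (hφ : Function.Injective φ) {P Q : PB X V} (h : P.Bd Q) :
    (P.res φ (cc φ)).Bd (Q.res φ (cc φ)) := by
  have s : X.fr ⊆ (X.res φ (cc φ)).fr := fun x a g b => hφ ((a (φ g) b).trans φ.map_one.symm)
  obtain ⟨a, b, H, c, d, e⟩ := h
  exact ⟨ok_res a s, ok_res b s, ⟨H.O, H.f⟩, ok_res (φ := φ) c (preimage_mono s),
    ⟨d.sub, d.eq, d.z⟩, ⟨e.sub, e.eq, e.z⟩⟩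

theorem tc_ok {P : PB X V} {S : Set X.Z} (h : P.Ok S) {k : X.Z → Fin r → ℂ}
    (l : P.Lift (UU χ (cc χ) r) k) {c} (cut : (Tc χ (cc χ) r P k).Cut c) :
    (Tc χ (cc χ) r P k).Ok := by
  have m : MapsTo (fun z : US r × X.Z × ℝ => z.2.1) {z | z.2.1 ∈ P.O} P.O := fun _ a => a
  have ct : ContinuousOn (Tc χ (cc χ) r P k).f (Tc χ (cc χ) r P k).O :=
    (h.ct.comp continuous_snd.fst.continuousOn m).prodMk
      ((l.ct.comp continuous_snd.fst.continuousOn m).sub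
        ((Real.continuous_exp.comp continuous_snd.snd).smul
          (continuous_subtype_val.comp continuous_fst)).continuousOn)
  refine ⟨h.op.preimage continuous_snd.fst, fun g x a => h.inv g _ a, ct, fun g x a =>
    Prod.ext (h.eq g _ a) ?_, ?_⟩
  · obtain ⟨u, x, t⟩ := x
    refine Eq.trans ?_ (((UU χ (cc χ) r).ρ g).map_sub _ _).symm
    refine congrArg₂ (· - ·) (l.eq g _ a) ?_
    exact (((UU χ (cc χ) r).ρ g).map_smul _ _).symm
  · have e : {x ∈ (Tc χ (cc χ) r P k).O | (Tc χ (cc χ) r P k).f x = 0} =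
        tsupport c ∩ (Tc χ (cc χ) r P k).f ⁻¹' {0} :=
      Set.ext fun x => ⟨fun a => ⟨subset_tsupport _ (cut.pos x a.1 a.2).ne', a.2⟩,
        fun a => ⟨cut.sub a.1, a.2⟩⟩
    rw [e]
    exact cut.cp.of_isClosed_subset ((ct.mono cut.sub).preimage_isClosed_of_isClosed
      (isClosed_tsupport _) isClosed_singleton) inter_subset_left

theorem cl_res (hφ : Function.Injective φ) {P : PB X V} {F} (h : Cl χ (cc χ) r P F) :
    ∃ F', Cl (χ.comp φ) (cc _) r (P.res φ (cc φ)) F' ∧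
      ∀ e, (rH χ φ r (TT χ (cc χ) r V)).f (F'.f e) = F.f ((rH χ φ r X.xr).f e) := by
  obtain ⟨Q, k, b, l, c, cut, hF⟩ := h
  have l' : (Q.res φ (cc φ)).Lift (UU (χ.comp φ) (cc _) r) k := ⟨l.ct, fun g => l.eq (φ g), l.nz⟩
  have cut' : (Tc (χ.comp φ) (cc _) r (Q.res φ (cc φ)) k).Cut c :=
    ⟨cut.ct, cut.nn, cut.cp, cut.sub, cut.pos, fun g => cut.inv (φ g)⟩
  obtain ⟨F', rg, rp⟩ := cut'.rp (tc_ok (bd_res hφ b).2.1 l' cut')
  refine ⟨F', ⟨_, k, bd_res hφ b, l', rp⟩, sb_ind (fun y => ?_) fun y w => ?_⟩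
  · rw [F'.f_inf]
    exact (F.f_inf y).symm
  · rw [rg]
    exact (hF y w).symm

end Vr

/-- Thom classes of complex representations restrict to Thom classes -/
def THR : Prop := ∀ {Γ Γ' : Type} [Group Γ] [Fintype Γ] [TopologicalSpace Γ] [DiscreteTopology Γ]
  [Group Γ'] [Fintype Γ'] [TopologicalSpace Γ'] [DiscreteTopology Γ'] (χ : Γ →* Circle)
  (φ : Γ' →* Γ) (r : ℕ) (M : LS Γ), Function.Injective χ → Cx M → ∀ l, (Sb (Sp χ (cc χ) r) M).Th l →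
  (Sb (Sp (χ.comp φ) (cc _) r) (M.res φ (cc φ))).Th (pull (Vr.rH χ φ r M).f l)

/-- the sources and the targets are complex -/
def CXA : Prop := ∀ {Γ : Type} [Group Γ] [Fintype Γ] [TopologicalSpace Γ] [DiscreteTopology Γ]
  (χ : Γ →* Circle) (X V : Rep Γ), Cx V.ls →
  (Adm 12 X V → Cx X.ls.xr.xr) ∧ (Adm 5 X V → Cx X.ls.xr) ∧ Cx (TT χ (cc χ) 7 V)

namespace Vr

variable {Γ Γ' : Type} [Group Γ] [Fintype Γ] [TopologicalSpace Γ] [DiscreteTopology Γ] [Group Γ']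
  [Fintype Γ'] [TopologicalSpace Γ'] [DiscreteTopology Γ'] {χ : Γ →* Circle} (φ : Γ' →* Γ)

/-- the restricted orientation -/
def ori (h : THR) (hχ : Function.Injective χ) {S T : LS Γ} (hS : Cx S) (hT : Cx T) {n : ℕ}
    (o : Ori (Sp χ (cc χ) 7) S T (rU χ (cc χ) 7) (3 ^ n)) : Ori (Sp (χ.comp φ) (cc _) 7)
      (S.res φ (cc φ)) (T.res φ (cc φ)) (rU (χ.comp φ) (cc _) 7) (3 ^ n) where
  lS := pull (rH χ φ 7 S).f o.lS
  lT := pull (rH χ φ 7 T).f o.lT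
  rS := pull (rB χ φ 7) o.rS
  rT := pull (rB χ φ 7) o.rT
  tS := h χ φ 7 S hχ hS _ o.tS
  tT := h χ φ 7 T hχ hT _ o.tT
  pS := by rw [ps_pull, o.pS, Hm.pull_sm]
  pT := by rw [ps_pull, o.pT, Hm.pull_sm]
  nm := by
    have := congrArg (pull (rB χ φ 7)) o.nm
    rw [map_mul, map_mul, map_pow, map_ofNat] at this
    exact (congrArg _ (pull_ev χ φ 7 _).symm).trans this

end Vr

open Vr in
theorem vres (h : THR) (hc : CXA) : VRES := by
  intro Γ _ _ _ _ χ Γ' _ _ _ _ φ X V hχ hφ hV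
  obtain ⟨c1, c2, c3⟩ := hc χ X V hV
  refine ⟨fun a o => ⟨ori φ h hχ (c1 a) c3 o, ?_⟩, fun a o => ⟨ori φ h hχ (c2 a) c3 o, ?_⟩⟩
  · rintro P _ ⟨e, N, a, ⟨F, cl, ec⟩, k, rfl⟩
    obtain ⟨F', cl', sq⟩ := cl_res hφ cl
    refine ⟨pull (rB χ φ 7) e, N, a, ⟨F', cl', ?_⟩, ?_, rfl⟩
    · have := Orb.ecl_pull (rH χ φ 7 X.ls.xr) (rH χ φ 7 _) (rH χ φ 7 X.ls.xr.xr) sq (D' := sd _ _)
        (fun e t => by obtain ⟨y, w, rfl⟩ := pt_surj e; rfl) ec
      rw [Hm.pull_sm] at this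
      exact this
    · have := congrArg (pull (rB χ φ 7)) k
      rwa [map_mul, map_mul, pull_ev, map_pow, map_ofNat] at this
  · rintro P _ ⟨a, ⟨F, cl, ec⟩, rfl⟩
    obtain ⟨F', cl', sq⟩ := cl_res hφ cl
    refine ⟨a, ⟨F', cl', ?_⟩, rfl⟩
    have := congrArg (pull (rH χ φ 7 X.ls.xr).f) ec
    rw [Hm.pull_sm, pull_ev] at this
    exact (pull_sq _ _ _ _ sq _).trans this

end Crest.Agent.N218.K

end
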