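import Crest.Agent.N218.K.Pu2
import Crest.Agent.N218.K.St

/-!
# N218/K/Eht: existence and homotopy invariance of the defect classes (helper94)
-/

set_option autoImplicit false

open Crest.Agent.R204 Crest.Agent.R204.K357 unitInterval Topology Set
open Crest.Agent.N218.Pw

noncomputable section

namespace Crest.Agent.N218.K.Pup

variable {X : Type} [TopologicalSpace X] {A B S : Ex X}

/-- homotopic maps have equivalent cones -/
theorem cone_ht (F F' : H1 A B) (h : F.Ht F') : ∃ φ : AH (Cn F) (Cn F'),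
    (∀ u, rs F' (φ u) = rs F u) ∧ (∀ a, φ (bs F a) = bs F' a) ∧
    ∀ (S : Ex X) (D : SD A S) (x : KX S.E), ka φ (ki F D x) = ki F' D x := by
  obtain ⟨H, hp, hs, h0, h1⟩ := h
  have hc : ∀ a : Cn F, Continuous fun z : A.E × I =>
      (if (z.2 : ℝ) ≤ 1 / 2 then e2 F (H (σ (Pw.sc 1 z.2), z.1)) else e1 F (z.1, σ (Pw.sd 1 z.2))) a :=
    fun a => by
      have := cont_glue (Z := A.E × I) continuous_snd
        (u := fun z => a.1.2 (H (σ (Pw.sc 1 z.2), z.1)))
        (v := fun z => a.1.1 (z.1, σ (Pw.sd 1 z.2))) (by fun_prop) (by fun_prop)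
        (fun z hz => by rw [sc_half hz.ge, sd_half hz.le, symm_one, cn0, h0])
      refine this.congr fun z => ?_
      split_ifs <;> rfl
  obtain ⟨c, key⟩ : ∃ c : AH (Cn F) C(A.E × I, ℂ), ∀ (a : Cn F) (z : A.E × I),
      c a z = if (z.2 : ℝ) ≤ 1 / 2 then a.1.2 (H (σ (Pw.sc 1 z.2), z.1))
        else a.1.1 (z.1, σ (Pw.sd 1 z.2)) :=
    ⟨hom (A := Cn F) _ hc, fun a z => by
      change (if (z.2 : ℝ) ≤ 1 / 2 then e2 F (H (σ (Pw.sc 1 z.2), z.1))
        else e1 F (z.1, σ (Pw.sd 1 z.2))) a = _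
      split_ifs <;> rfl⟩
  refine ⟨cnHom F' c (rs F) (fun e a => ?_) (fun e a => ?_) (fun x t a => ?_),
    fun u => rfl, fun a => cn_ext (fun z => ?_) fun _ => rfl, fun S D x => ?_⟩
  · rw [key, if_pos (by simp), sc_zero, symm_zero, h1]; rfl
  · rw [key, if_neg (by norm_num), sd_one, symm_zero, cn1]; rfl
  · rw [key]
    split_ifs
    · rw [hs]; rfl
    · rw [cns]; rfl
  · change c (bs F a) z = a (A.p z.1)
    rw [key]
    split_ifs
    · rw [bs_2, hp]
    · rfl
  · rw [ka_comp (ic F D) _ (AlgHom.comp _ (ic F D)) (fun _ => rfl)]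
    refine (cn_htp F' (fun τ z => ev (D.c (z.1, σ (Pw.sd τ z.2))))
      (fun a => a.continuous.comp (by fun_prop)) (fun _ b => ev (S.s (B.p b)))
      (fun a => a.continuous.comp (by fun_prop)) (fun τ e a => by simp [c_0, hp1])
      (fun τ e a => by simp [c_1, B.ps]) (fun τ x t a => by simp [c_s, B.ps]) (ic F' D) _
      (fun a z => by simp) (fun a z => rfl) (fun a z => ?_) (fun a z => rfl) x).symm
    change c (ic F D a) z = a (D.c (z.1, σ (Pw.sd 1 z.2)))
    rw [key]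
    split_ifs with hz
    · rw [ic_2, hp, sd_half hz, symm_one, c_0]
    · rfl

/-- homotopy invariance of the defect classes -/
theorem ecl_ht {F F' : H1 A B} (h : F.Ht F') (D : SD A S) {l : KX B.E} {ρ : KX X} {x : KX S.E}
    (e : Ecl F D l ρ x) : Ecl F' D l ρ x := by
  obtain ⟨φ, h1, h2, h3⟩ := cone_ht F F' h
  obtain ⟨hx, μ, k1, k2⟩ := (ecl_iff F D l ρ x).1 e
  refine (ecl_iff F' D l ρ x).2 ⟨hx, ka φ μ, (ka_comp φ (rs F') (rs F) h1 μ).trans k1, ?_⟩
  rw [ka_ps, ← h3, ← k2, map_sub, map_mul, ka_comp (bs F) φ (bs F') h2]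

end Crest.Agent.N218.K.Pup

namespace Crest.Agent.N218.K

theorem eex : EEX := fun F D _ _ hl h hρ => Pup.ecl_ex F D hl h hρ

theorem eht : EHT := fun _ _ D _ _ _ h e => Pup.ecl_ht h D e

end Crest.Agent.N218.K
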