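import Crest.Agent.N218.K.Ln
import Crest.Agent.R204.Ex6_837

/-!
# Row 218, block D0 (helper56): relative K-groups by doubles, excision, vanishing products
-/

set_option autoImplicit false
set_option linter.unusedVariables false

open Crest.Agent.R204.K357 Crest.Agent.R204.Ex837 Topology Set

noncomputable section

namespace Crest.Agent.N218.K

/-- functoriality for ring maps -/
abbrev KR {A B : Type} [CommRing A] [CommRing B] (φ : A →+* B) : KC A →+* KC B := K0.mapRing φ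

section alg
variable {A B C A' C' A'' C'' B₀ : Type} [CommRing A] [CommRing B] [CommRing C] [CommRing A']
  [CommRing C'] [CommRing A''] [CommRing C''] [CommRing B₀]

theorem kr_kr (g : B →+* C) (f : A →+* B) (h : A →+* C) (H : ∀ a, g (f a) = h a) (x : KC A) :
    KR g (KR f x) = KR h x := by
  rw [← RingHom.ext (f := g.comp f) H]; exact (K0.map_comp g f x).symm

theorem kr_id (g : B →+* A) (f : A →+* B) (H : ∀ a, g (f a) = a) (x : KC A) :
    KR g (KR f x) = x := (kr_kr g f (.id A) H x).trans (K0.map_id x)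

theorem kr_sq (g : B →+* C) (f : A →+* B) (g' : A' →+* C) (f' : A →+* A')
    (H : ∀ a, g (f a) = g' (f' a)) (x : KC A) : KR g (KR f x) = KR g' (KR f' x) := by
  rw [kr_kr g f (g.comp f) (fun _ => rfl), kr_kr g' f' (g.comp f) fun a => (H a).symm]

/-- the double along `ρ` -/
def Db (ρ : A →+* C) : Subring (A × A) :=
  RingHom.eqLocus (ρ.comp (RingHom.fst A A)) (ρ.comp (RingHom.snd A A))

namespace Db
/-- first projection -/
def f (ρ : A →+* C) : Db ρ →+* A := (RingHom.fst A A).comp (Db ρ).subtype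
/-- second projection -/
def s (ρ : A →+* C) : Db ρ →+* A := (RingHom.snd A A).comp (Db ρ).subtype
/-- the diagonal -/
def dg (ρ : A →+* C) : A →+* Db ρ := ((RingHom.id A).prod (RingHom.id A)).codRestrict _ fun _ => rfl
/-- functoriality -/
def mp {ρ : A →+* C} {ρ' : A' →+* C'} (φ : A →+* A') (h : ∀ a, ρ a = 0 → ρ' (φ a) = 0) :
    Db ρ →+* Db ρ' :=
  ((φ.comp (f ρ)).prod (φ.comp (s ρ))).codRestrict _ fun z => by
    have : ρ (z.1.1 - z.1.2) = 0 := by rw [map_sub, sub_eq_zero]; exact z.2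
    have := h _ this
    rw [map_sub, map_sub, sub_eq_zero] at this
    exact this

theorem lift {ρ : A →+* C} (hρ : Function.Surjective ρ) {x : KC A} (hx : KR ρ x = 0) :
    ∃ z, KR (f ρ) z = x ∧ KR (s ρ) z = 0 :=
  (⟨f ρ, s ρ, ρ, ρ, fun z => z.2, fun a b h => ⟨⟨(a, b), h⟩, rfl, rfl⟩,
    fun x y h h' => Subtype.ext (Prod.ext h h')⟩ : Sq (Db ρ) A A C).exists_rel hρ hx

theorem inj {ρ : A →+* C} (h : StLift ρ) {z : KC (Db ρ)} (h1 : KR (f ρ) z = 0)
    (h2 : KR (s ρ) z = 0) : z = 0 :=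
  (⟨f ρ, s ρ, ρ, ρ, fun z => z.2, fun a b h => ⟨⟨(a, b), h⟩, rfl, rfl⟩,
    fun x y h h' => Subtype.ext (Prod.ext h h')⟩ : Sq (Db ρ) A A C).K0_inj h h1 h2

theorem rho_f {ρ : A →+* C} {z : KC (Db ρ)} (h2 : KR (s ρ) z = 0) : KR ρ (KR (f ρ) z) = 0 := by
  rw [kr_sq ρ (f ρ) ρ (s ρ) fun z => z.2, h2, map_zero]

theorem f_dg (ρ : A →+* C) (x : KC A) : KR (f ρ) (KR (dg ρ) x) = x := kr_id _ _ (fun _ => rfl) x
theorem s_dg (ρ : A →+* C) (x : KC A) : KR (s ρ) (KR (dg ρ) x) = x := kr_id _ _ (fun _ => rfl) x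

variable {ρ : A →+* C} {ρ' : A' →+* C'} (φ : A →+* A') (h : ∀ a, ρ a = 0 → ρ' (φ a) = 0)

theorem f_mp (z : KC (Db ρ)) : KR (f ρ') (KR (mp φ h) z) = KR φ (KR (f ρ) z) :=
  kr_sq (f ρ') (mp φ h) φ (f ρ) (fun _ => rfl) z
theorem s_mp (z : KC (Db ρ)) : KR (s ρ') (KR (mp φ h) z) = KR φ (KR (s ρ) z) :=
  kr_sq (s ρ') (mp φ h) φ (s ρ) (fun _ => rfl) z
theorem mp_dg (x : KC A) : KR (mp φ h) (KR (dg ρ) x) = KR (dg ρ') (KR φ x) :=
  kr_sq (mp φ h) (dg ρ) (dg ρ') φ (fun _ => rfl) x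
end Db

/-- `φ` is an excision: a bijection of the ideals -/
structure Exc (ρ : A →+* C) (ρ' : A' →+* C') (φ : A →+* A') : Prop where
  mp : ∀ a, ρ a = 0 → ρ' (φ a) = 0
  inj : ∀ a, ρ a = 0 → φ a = 0 → a = 0
  srj : ∀ a', ρ' a' = 0 → ∃ a, ρ a = 0 ∧ φ a = a'

namespace Exc
variable {ρ : A →+* C} {ρ' : A' →+* C'} {φ : A →+* A'} (E : Exc ρ ρ' φ)

/-- the excision square -/
def sq : Sq (Db ρ) (Db ρ') A A' where
  p1 := Db.mp φ E.mp
  p2 := Db.s ρ
  al := Db.s ρ'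
  be := φ
  comm _ := rfl
  lift z b h := by
    obtain ⟨a, h1, h2⟩ := E.srj (z.1.1 - z.1.2) (by rw [map_sub, sub_eq_zero]; exact z.2)
    have h : z.1.2 = φ b := h
    refine ⟨⟨(a + b, b), show ρ (a + b) = ρ b by rw [map_add, h1, zero_add]⟩,
      Subtype.ext (Prod.ext ?_ h.symm), rfl⟩
    change φ (a + b) = z.1.1
    rw [map_add, h2, h, sub_add_cancel]
  inj x y h h' := by
    have h' : x.1.2 = y.1.2 := h'
    have h1 : φ x.1.1 = φ y.1.1 := congrArg (fun z : Db ρ' => z.1.1) h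
    have hx : ρ x.1.1 = ρ x.1.2 := x.2
    have hy : ρ y.1.1 = ρ y.1.2 := y.2
    refine Subtype.ext (Prod.ext (sub_eq_zero.1 (E.inj _ ?_ ?_)) h')
    · rw [map_sub, hx, hy, h', sub_self]
    · rw [map_sub, h1, sub_self]

include E in
theorem ksrj {z : KC (Db ρ')} (hz : KR (Db.s ρ') z = 0) :
    ∃ y, KR (Db.mp φ E.mp) y = z ∧ KR (Db.s ρ) y = 0 :=
  E.sq.exists_rel (fun a => ⟨Db.dg ρ' a, rfl⟩) hz

theorem kinj {y : KC (Db ρ)} (h1 : KR (Db.mp φ E.mp) y = 0) (h2 : KR (Db.s ρ) y = 0) : y = 0 :=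
  E.sq.K0_inj (stLift_of_section (Db.s ρ') (Db.dg ρ') fun _ => rfl) h1 h2
end Exc

/-- **transfer of relative classes through a common excision** -/
theorem exc_transfer {ρ : A →+* C} {ρ' : A' →+* C'} {ρ'' : A'' →+* C''} {ρ₀ : B →+* B₀}
    {φ : A →+* A''} {φ' : A' →+* A''} (E : Exc ρ ρ'' φ) (E' : Exc ρ' ρ'' φ')
    (hρ : Function.Surjective ρ) (hρ' : StLift ρ') (hρ₀ : Function.Surjective ρ₀)
    (α : B →+* A) (α' : B →+* A') (ha : ∀ b, ρ₀ b = 0 → ρ (α b) = 0)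
    (ha' : ∀ b, ρ₀ b = 0 → ρ' (α' b) = 0) (hc : ∀ b, φ (α b) = φ' (α' b))
    {t : KC B} (ht : KR ρ₀ t = 0) {x : KC A} (hx : KR ρ x = 0) :
    ∃ z, KR ρ' z = 0 ∧ ∀ m m', KR φ m = KR φ' m' → z = KR α' t * m' → x = KR α t * m := by
  obtain ⟨x1, rfl, x2⟩ := Db.lift hρ hx
  obtain ⟨t1, rfl, t2⟩ := Db.lift hρ₀ ht
  obtain ⟨y, y1, y2⟩ := E'.ksrj (z := KR (Db.mp φ E.mp) x1) (by rw [Db.s_mp, x2, map_zero])
  refine ⟨_, Db.rho_f y2, fun m m' hm hz => ?_⟩
  have e1 : y = KR (Db.mp α' ha') t1 * KR (Db.dg ρ') m' := by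
    refine sub_eq_zero.1 (Db.inj hρ' ?_ ?_)
    · rw [map_sub, map_mul, Db.f_mp, Db.f_dg, hz, sub_self]
    · rw [map_sub, map_mul, Db.s_mp, t2, y2, map_zero, zero_mul, sub_self]
  have e2 : x1 = KR (Db.mp α ha) t1 * KR (Db.dg ρ) m := by
    refine sub_eq_zero.1 (E.kinj ?_ ?_)
    · rw [map_sub, ← y1, e1, map_mul, map_mul, Db.mp_dg, Db.mp_dg, hm,
        kr_sq (Db.mp φ' E'.mp) (Db.mp α' ha') (Db.mp φ E.mp) (Db.mp α ha)
          fun b => Subtype.ext (Prod.ext (hc _).symm (hc _).symm), sub_self]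
    · rw [map_sub, map_mul, Db.s_mp, t2, x2, map_zero, zero_mul, sub_self]
  rw [e2, map_mul, Db.f_mp, Db.f_dg]

/-- **vanishing of products** -/
theorem mul_eq_zero_of_ker {ρ : A →+* C} {ρ' : A →+* C'} (hρ : Function.Surjective ρ)
    (hρ' : Function.Surjective ρ') (h : ∀ a b, ρ a = 0 → ρ' b = 0 → a * b = 0) {x y : KC A}
    (hx : KR ρ x = 0) (hy : KR ρ' y = 0) : x * y = 0 := by
  obtain ⟨x1, rfl, x2⟩ := Db.lift hρ hx
  obtain ⟨y1, rfl, y2⟩ := Db.lift hρ' hy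
  let Q : Subring (Db ρ × Db ρ') :=
    RingHom.eqLocus ((Db.s ρ).comp (RingHom.fst _ _)) ((Db.s ρ').comp (RingHom.snd _ _))
  let p1 : Q →+* Db ρ := (RingHom.fst _ _).comp Q.subtype
  let p2 : Q →+* Db ρ' := (RingHom.snd _ _).comp Q.subtype
  let S : Sq Q (Db ρ) (Db ρ') A := ⟨p1, p2, Db.s ρ, Db.s ρ', fun z => z.2,
    fun a b h => ⟨⟨(a, b), h⟩, rfl, rfl⟩, fun x y h h' => Subtype.ext (Prod.ext h h')⟩
  let i1 : Db ρ →+* Q :=
    ((RingHom.id _).prod ((Db.dg ρ').comp (Db.s ρ))).codRestrict _ fun _ => rfl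
  let i2 : Db ρ' →+* Q :=
    (((Db.dg ρ).comp (Db.s ρ')).prod (RingHom.id _)).codRestrict _ fun _ => rfl
  have k : ∀ z w : Q, (z.1.1.1.1 - z.1.1.1.2) * (w.1.2.1.1 - w.1.1.1.2) = 0 := fun z w =>
    h _ _ (by rw [map_sub, sub_eq_zero]; exact z.1.1.2) (by
      rw [map_sub, sub_eq_zero, show w.1.1.1.2 = w.1.2.1.2 from w.2]; exact w.1.2.2)
  let τ : Q →+* A :=
    { toFun := fun z => z.1.1.1.1 + z.1.2.1.1 - z.1.1.1.2
      map_one' := by change (1 : A) + 1 - 1 = 1; ring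
      map_zero' := by change (0 : A) + 0 - 0 = 0; ring
      map_add' := fun z w => by
        change (z.1.1.1.1 + w.1.1.1.1) + (z.1.2.1.1 + w.1.2.1.1) - (z.1.1.1.2 + w.1.1.1.2) = _
        ring
      map_mul' := fun z w => by
        change z.1.1.1.1 * w.1.1.1.1 + z.1.2.1.1 * w.1.2.1.1 - z.1.1.1.2 * w.1.1.1.2 = _
        linear_combination -k z w - k w z }
  have e : KR i1 x1 * KR i2 y1 = 0 := by
    refine S.K0_inj (stLift_of_section (Db.s ρ) (Db.dg ρ) fun _ => rfl) ?_ ?_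
    · change KR p1 _ = 0
      rw [map_mul, kr_sq p1 i2 (Db.dg ρ) (Db.s ρ') fun _ => rfl, y2, map_zero, mul_zero]
    · change KR p2 _ = 0
      rw [map_mul, kr_sq p2 i1 (Db.dg ρ') (Db.s ρ) fun _ => rfl, x2, map_zero, zero_mul]
  have := congrArg (KR τ) e
  rwa [map_mul, map_zero, kr_kr τ i1 (Db.f ρ) fun z => add_sub_cancel_right _ _,
    kr_kr τ i2 (Db.f ρ') fun z => add_sub_cancel_left _ _] at this

end alg

section top
variable {X Y A B X' A' : Type} [TopologicalSpace X] [TopologicalSpace Y] [TopologicalSpace A]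
  [TopologicalSpace B] [TopologicalSpace X'] [TopologicalSpace A']

/-- composition as a ring map -/
abbrev cr (f : C(X, Y)) : C(Y, ℂ) →+* C(X, ℂ) :=
  (ContinuousMap.compRightAlgHom ℂ ℂ f : C(Y, ℂ) →ₐ[ℂ] C(X, ℂ))

theorem pull_kr (f : C(X, Y)) (x : KX Y) : pull f x = KR (cr f) x := rfl

theorem cr_surj [CompactSpace X] [T2Space X] [CompactSpace A] {i : C(A, X)}
    (hi : Function.Injective i) : Function.Surjective (cr i) :=
  restrict_surjective (i.continuous.isClosedEmbedding hi)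

/-- **VANISH** -/
theorem vanish [CompactSpace X] [T2Space X] [CompactSpace A] [CompactSpace B] {i : C(A, X)}
    {j : C(B, X)} (hi : Function.Injective i) (hj : Function.Injective j)
    (h : ∀ x, x ∈ range i ∨ x ∈ range j) {x y : KX X} (hx : pull i x = 0) (hy : pull j y = 0) :
    x * y = 0 :=
  mul_eq_zero_of_ker (cr_surj hi) (cr_surj hj) (fun a b ha hb => by
    ext z
    rcases h z with ⟨u, rfl⟩ | ⟨u, rfl⟩
    · exact mul_eq_zero_of_left (DFunLike.congr_fun ha u) _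
    · exact mul_eq_zero_of_right _ (DFunLike.congr_fun hb u)) hx hy

/-- functions on a space covered by two compact spaces -/
theorem exists_glue [T2Space X] [CompactSpace A] [CompactSpace B] (i : C(A, X)) (j : C(B, X))
    (h : ∀ x, x ∈ range i ∨ x ∈ range j) (a : C(A, ℂ)) (b : C(B, ℂ))
    (ha : ∀ u u', i u = i u' → a u = a u') (hb : ∀ u u', j u = j u' → b u = b u')
    (hab : ∀ u u', i u = j u' → a u = b u') :
    ∃ c : C(X, ℂ), (∀ u, c (i u) = a u) ∧ ∀ u, c (j u) = b u := by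
  let π : C(A ⊕ B, X) := ⟨Sum.elim i j, i.continuous.sumElim j.continuous⟩
  have hπ : IsQuotientMap π := π.continuous.isClosedMap.isQuotientMap π.continuous fun x => by
    rcases h x with ⟨u, rfl⟩ | ⟨u, rfl⟩
    exacts [⟨.inl u, rfl⟩, ⟨.inr u, rfl⟩]
  let g : C(A ⊕ B, ℂ) := ⟨Sum.elim a b, a.continuous.sumElim b.continuous⟩
  have hg : Function.FactorsThrough g π := by
    rintro (u | u) (u' | u') e
    exacts [ha _ _ e, hab _ _ e, (hab _ _ e.symm).symm, hb _ _ e]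
  exact ⟨hπ.lift g hg, fun u => DFunLike.congr_fun (hπ.lift_comp g hg) (.inl u),
    fun u => DFunLike.congr_fun (hπ.lift_comp g hg) (.inr u)⟩

/-- relative homeomorphisms are excisions -/
theorem exc_of [T2Space X] [CompactSpace X'] [CompactSpace A] (i : C(A, X)) (i' : C(A', X'))
    (f : C(X', X)) (h1 : ∀ x, x ∈ range f ∨ x ∈ range i)
    (h2 : ∀ z, f z ∈ range i ↔ z ∈ range i') (h3 : ∀ z z', f z = f z' → z = z' ∨ z ∈ range i') :
    Exc (cr i) (cr i') (cr f) where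
  mp a ha := by
    ext u
    obtain ⟨v, hv⟩ := (h2 (i' u)).2 ⟨u, rfl⟩
    exact (congrArg a hv.symm).trans (DFunLike.congr_fun ha v)
  inj a ha hf := by
    ext x
    rcases h1 x with ⟨u, rfl⟩ | ⟨u, rfl⟩
    exacts [DFunLike.congr_fun hf u, DFunLike.congr_fun ha u]
  srj a ha := by
    have k : ∀ z ∈ range i', a z = 0 := fun _ ⟨u, e⟩ => e ▸ DFunLike.congr_fun ha u
    obtain ⟨c, c1, c2⟩ := exists_glue f i h1 a 0 (fun z z' e => by
      rcases h3 z z' e with rfl | h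
      · rfl
      · rw [k z h, k z' ((h2 z').1 (e ▸ (h2 z).2 h))]) (fun _ _ _ => rfl)
      fun u u' e => k u ((h2 u).1 ⟨u', e.symm⟩)
    exact ⟨c, ContinuousMap.ext c2, ContinuousMap.ext c1⟩

/-- the Mayer-Vietoris square of a cover -/
def sqCov {C : Type} [TopologicalSpace C] [T2Space X] [CompactSpace A] [CompactSpace B]
    (i : C(A, X)) (j : C(B, X)) (k : C(C, A)) (l : C(C, B)) (hi : Function.Injective i)
    (hj : Function.Injective j) (h : ∀ x, x ∈ range i ∨ x ∈ range j)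
    (hc : ∀ c, i (k c) = j (l c)) (hs : ∀ u u', i u = j u' → ∃ c, k c = u ∧ l c = u') :
    Sq C(X, ℂ) C(A, ℂ) C(B, ℂ) C(C, ℂ) where
  p1 := cr i
  p2 := cr j
  al := cr k
  be := cr l
  comm x := ContinuousMap.ext fun c => congrArg x (hc c)
  lift a b e := by
    obtain ⟨c, c1, c2⟩ := exists_glue i j h a b (fun _ _ e => by rw [hi e])
      (fun _ _ e => by rw [hj e]) fun u u' e' => by
        obtain ⟨c, rfl, rfl⟩ := hs u u' e'
        exact DFunLike.congr_fun e c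
    exact ⟨c, ContinuousMap.ext c1, ContinuousMap.ext c2⟩
  inj x y e e' := by
    ext z
    rcases h z with ⟨u, rfl⟩ | ⟨u, rfl⟩
    exacts [DFunLike.congr_fun e u, DFunLike.congr_fun e' u]

end top

end Crest.Agent.N218.K

end
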