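import Crest.Agent.N218.K.Eun0
import Crest.Agent.N218.K.Cx1
import Crest.Agent.N218.Th.Fin

/-!
# N218/K/Eun2: indeterminacy of the defect class, any reduced class (helper94)
-/

set_option autoImplicit false

noncomputable section

namespace Crest.Agent.N218.K.Pup

variable {Γ : Type} [Group Γ] [TopologicalSpace Γ] [CompactSpace Γ] {Y : GS Γ} {M T : LS Γ}

/-- the suspension of `F` kills reduced classes if `F` kills a universal Thom class -/
theorem sus_zero (F : H1 (Sb Y M) (Sb Y T)) {th : KS Y T} (hth : UT Y T th)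
    (h0 : pull F.f th = 0) (G : C((Sb Y M.xr).E, (Sb Y T.xr).E))
    (hG : ∀ e t, G ((sd Y M).c (e, t)) = (sd Y T).c (F.f e, t)) {y : KS Y T.xr}
    (hy : (Sb Y T.xr).Rd y) : pull G y = 0 := by
  obtain ⟨k, hk, rfl⟩ := hth.rel_l hy
  rw [sus_xm F G hG hth.1 hk, h0]
  exact (smd Y M _).zero_mul k

/-- `K(S) → K(Cn F)` is injective on reduced classes -/
theorem ki_inj (F : H1 (Sb Y M) (Sb Y T)) {th : KS Y T} (hth : UT Y T th)
    (h0 : pull F.f th = 0) {x : KS Y M.xr} (hx : (Sb Y M.xr).Rd x)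
    (h : ki F (sd Y M) x = 0) : x = 0 := by
  obtain ⟨G, hG⟩ := exists_sus F (sd Y M) (sd Y T)
  obtain ⟨y, hy, e⟩ := un2 F _ _ G hG hx h
  exact e.trans (sus_zero F hth h0 G.f hG hy)

/-- **indeterminacy**, `l` arbitrary -/
theorem eun_ut (F : H1 (Sb Y M) (Sb Y T)) {th : KS Y T} (hth : UT Y T th) (h0 : pull F.f th = 0)
    {l : KS Y T} {ρ : KX Y.Q} {x x' : KS Y M.xr} (h : Ecl F (sd _ _) l ρ x)
    (h' : Ecl F (sd _ _) l ρ x') :
    ∃ y, (Sb Y M.xr).Rd y ∧ x - x' = ps _ y - (Sb Y M.xr).sm ρ y := by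
  obtain ⟨G, hG⟩ := exists_sus F (sd Y M) (sd Y T)
  obtain ⟨w, y, hw, hy, e⟩ := ecl_un F _ _ G hG h' h
  refine ⟨w, hw, ?_⟩
  rw [e, sus_zero F hth h0 G.f hG hy]
  ring

/-- **indeterminacy**, for a Thom class of a sum of characters -/
theorem eun' (hY : Gd Y) (hT : Cx T) (F : H1 (Sb Y M) (Sb Y T)) {th : KS Y T}
    (hth : (Sb Y T).Th th) (h0 : pull F.f th = 0) {l : KS Y T} {ρ : KX Y.Q} {x x' : KS Y M.xr}
    (h : Ecl F (sd _ _) l ρ x) (h' : Ecl F (sd _ _) l ρ x') :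
    ∃ y, (Sb Y M.xr).Rd y ∧ x - x' = ps _ y - (Sb Y M.xr).sm ρ y :=
  eun_ut F (ut_of_th thom hY hT hth) h0 h h'

end Crest.Agent.N218.K.Pup
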