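import Crest.Agent.N218.K.Gy3
import Crest.Agent.N218.K.K1
import Crest.Agent.R204.KPt_472

/-!
# Row 218, block D0 (helper36): `K (ℂP)` over `ℤ` and `K⁻¹` of lens spaces
-/

set_option autoImplicit false
set_option linter.unusedVariables false

open Crest.Agent.R204 Crest.Agent.R204.Ex837 Polynomial
open K357 (K0)

noncomputable section

namespace Crest.Agent.N218.K

theorem kx_pt {W : Type} [TopologicalSpace W] [Unique W] :
    Function.Bijective (Int.castRingHom (KX W)) := by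
  let ε : C(W, ℂ) →ₐ[ℂ] ℂ := ContinuousMap.evalAlgHom ℂ ℂ default
  have hε : Function.Bijective ε :=
    ⟨fun a b h => ContinuousMap.ext fun w => by rw [Unique.eq_default w]; exact h,
      fun c => ⟨.const _ c, rfl⟩⟩
  have k := Th.ka_bij ε hε
  refine ⟨(injective_iff_map_eq_zero _).2 fun n h => H472.K0_field_intCast_inj (F := ℂ) ?_,
    fun x => ?_⟩
  · rw [← map_intCast (KA ε), ← eq_intCast (Int.castRingHom (KX W)), h, map_zero]
  · obtain ⟨n, hn⟩ := H472.K0_field_surj (F := ℂ) (KA ε x)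
    exact ⟨n, k.1 (by rw [eq_intCast, map_intCast, ← hn])⟩

variable {Γ Γ' : Type} [Group Γ] [TopologicalSpace Γ] [CompactSpace Γ] [Group Γ']
  [TopologicalSpace Γ'] [CompactSpace Γ']

instance : Unique (GS.triv Γ Unit).Q :=
  ⟨⟨GS.pr _ ()⟩, fun a => by obtain ⟨a, rfl⟩ := GS.pr_surj _ a; rfl⟩

open Cp in
/-- **`K (ℂP^{r-1}) = ℤ[L] / (1 - L)^r`** -/
theorem cp_int (T : THOM1) {χ : Γ →* Circle} (hχ : Continuous χ) (r : ℕ)
    (H : Function.Surjective χ) : (∀ x, ∃ p : ℤ[X], aeval (Lc (Sp χ hχ r) χ) p = x) ∧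
      ∀ p : ℤ[X], aeval (Lc (Sp χ hχ r) χ) p = 0 ↔ (1 - X) ^ r ∣ p := by
  let Y := GS.triv Γ Unit
  obtain ⟨a, b⟩ := cp hχ r T (Y := Y) fun y z => (H z).imp fun g e => ⟨rfl, e⟩
  let f : C((YS Y χ hχ r).Q, (Sp χ hχ r).Q) := GS.qmap _ _ ContinuousMap.snd fun g _ => ⟨g, rfl⟩
  have hf : Function.Bijective f := by
    refine ⟨fun a b h => ?_, fun a => ?_⟩
    · obtain ⟨a, rfl⟩ := GS.pr_surj _ a
      obtain ⟨b, rfl⟩ := GS.pr_surj _ b
      obtain ⟨g, e⟩ := (GS.pr_eq _).1 h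
      exact (GS.pr_eq _).2 ⟨g, Prod.ext rfl e⟩
    · obtain ⟨a, rfl⟩ := GS.pr_surj _ a
      exact ⟨GS.pr _ ((), a), rfl⟩
  let e : ℤ ≃+* KX Y.Q := RingEquiv.ofBijective _ kx_pt
  have k : ∀ p : ℤ[X], pull f (aeval (Lc (Sp χ hχ r) χ) p) =
      eval₂ (pull (piB Y χ hχ r)) (Lc (YS Y χ hχ r) χ) (p.map e) := fun p => by
    rw [eval₂_map, aeval_def, hom_eval₂,
      pull_Lc ⟨spS0 χ hχ r⟩ (f := ContinuousMap.snd) (fun g y => ⟨g, rfl, rfl⟩) f fun _ => rfl]
    congr 1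
    exact RingHom.ext_int _ _
  refine ⟨fun x => ?_, fun p => ?_⟩
  · obtain ⟨p, hp⟩ := a (pull f x)
    obtain ⟨p, rfl⟩ := map_surjective (e : ℤ →+* KX Y.Q) e.surjective p
    exact ⟨p, (pull_bij f hf).1 ((k p).trans hp)⟩
  · rw [← map_eq_zero_iff (pull f) (pull_bij f hf).1, k, b,
      ← map_dvd_iff (mapEquiv e) (a := (1 - X) ^ r)]
    simp

/-- the `q`-th power map of the circle -/
def pwC (q : ℕ) : Circle →* Circle := MonoidHom.id Circle ^ q

theorem pwC_cont (q : ℕ) : Continuous (pwC q) := continuous_pow q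

theorem pwC_surj {q : ℕ} (hq : 0 < q) : Function.Surjective (pwC q) := fun z => by
  obtain ⟨t, rfl⟩ := Circle.exp_surjective z
  refine ⟨Circle.exp (t / q), ?_⟩
  change Circle.exp (t / q) ^ q = _
  rw [← Circle.exp_nsmul, nsmul_eq_mul, mul_div_cancel₀ _ (Nat.cast_pos.2 hq).ne']

theorem range_eq_ker {Γ : Type} [Group Γ] [Fintype Γ] {χ : Γ →* Circle}
    (h : Function.Injective χ) : χ.range = (pwC (Fintype.card Γ)).ker := by
  classical
  have hq : 0 < Fintype.card Γ := Fintype.card_pos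
  refine le_antisymm ?_ fun z hz => ?_
  · rintro _ ⟨g, rfl⟩
    change χ g ^ _ = 1
    rw [← map_pow, pow_card_eq_one, map_one]
  · let s : Finset ℂ := Finset.univ.image fun g => (χ g : ℂ)
    have hs : s ⊆ (nthRoots (Fintype.card Γ) (1 : ℂ)).toFinset := fun w hw => by
      obtain ⟨g, -, rfl⟩ := Finset.mem_image.1 hw
      rw [Multiset.mem_toFinset, mem_nthRoots hq, ← Circle.coe_pow, ← map_pow, pow_card_eq_one,
        map_one, Circle.coe_one]
    have e := Finset.eq_of_subset_of_card_le hs (by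
      have : s.card = Fintype.card Γ :=
        Finset.card_image_of_injective _ (Circle.coe_injective.comp h)
      rw [this]
      exact (Multiset.toFinset_card_le _).trans (card_nthRoots _ _))
    have : (z : ℂ) ∈ s := by
      rw [e, Multiset.mem_toFinset, mem_nthRoots hq, ← Circle.coe_pow]
      exact congrArg _ hz
    obtain ⟨g, -, hg⟩ := Finset.mem_image.1 this
    exact ⟨g, Circle.ext hg⟩

/-- **`K⁻¹` of a lens space** -/
theorem ln1 (T : THOM1) {χ : Γ →* Circle} (hχ : Continuous χ) {q : ℕ} (hq : 0 < q)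
    (hk : χ.range = (pwC q).ker) (r : ℕ) {x : KS (Sp χ hχ (r + 1)) (LS.triv Γ ℝ)}
    (hx : (Sb _ _).Rd x) :
    Lk (r + 1) (pull (Sb (Sp χ hχ (r + 1)) (LS.triv Γ ℝ)).p (Lc (Sp χ hχ (r + 1)) χ)) x := by
  let Y := Sp (MonoidHom.id Circle) continuous_id (r + 1)
  have S : Nonempty (Sec Y (MonoidHom.id Circle)) := ⟨Cp.spS0 _ _ _⟩
  let π : C((Y.res χ hχ).Q, Y.Q) := GS.qmap _ _ (.id _) fun g _ => ⟨χ g, rfl⟩
  let z0 : C(Y.Q, (Sb Y (ch (pwC q) (pwC_cont q))).E) :=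
    GS.qmap _ _ ⟨fun y => (y, rayC 0), continuous_id.prodMk continuous_const⟩
      fun g _ => ⟨g, Prod.ext rfl ((ray_of χ (pwC q) (pwC_surj hq) hk _ _ _).e0 g)⟩
  let G := gyS Y hχ (M := ch (pwC q) (pwC_cont q)) (ray_of χ (pwC q) (pwC_surj hq) hk _ _ _) π
    (fun _ => rfl) z0 fun _ => rfl
  obtain ⟨a, b⟩ := cp_int T (χ := MonoidHom.id Circle) continuous_id (r + 1) Function.surjective_id
  have th := T _ Y (pwC q) (pwC_cont q) (sec_pow S q)
  have e : Lc Y (pwC q) = Lc Y (MonoidHom.id Circle) ^ q := Lc_pow S q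
  have := G.lk (k1Z_sp T continuous_id (r + 1) Function.surjective_id).k1Triv hq a
    (fun p => (b p).1) (by simpa using (b _).2 dvd_rfl) ps_Lc (lam := lam1 Y (pwC q) (pwC_cont q))
    (fun w hw => (th.2 w hw).exists)
    (fun a h => (th.2 0 (map_zero _)).unique h.symm (by simp [Ex.sm]))
    (by rw [← e]; exact zero_lam1 _ (sec_pow S q) z0 fun y => congrArg (pt Y _ y) rayC_zero)
    (by rw [← e]; exact ps_lam1 _) (x := x) hx
  have e2 : pull π (Lc Y (MonoidHom.id Circle)) = Lc (Sp χ hχ (r + 1)) χ :=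
    pull_Lc (Y' := Sp χ hχ (r + 1)) S (f := .id _) (fun g y => ⟨χ g, rfl, rfl⟩) π fun _ => rfl
  rw [← e2]
  exact this

end Crest.Agent.N218.K

end
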