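import Crest.Agent.N218.K.Lens
import Crest.Agent.N218.K.St
import Crest.Agent.N218.K.Ln1
import Crest.Agent.N218.Th.Fin

/-!
# Row 218, block D0 (helper56): the presentation of `K (lens)`
-/

set_option autoImplicit false
set_option linter.unusedVariables false
set_option maxHeartbeats 400000

open Crest.Agent.R204 Crest.Agent.R204.K357 Crest.Agent.R204.Ex837 Topology Set OnePoint
  ComplexConjugate Polynomial unitInterval

noncomputable section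

namespace Crest.Agent.N218.K

theorem pz_of {R R' K K' : Type} [CommRing R] [CommRing R'] [CommRing K] [CommRing K']
    {i : R →+* K} {l : K} {M q : ℕ} (h : Al.Pz i l M q) (c : R' →+* R) (hc : Function.Bijective c)
    (e : K →+* K') (he : Function.Bijective e) (i' : R' →+* K') (hi : ∀ a, e (i (c a)) = i' a) :
    Al.Pz i' (e l) M q := by
  have k : ∀ p : R'[X], eval₂ i' (e l) p = e (eval₂ i l (p.map c)) := fun p => by
    rw [eval₂_map, Cp.ev_hom _ _ e i' hi]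
  refine ⟨fun y => ?_, fun p hp => ?_⟩
  · obtain ⟨x, rfl⟩ := he.2 y
    obtain ⟨p, rfl⟩ := h.1 x
    obtain ⟨p, rfl⟩ := map_surjective c hc.2 p
    exact ⟨p, k p⟩
  · obtain ⟨a, b, e'⟩ := h.2 (p.map c) (he.1 (by rw [← k, hp, map_zero]))
    obtain ⟨a, rfl⟩ := map_surjective c hc.2 a
    obtain ⟨b, rfl⟩ := map_surjective c hc.2 b
    exact ⟨a, b, map_injective c hc.1 (by simpa using e')⟩

theorem K1Z.circle {W : Type} [TopologicalSpace W] [CompactSpace W] [T2Space W] (h : K1Z W)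
    (x : KX (W × Circle)) : ∃ k, pull ContinuousMap.fst k = x := by
  let e := AddCircle.homeomorphCircle (one_ne_zero : (1 : ℝ) ≠ 0)
  let F : C(W × Th.T1, W × Circle) := (ContinuousMap.id W).prodMap ⟨e, e.continuous⟩
  obtain ⟨k, hk⟩ := h (pull F x)
  exact ⟨k, (pull_bij F (Function.bijective_id.prodMap e.bijective)).1
    ((pull_pull F ContinuousMap.fst ContinuousMap.fst (fun _ => rfl) k).trans hk.symm)⟩

namespace Cp

variable {Γ Γ' : Type} [Group Γ] [TopologicalSpace Γ] [CompactSpace Γ] [Group Γ']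
  [TopologicalSpace Γ'] [CompactSpace Γ'] {Y : GS Γ} {χ : Γ →* Circle} (hχ : Continuous χ)
  (φ : Γ' →* Γ) (hφ : Continuous φ) (r : ℕ)

/-- the coordinate of `S(ℂ)` -/
def c1 : C(US 1, Circle) :=
  ⟨fun u => ⟨u.1 0, mem_sphere_zero_iff_norm.2 (by
    obtain ⟨z, e⟩ := Ax.circ 0 (u := u) fun i => i.elim0
    rw [e, Circle.norm_coe])⟩,
    ((continuous_apply 0).comp continuous_subtype_val).subtype_mk _⟩

theorem h1_of (H : StS Y χ) {q : ℕ} (hq : q ≠ 0) (hr : ∀ g, χ g ^ q = 1 ↔ g ∈ φ.range)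
    (h : K1Z Y.Q) (x : KX (YL Y χ hχ φ hφ 1).Q) : ∃ k, pull (piL Y χ hχ φ hφ 1) k = x := by
  have ca : ∀ g u, c1 ((Sp χ hχ 1).act g u) = χ g * c1 u := fun _ _ => rfl
  let μ : C((YL Y χ hχ φ hφ 1).Q, Y.Q × Circle) :=
    GS.lift _ ⟨fun z : Y.Z × US 1 => (Y.pr z.1, c1 z.2 ^ q), by fun_prop⟩
      fun g z => Prod.ext (Y.pr_act (φ g) z.1) (by
        change c1 ((Sp χ hχ 1).act (φ g) z.2) ^ q = c1 z.2 ^ q
        rw [ca, mul_pow, (hr _).2 ⟨g, rfl⟩, one_mul])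
  have hμ : Function.Bijective μ := by
    refine ⟨fun a b h => ?_, fun ⟨a, t⟩ => ?_⟩
    · obtain ⟨⟨y, u⟩, rfl⟩ := GS.pr_surj _ a
      obtain ⟨⟨y', u'⟩, rfl⟩ := GS.pr_surj _ b
      obtain ⟨g, e⟩ := Y.pr_eq.1 (congrArg Prod.fst h)
      have e : Y.act g y = y' := e
      have e2 : c1 u ^ q = c1 u' ^ q := congrArg Prod.snd h
      obtain ⟨g', a, b⟩ := H y' (c1 u' / (χ g * c1 u))
      have b' : χ (g' * g) * c1 u = c1 u' := by rw [map_mul, b, mul_assoc, div_mul_cancel]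
      obtain ⟨k, hk⟩ := (hr (g' * g)).1 (by
        rw [← b', mul_pow] at e2; exact (right_eq_mul.1 e2))
      refine (GS.pr_eq _).2 ⟨k, Prod.ext ?_ (Subtype.ext (funext fun i => ?_))⟩
      · change Y.act (φ k) y = y'
        rw [hk, Y.mul, e, a]
      · rw [Subsingleton.elim i 0]
        change ((χ (φ k) * c1 u : Circle) : ℂ) = c1 u'
        rw [hk, b']
    · obtain ⟨a, rfl⟩ := Y.pr_surj a
      obtain ⟨z, rfl⟩ := circ_root hq t
      exact ⟨GS.pr _ (a, ⟨fun _ => z, by simp [Un1, mul_comm, circ_conj]⟩), rfl⟩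
  obtain ⟨x, rfl⟩ := (pull_bij μ hμ).2 x
  obtain ⟨k, rfl⟩ := h.circle x
  exact ⟨k, (pull_pull μ ContinuousMap.fst _
    (fun w => by obtain ⟨w, rfl⟩ := GS.pr_surj _ w; rfl) k).symm⟩

/-- **K-theory of lens space bundles over a base with `K⁻¹ = 0`** -/
theorem ln_pz' (H : StS Y χ) {q : ℕ} (hq : q ≠ 0)
    (hr : ∀ g, χ g ^ q = 1 ↔ g ∈ φ.range) (h : K1Z Y.Q) :
    Al.Pz (pull (piL Y χ hχ φ hφ r)) (LL' Y χ hχ φ hφ r) r q :=
  ln_pz hχ φ hφ r thom H hq hr (h1_of hχ φ hφ H hq hr h)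

variable (Γ) in
/-- the point -/
abbrev Pt : GS Γ := GS.triv Γ Unit

instance : Unique (Pt Γ).Q := ⟨⟨GS.pr _ ()⟩, fun a => by
  obtain ⟨a, rfl⟩ := GS.pr_surj _ a
  rfl⟩

omit [CompactSpace Γ] in
theorem sts_pt (h : Function.Surjective χ) : StS (Pt Γ) χ :=
  fun _ z => let ⟨g, e⟩ := h z; ⟨g, rfl, e⟩

/-- `K (ℂP^{r-1})` -/
theorem cp_sp (h : Function.Surjective χ) :
    Al.Pz (Int.castRingHom _) (Lc (Sp χ hχ r) χ) r 0 ∧ (1 - Lc (Sp χ hχ r) χ) ^ r = 0 := by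
  have e : ∀ p : ℤ[X], eval₂ (Int.castRingHom _) (Lc (Sp χ hχ r) χ) p = aeval _ p :=
    fun p => by rw [aeval_def]; rfl
  obtain ⟨a, b⟩ := cp_int thom hχ r h
  refine ⟨⟨fun y => (a y).imp fun p hp => (e p).trans hp, fun p hp => ?_⟩, ?_⟩
  · obtain ⟨c, rfl⟩ := (b p).1 ((e p).symm.trans hp)
    exact ⟨c, 0, by simp⟩
  · simpa using (b _).2 dvd_rfl

/-- `K (lens)` -/
theorem ln_sp {q : ℕ} (hq : q ≠ 0) (hr : ∀ z, z ^ q = 1 ↔ z ∈ χ.range) :
    Al.Pz (Int.castRingHom _) (Lc (Sp χ hχ r) χ) r q ∧ (1 - Lc (Sp χ hχ r) χ) ^ r = 0 ∧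
      Lc (Sp χ hχ r) χ ^ q = 1 := by
  let Z := YL (Pt Circle) (.id _) continuous_id χ hχ r
  let f : C((Sp χ hχ r).Z, Z.Z) := ⟨fun u : US r => ((), u), by fun_prop⟩
  let F : C((Sp χ hχ r).Q, Z.Q) := GS.qmap _ _ f fun g u => ⟨g, rfl⟩
  have hF : Function.Bijective F := by
    refine ⟨fun a b h => ?_, fun a => ?_⟩
    · obtain ⟨a, rfl⟩ := GS.pr_surj _ a
      obtain ⟨b, rfl⟩ := GS.pr_surj _ b
      obtain ⟨g, e⟩ := Z.pr_eq.1 h
      exact (GS.pr_eq _).2 ⟨g, congrArg Prod.snd e⟩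
    · obtain ⟨a, rfl⟩ := GS.pr_surj _ a
      exact ⟨GS.pr _ a.2, rfl⟩
  have S := sts_pt (Γ := Circle) (χ := .id _) Function.surjective_id
  have e : pull F (LL' (Pt Circle) (.id _) continuous_id χ hχ r) = Lc (Sp χ hχ r) χ :=
    pull_Lc ⟨spS _ _ _ r⟩ (f := f) (fun g u => ⟨g, rfl, rfl⟩) F fun _ => rfl
  rw [← e]
  refine ⟨pz_of (ln_pz' continuous_id χ hχ r S hq hr k1Z_pt) _ kx_pt _ (pull_bij F hF) _
    fun a => by simp, ?_, ?_⟩
  · simpa using congrArg (pull F) (ln_nil continuous_id χ hχ r thom S)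
  · simpa using congrArg (pull F)
      (ln_pow (Y := Pt Circle) continuous_id χ hχ r fun g => (hr _).2 ⟨g, rfl⟩)

omit [CompactSpace Γ] in
theorem LL_eq : LL χ hχ r = Lc (Sp χ hχ r) χ := (Lc_eq (spS0 χ hχ r)).symm

end Cp

/-- **the presentation of `K (lens)`** -/
theorem kln : KLN := by
  intro Γ _ _ _ _ χ r h _
  obtain ⟨⟨a, b⟩, c, d⟩ := Cp.ln_sp (cc χ) r (q := Fintype.card Γ) Fintype.card_ne_zero
    fun z => by rw [range_eq_ker h]; rfl
  have p3 := ps_Lc (Y := Sp χ (cc χ) r) (χ := χ)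
  rw [← Cp.LL_eq] at a b c d p3
  have e : ∀ p, ev χ (cc χ) r p = eval₂ (Int.castRingHom _) (LL χ (cc χ) r) p := fun p => by
    rw [ev, aeval_def]; rfl
  refine ⟨fun y => (a y).imp fun p hp => (e p).trans hp, fun p => ⟨fun hp => ?_, fun hp => ?_⟩,
    fun p => ?_⟩
  · obtain ⟨u, v, rfl⟩ := b p ((e p).symm.trans hp)
    exact Ideal.mem_span_pair.2 ⟨u, -v, by ring⟩
  · obtain ⟨u, v, rfl⟩ := Ideal.mem_span_pair.1 hp
    simp [ev, c, d]
  · rw [e, Cp.ev_hom _ _ _ (Int.castRingHom _) fun a => by simp, ev, expand_aeval, p3, aeval_def]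
    rfl

end Crest.Agent.N218.K

end
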