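import Crest.Agent.N218.K.St

/-!
# Row 218, block D1 (helper79): complexifications are sums of characters
-/

set_option autoImplicit false
set_option linter.unusedVariables false

open Module TensorProduct

noncomputable section

namespace Crest.Agent.N218.K

/-- simultaneous eigenbases -/
theorem exists_eigbasis {Γ : Type} [Group Γ] [Fintype Γ] (χ : Γ →* Circle)
    (hχ : Function.Injective χ) {W : Type} [AddCommGroup W] [Module ℂ W] [Module.Finite ℂ W]
    (σ : Γ →* Module.End ℂ W) : ∃ (n : ℕ) (k : Fin n → ℕ) (B : W ≃ₗ[ℂ] (Fin n → ℂ)),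
      ∀ g w i, B (σ g w) i = (χ g : ℂ) ^ k i * B w i := by
  classical
  let S : Set W := {v | ∃ k : ℕ, ∀ g, σ g v = (χ g : ℂ) ^ k • v}
  have hN : (Fintype.card Γ : ℂ) ≠ 0 := Nat.cast_ne_zero.2 Fintype.card_ne_zero
  have hS : ⊤ ≤ Submodule.span ℂ S := by
    intro v _
    have h1 : ∀ k : ℕ, ∑ g, (χ g⁻¹ : ℂ) ^ k • σ g v ∈ S := fun k => ⟨k, fun h => by
      rw [map_sum, Finset.smul_sum, ← Equiv.sum_comp (Equiv.mulLeft h⁻¹)]
      refine Finset.sum_congr rfl fun g _ => ?_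
      rw [map_smul, ← Module.End.mul_apply, ← map_mul, smul_smul, ← mul_pow]
      simp [mul_comm]⟩
    have h2 : ∀ g : Γ, ∑ k ∈ Finset.range (Fintype.card Γ), (χ g⁻¹ : ℂ) ^ k =
        if g = 1 then (Fintype.card Γ : ℂ) else 0 := fun g => by
      split_ifs with e
      · simp [e]
      · have n1 : (χ g⁻¹ : ℂ) ≠ 1 := fun c => e (inv_eq_one.1 (hχ (by
          rw [map_one]; exact Circle.ext c)))
        rw [geom_sum_eq n1, ← Circle.coe_pow, ← map_pow, pow_card_eq_one, map_one, Circle.coe_one,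
          sub_self, zero_div]
    have h3 : v = (Fintype.card Γ : ℂ)⁻¹ •
        ∑ k ∈ Finset.range (Fintype.card Γ), ∑ g, (χ g⁻¹ : ℂ) ^ k • σ g v := by
      rw [Finset.sum_comm]
      simp only [← Finset.sum_smul, h2, ite_smul, zero_smul, Finset.sum_ite_eq', Finset.mem_univ,
        if_true, map_one, Module.End.one_apply, smul_smul, inv_mul_cancel₀ hN, one_smul]
    rw [h3]
    exact Submodule.smul_mem _ _ (Submodule.sum_mem _ fun k _ => Submodule.subset_span (h1 k))
  obtain ⟨b, hb, hsp, hli⟩ := exists_linearIndependent ℂ S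
  have : Finite b := hli.finite
  obtain ⟨n, ⟨e⟩⟩ := Finite.exists_equiv_fin b
  let B : Basis (Fin n) ℂ W := (Basis.mk hli (by rwa [Subtype.range_coe, hsp])).reindex e
  have hB : ∀ i, B i ∈ S := fun i => by
    simp only [B, Basis.reindex_apply, Basis.mk_apply]
    exact hb (e.symm i).2
  choose k hk using hB
  refine ⟨n, k, B.equivFun, fun g w i => ?_⟩
  have : (B.coord i).comp (σ g) = (χ g : ℂ) ^ k i • B.coord i := B.ext fun j => by
    by_cases h : j = i
    · simp [hk, h]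
    · simp [hk, h]
  exact DFunLike.congr_fun this w

/-- the complexification -/
def cxE (E : Type) [AddCommGroup E] [Module ℝ E] : ℂ ⊗[ℝ] E ≃ₗ[ℝ] E × E :=
  (TensorProduct.congr Complex.equivRealProdLm (.refl ℝ E)).trans
    ((TensorProduct.prodLeft ℝ ℝ ℝ ℝ E).trans
      ((TensorProduct.lid ℝ E).prodCongr (TensorProduct.lid ℝ E)))

theorem cxE_tmul {E : Type} [AddCommGroup E] [Module ℝ E] (c : ℂ) (v : E) :
    cxE E (c ⊗ₜ v) = (c.re • v, c.im • v) := by
  simp [cxE]

theorem cxE_map {E : Type} [AddCommGroup E] [Module ℝ E] (f : E →ₗ[ℝ] E) (x : ℂ ⊗[ℝ] E) :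
    cxE E (f.baseChange ℂ x) = (f (cxE E x).1, f (cxE E x).2) := by
  induction x using TensorProduct.induction_on with
  | zero => simp [Prod.ext_iff]
  | tmul c v => simp [cxE_tmul]
  | add x y hx hy => simp [hx, hy]

theorem cx2 : CX2 := by
  intro Γ _ _ _ _ χ hχ V
  let σ : Γ →* Module.End ℂ (ℂ ⊗[ℝ] V.W) :=
    { toFun := fun g => (V.ρ g : V.W →ₗ[ℝ] V.W).baseChange ℂ
      map_one' := by rw [map_one]; exact LinearMap.baseChange_id
      map_mul' := fun g h => by rw [map_mul]; exact LinearMap.baseChange_mul _ _ }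
  obtain ⟨n, k, B, hB⟩ := exists_eigbasis χ hχ σ
  let e : (V.W × V.W) ≃ₗ[ℝ] (Fin n → ℂ) := (cxE V.W).symm.trans (B.restrictScalars ℝ)
  refine ⟨n, fun i => χ ^ k i, fun _ => cc _, ⟨⟨e.toContinuousLinearEquiv.toHomeomorph, fun g x => ?_⟩⟩⟩
  obtain ⟨y, rfl⟩ := (cxE V.W).surjective x
  funext i
  have := hB g y i
  change B ((cxE V.W).symm (V.ρ g (cxE V.W y).1, V.ρ g (cxE V.W y).2)) i =
    ((χ g ^ k i : Circle) : ℂ) * B ((cxE V.W).symm (cxE V.W y)) i
  rw [LinearEquiv.symm_apply_apply, Circle.coe_pow, ← this]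
  exact congrArg (B · i) ((LinearEquiv.symm_apply_eq _).2 (cxE_map (V.ρ g : V.W →ₗ[ℝ] V.W) y).symm)

end Crest.Agent.N218.K

end
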