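import Crest.Agent.N218.K.St
import Crest.Agent.N218.K.Lam1
import Crest.Agent.N218.K.Rel

/-! Row 218, D1 (helper32): Thom classes: units, isomorphisms, products, universal classes. -/

set_option autoImplicit false
set_option linter.unusedVariables false

open Topology Filter Set OnePoint

noncomputable section

namespace Crest.Agent.N218.K

section ex
variable {X X₂ : Type} [TopologicalSpace X] [TopologicalSpace X₂] {A U S : Ex X}

theorem Ex.sm_sm (A : Ex X) (a b : KX X) (x : KX A.E) : A.sm a (A.sm b x) = A.sm (a * b) x := by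
  unfold Ex.sm; rw [map_mul, mul_assoc]
theorem Ex.one_sm (A : Ex X) (x : KX A.E) : A.sm 1 x = x := by unfold Ex.sm; rw [map_one, one_mul]
theorem Ex.zero_sm (A : Ex X) (x : KX A.E) : A.sm 0 x = 0 := by unfold Ex.sm; rw [map_zero, zero_mul]
theorem Ex.add_sm (A : Ex X) (a b : KX X) (x : KX A.E) : A.sm (a + b) x = A.sm a x + A.sm b x := by
  unfold Ex.sm; rw [map_add, add_mul]
theorem Ex.sub_sm (A : Ex X) (a b : KX X) (x : KX A.E) : A.sm (a - b) x = A.sm a x - A.sm b x := by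
  unfold Ex.sm; rw [map_sub, sub_mul]
theorem Ex.ps_sm (A : Ex X) (a : KX X) (x : KX A.E) : K.ps _ (A.sm a x) = A.sm (K.ps _ a) (K.ps _ x) := by
  unfold Ex.sm; rw [map_mul, ps_pull]

theorem Ex.Th.inj {l : KX A.E} (h : A.Th l) {a b : KX X} (e : A.sm a l = A.sm b l) : a = b :=
  (h.2 _ (h.1.sm a)).unique rfl e
theorem Ex.Th.ex {l x : KX A.E} (h : A.Th l) (hx : A.Rd x) : ∃ a, x = A.sm a l := (h.2 x hx).exists
theorem Ex.th_of {l : KX A.E} (h : A.Rd l) (h1 : ∀ x, A.Rd x → ∃ a, x = A.sm a l)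
    (h2 : ∀ a b, A.sm a l = A.sm b l → a = b) : A.Th l :=
  ⟨h, fun x hx => let ⟨a, e⟩ := h1 x hx; ⟨a, e, fun b e' => h2 _ _ (e'.symm.trans e)⟩⟩

/-- two Thom classes differ by a unit -/
theorem Ex.Th.unit {l l' : KX A.E} (h : A.Th l) (h' : A.Th l') :
    ∃ u v, u * v = 1 ∧ l' = A.sm u l ∧ l = A.sm v l' := by
  obtain ⟨u, e⟩ := h.ex h'.1
  obtain ⟨v, e'⟩ := h'.ex h.1
  refine ⟨u, v, h.inj ?_, e, e'⟩
  rw [mul_comm, ← A.sm_sm, ← e, ← e', A.one_sm]

theorem Ex.Th.sm_unit {l : KX A.E} (h : A.Th l) {u : KX X} (hu : IsUnit u) : A.Th (A.sm u l) := by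
  obtain ⟨v, e⟩ := hu.exists_left_inv
  refine Ex.th_of (h.1.sm u) (fun x hx => ?_) fun a b e' => ?_
  · obtain ⟨a, rfl⟩ := h.ex hx
    exact ⟨a * v, by rw [A.sm_sm, mul_assoc, e, mul_one]⟩
  · rw [A.sm_sm, A.sm_sm] at e'
    exact hu.mul_right_cancel (h.inj e')

theorem Ex.Th.isUnit {l : KX A.E} (h : A.Th l) {u : KX X} (h' : A.Th (A.sm u l)) : IsUnit u := by
  obtain ⟨a, b, e, e', -⟩ := h.unit h'
  rw [h.inj e']; exact .of_mul_eq_one _ e

theorem Ex.Th.ex_eig {l : KX A.E} (h : A.Th l) : ∃ ρ, K.ps _ l = A.sm ρ l := h.ex h.1.ps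

/-- eigenvalues of multiples -/
theorem Ex.Th.eig {l : KX A.E} (h : A.Th l) {u ρ ρ' : KX X} (e : K.ps _ l = A.sm ρ l)
    (e' : K.ps _ (A.sm u l) = A.sm ρ' (A.sm u l)) : ρ' * u = K.ps _ u * ρ := by
  rw [A.ps_sm, e, A.sm_sm, A.sm_sm] at e'
  exact (h.inj e').symm

theorem Ex.eig_sm {l : KX A.E} {u ρ ρ' : KX X} (e : K.ps _ l = A.sm ρ l)
    (h : ρ' * u = K.ps _ u * ρ) : K.ps _ (A.sm u l) = A.sm ρ' (A.sm u l) := by
  rw [A.ps_sm, e, A.sm_sm, A.sm_sm, h]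

theorem Hm.eig {B : Ex X₂} {g : C(X, X₂)} (F : Hm A B g) {l : KX B.E} {ρ : KX X₂}
    (e : K.ps _ l = B.sm ρ l) : K.ps _ (pull F.f l) = A.sm (pull g ρ) (pull F.f l) := by
  rw [ps_pull, e, F.pull_sm]

/-- Thom classes pull back along isomorphisms -/
theorem Ex.Th.of_inv {B : Ex X₂} {g : C(X, X₂)} {g' : C(X₂, X)} (F : Hm A B g) (G : Hm B A g')
    (h1 : ∀ e, G.f (F.f e) = e) (h2 : ∀ e, F.f (G.f e) = e) {l : KX B.E} (h : B.Th l) :
    A.Th (pull F.f l) := by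
  refine Ex.th_of (h.1.hm F) (fun x hx => ?_) fun a b e => ?_
  · obtain ⟨a, e⟩ := h.ex (hx.hm G)
    exact ⟨pull g a, by rw [← F.pull_sm, ← e, pull_pull_id _ _ h1]⟩
  · have e := congrArg (pull G.f) e
    rw [G.pull_sm, G.pull_sm, pull_pull_id _ _ h2] at e
    have k : ∀ x, g' (g x) = x := fun x => by
      have := G.hp (F.f (A.s x))
      rw [h1, F.hp, A.ps] at this
      exact this.symm
    rw [← pull_pull_id g g' k a, h.inj e, pull_pull_id g g' k]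

/-- fibre a point -/
theorem Ex.th_pt [CompactSpace X] (z : C(X, A.E)) (hz : ∀ x, A.p (z x) = x)
    (h : ∀ e, e ∈ range A.s ∨ e ∈ range z) {l : KX A.E} (h0 : A.Rd l) (h1 : pull z l = 1) :
    A.Th l ∧ K.ps _ l = A.sm 1 l := by
  have i1 : Function.Injective A.s := Function.LeftInverse.injective A.ps
  have i2 : Function.Injective z := Function.LeftInverse.injective hz
  have k : ∀ x, A.Rd x → x = A.sm (pull z x) l := fun x hx => by
    have a := vanish i1 i2 h (y := 1 - l) hx (by rw [map_sub, map_one, h1, sub_self])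
    have b := vanish i1 i2 h (y := x - pull A.p (pull z x)) h0
      (by rw [map_sub, pull_pull_id z A.p hz, sub_self])
    unfold Ex.sm
    linear_combination a + b
  refine ⟨Ex.th_of h0 (fun x hx => ⟨_, k x hx⟩) fun a b e => ?_, ?_⟩
  · have e := congrArg (pull z) e
    unfold Ex.sm at e
    rwa [map_mul, map_mul, h1, mul_one, mul_one, pull_pull_id z A.p hz, pull_pull_id z A.p hz] at e
  · rw [k _ h0.ps, ← ps_pull, h1, map_one]

namespace SmD
variable (D : SmD A U S) {l : KX A.E}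

theorem mul_inj (hl : A.Rd l) (h' : D.P.Th (pull D.q l)) {y y' : KX U.E} (hy : U.Rd y)
    (hy' : U.Rd y') (e : D.mul l y = D.mul l y') : y = y' := by
  have e := congrArg (pull D.c) e
  rw [D.c_mul hl hy, D.c_mul hl hy', mul_comm, mul_comm (pull D.q l)] at e
  exact h'.inj e

/-- **relative Thom isomorphism** -/
theorem rel (h : A.Th l) (h' : D.P.Th (pull D.q l)) {x : KX S.E} (hx : S.Rd x) :
    ∃ y, U.Rd y ∧ x = D.mul l y := by
  have r : D.P.Rd (pull D.c x) := by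
    unfold Ex.Rd at *
    rw [pull_sq D.P.s D.c U.p S.s D.cs, hx, map_zero]
  obtain ⟨y, e⟩ := h'.ex r
  have hy : U.Rd y := by
    have e := congrArg (pull D.j) e
    unfold Ex.sm at e
    rw [pull_sq D.j D.c A.p S.s D.cj, show pull S.s x = 0 from hx, map_zero, map_mul,
      pull_pull_id D.j D.q D.qj, pull_sq D.j D.P.p A.p U.s D.pj] at e
    exact h.inj (e.symm.trans (A.zero_sm l).symm)
  exact ⟨y, hy, D.eq_mul h.1 hy (e.trans (mul_comm _ _))⟩

theorem th (h : A.Th l) (h' : D.P.Th (pull D.q l)) {m : KX U.E} (hm : U.Th m) :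
    S.Th (D.mul l m) := by
  refine Ex.th_of (D.rd_mul _ _) (fun x hx => ?_) fun a b e => ?_
  · obtain ⟨y, hy, rfl⟩ := D.rel h h' hx
    obtain ⟨a, rfl⟩ := hm.ex hy
    exact ⟨a, D.mul_sm _ _ _⟩
  · rw [← D.mul_sm, ← D.mul_sm] at e
    exact hm.inj (D.mul_inj h.1 h' (hm.1.sm a) (hm.1.sm b) e)

/-- cancellation -/
theorem th_cancel (h : A.Th l) (h' : D.P.Th (pull D.q l)) {m : KX U.E} (hm : U.Rd m)
    (k : S.Th (D.mul l m)) : U.Th m := by
  refine Ex.th_of hm (fun x hx => ?_) fun a b e => k.inj ?_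
  · obtain ⟨a, e⟩ := k.ex (D.rd_mul l x)
    exact ⟨a, D.mul_inj h.1 h' hx (hm.sm a) (e.trans (D.mul_sm _ _ _).symm)⟩
  · rw [← D.mul_sm, ← D.mul_sm, e]

theorem eig {m : KX U.E} {ρ σ : KX X} (e : ps _ l = A.sm ρ l) (e' : ps _ m = U.sm σ m) :
    ps _ (D.mul l m) = S.sm (ρ * σ) (D.mul l m) := by
  rw [D.ps_mul, e, e', D.sm_mul, D.mul_sm, S.sm_sm]

end SmD
end ex

variable {Γ Γ' : Type} [Group Γ] [TopologicalSpace Γ] [Group Γ'] [TopologicalSpace Γ']

namespace LS.Iso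
variable {V W U V' W' : LS Γ}

/-- the identity -/
def refl (V : LS Γ) : V.Iso V := ⟨.refl _, fun _ _ => rfl⟩
/-- the inverse -/
def symm (A : V.Iso W) : W.Iso V :=
  ⟨A.e.symm, fun g x => A.e.injective (by rw [A.eq, A.e.apply_symm_apply, A.e.apply_symm_apply])⟩
/-- composition -/
def trans (A : V.Iso W) (B : W.Iso U) : V.Iso U :=
  ⟨A.e.trans B.e, fun g x => (congrArg B.e (A.eq g x)).trans (B.eq g _)⟩
/-- products -/
def prod (A : V.Iso W) (B : V'.Iso W') : (V.prod V').Iso (W.prod W') :=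
  ⟨A.e.prodCongr B.e, fun g x => Prod.ext (A.eq g x.1) (B.eq g x.2)⟩
/-- the swap -/
def comm (V W : LS Γ) : (V.prod W).Iso (W.prod V) := ⟨.prodComm _ _, fun _ _ => rfl⟩
/-- rebracketing -/
def assoc (V W U : LS Γ) : ((V.prod W).prod U).Iso (V.prod (W.prod U)) :=
  ⟨.prodAssoc _ _ _, fun _ _ => rfl⟩
/-- restriction -/
def res (A : V.Iso W) (φ : Γ' →* Γ) (hφ : Continuous φ) : (V.res φ hφ).Iso (W.res φ hφ) :=
  ⟨A.e, fun g => A.eq (φ g)⟩
end LS.Iso

variable [CompactSpace Γ] [CompactSpace Γ']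

section mp
variable {Y : GS Γ} {Y' : GS Γ'} {V W U : LS Γ} {W' : LS Γ'}

/-- the map of base spaces -/
def bse (G : C((Sb Y' W').E, (Sb Y W).E)) : C(Y'.Q, Y.Q) := (Sb Y W).p.comp (G.comp (Sb Y' W').s)

theorem Mp.bse {a : Y'.Z → Y.Z} {b : OnePoint W'.Z → OnePoint W.Z} {G} (h : Mp a b G) (y : Y'.Z) :
    bse G (Y'.pr y) = Y.pr (a y) := congrArg (Sb Y W).p (h y ∞)

/-- induced maps are maps of ex-spaces -/
def Mp.hm {a : Y'.Z → Y.Z} {b : OnePoint W'.Z → OnePoint W.Z} {G} (h : Mp a b G) (hb : b ∞ = ∞)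
    (β : C(Y'.Q, Y.Q)) (hβ : ∀ y, β (Y'.pr y) = Y.pr (a y)) : Hm (Sb Y' W') (Sb Y W) β where
  f := G
  hp e := by
    obtain ⟨y, w, rfl⟩ := pt_surj e
    rw [h y w]; exact (hβ y).symm
  hs x := by
    obtain ⟨y, rfl⟩ := Y'.pr_surj x
    rw [hβ]; exact (h y ∞).trans (congrArg _ hb)

theorem Mp.ext {a : Y'.Z → Y.Z} {b : OnePoint W'.Z → OnePoint W.Z} {G G'} (h : Mp a b G)
    (h' : Mp a b G') : G = G' := ContinuousMap.ext fun e => by
  obtain ⟨y, w, rfl⟩ := pt_surj e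
  exact (h y w).trans (h' y w).symm

/-- the fibrewise map of an isomorphism -/
def LS.Iso.eqm (A : V.Iso W) (Y : GS Γ) : EqM Y V Y W id (.id _) where
  f := ⟨fun z => OnePoint.map A.e z.2, A.e.onePointCongr.continuous.comp continuous_snd⟩
  hg _ _ := rfl
  hf γ y w := by
    induction w using OnePoint.rec with
    | infty => rfl
    | coe w => exact congrArg OnePoint.some (A.eq γ w)
  hi _ := rfl

theorem LS.Iso.mp (A : V.Iso W) (Y : GS Γ) : Mp id (OnePoint.map A.e) (A.eqm Y).hm.f :=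
  fun _ _ => rfl

/-- the map of sphere bundles of an isomorphism -/
def LS.Iso.h1 (A : V.Iso W) (Y : GS Γ) : H1 (Sb Y V) (Sb Y W) :=
  (A.mp Y).hm rfl (.id _) fun _ => rfl

theorem LS.Iso.h1_pt (A : V.Iso W) (y : Y.Z) (w : OnePoint V.Z) :
    (A.h1 Y).f (pt Y V y w) = pt Y W y (OnePoint.map A.e w) := rfl

theorem LS.Iso.h1_symm (A : V.Iso W) (e : (Sb Y V).E) : (A.symm.h1 Y).f ((A.h1 Y).f e) = e := by
  obtain ⟨y, w, rfl⟩ := pt_surj e
  exact congrArg (pt Y V y) (A.e.onePointCongr.symm_apply_apply w)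

theorem LS.Iso.symm_h1 (A : V.Iso W) (e : (Sb Y W).E) : (A.h1 Y).f ((A.symm.h1 Y).f e) = e := by
  obtain ⟨y, w, rfl⟩ := pt_surj e
  exact congrArg (pt Y W y) (A.e.onePointCongr.apply_symm_apply w)

/-- **Thom classes pull back along isomorphisms** -/
theorem th_iso (A : V.Iso W) {F : C((Sb Y V).E, (Sb Y W).E)} (hF : Mp id (OnePoint.map A.e) F)
    {l : KS Y W} (h : (Sb Y W).Th l) : (Sb Y V).Th (pull F l) := by
  rw [hF.ext (A.mp Y)]
  exact h.of_inv (A.h1 Y) (A.symm.h1 Y) A.h1_symm A.symm_h1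

theorem eig_iso (A : V.Iso W) {F : C((Sb Y V).E, (Sb Y W).E)} (hF : Mp id (OnePoint.map A.e) F)
    {l : KS Y W} {ρ : KX Y.Q} (h : ps _ l = (Sb Y W).sm ρ l) :
    ps _ (pull F l) = (Sb Y V).sm ρ (pull F l) := by
  have := (hF.hm rfl (.id _) fun _ => rfl).eig h
  rwa [pull_id] at this

/-- `g` is equivariant along `φ` -/
def Eqv (φ : Γ' →* Γ) (g : C(Y'.Z, Y.Z)) : Prop := ∀ γ y, g (Y'.act γ y) = Y.act (φ γ) (g y)

/-- the fibrewise map of a base change -/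
def Eqv.eqm {φ : Γ' →* Γ} (hφ : Continuous φ) {g : C(Y'.Z, Y.Z)} (h : Eqv φ g) (W : LS Γ) :
    EqM Y' (W.res φ hφ) Y W φ g where
  f := .snd
  hg := h
  hf γ y w := by induction w using OnePoint.rec <;> rfl
  hi _ := rfl

theorem Eqv.mp {φ : Γ' →* Γ} (hφ : Continuous φ) {g : C(Y'.Z, Y.Z)} (h : Eqv φ g) (W : LS Γ) :
    Mp g id (h.eqm hφ W).hm.f := fun _ _ => rfl

theorem wdg_swap {A B : Type} (a : OnePoint A) (b : OnePoint B) :
    OnePoint.map Prod.swap (wdg (a, b)) = wdg (b, a) := by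
  induction a using OnePoint.rec <;> induction b using OnePoint.rec <;> rfl

theorem wdg_map {A B A' B' : Type} (f : A → A') (g : B → B') (a : OnePoint A) (b : OnePoint B) :
    OnePoint.map (Prod.map f g) (wdg (a, b)) = wdg (OnePoint.map f a, OnePoint.map g b) := by
  induction a using OnePoint.rec <;> induction b using OnePoint.rec <;> rfl

/-- commutativity of the external product -/
theorem xm_swap {x : KS Y V} {y : KS Y U} (hx : (Sb Y V).Rd x) (hy : (Sb Y U).Rd y) :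
    pull ((LS.Iso.comm U V).h1 Y).f (xm x y) = xm y x := by
  let G : C((smd Y U V).P.E, (smd Y V U).P.E) :=
    GS.qmap ((Y.prod V.sph).prod U.sph) ((Y.prod U.sph).prod V.sph)
      ⟨fun z => ((z.1.1, z.2), z.1.2), by fun_prop⟩ fun g _ => ⟨g, rfl⟩
  refine (smd Y U V).eq_mul hy hx ?_
  rw [← pull_sq G (smd Y V U).c _ _ ?_, xm, (smd Y V U).c_mul hx hy, map_mul, mul_comm,
    pull_pull G _ (smd Y U V).q, pull_pull G _ (smd Y U V).P.p]
  · intro z; obtain ⟨⟨y, u⟩, w, rfl⟩ := pt_surj z; rfl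
  · intro z; obtain ⟨⟨y, u⟩, w, rfl⟩ := pt_surj z; rfl
  · intro z; obtain ⟨⟨y, u⟩, w, rfl⟩ := pt_surj z
    exact congrArg (pt Y (V.prod U) y) (wdg_swap w u).symm

/-- the external product and isomorphisms -/
theorem xm_iso {V' U' : LS Γ} (A : V'.Iso V) (B : U'.Iso U) {x : KS Y V} {y : KS Y U}
    (hx : (Sb Y V).Rd x) (hy : (Sb Y U).Rd y) :
    pull ((A.prod B).h1 Y).f (xm x y) = xm (pull (A.h1 Y).f x) (pull (B.h1 Y).f y) :=
  (A.eqm Y).xm_nat (B.eqm Y) _ (fun y w u => congrArg (pt Y (V.prod U) y) (wdg_map _ _ w u)) hx hy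

theorem rd_xm (x : KS Y V) (y : KS Y U) : (Sb Y (V.prod U)).Rd (xm x y) := (smd Y V U).rd_mul x y

theorem eig_xm {x : KS Y V} {y : KS Y U} {ρ σ : KX Y.Q} (e : ps _ x = (Sb Y V).sm ρ x)
    (e' : ps _ y = (Sb Y U).sm σ y) : ps _ (xm x y) = (Sb Y _).sm (ρ * σ) (xm x y) :=
  (smd Y V U).eig e e'

end mp

end Crest.Agent.N218.K

end
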