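import Crest.Agent.N218.K.Ln1
import Crest.Agent.N218.K.Cx0

/-!
# Row 218, block D1 (helper36): `kill : KILL`
-/

set_option autoImplicit false
set_option linter.unusedVariables false

open Polynomial OnePoint

noncomputable section

namespace Crest.Agent.N218.K.Kl

variable {Γ : Type} [Group Γ] [TopologicalSpace Γ] [CompactSpace Γ] {Y : GS Γ}

/-- the relative Thom hypothesis for one character -/
theorem rel1 (T : THOM1) {ψ : Γ →* Circle} (hψ : Continuous ψ) (S : Nonempty (Sec Y ψ))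
    (M : LS Γ) : (smd Y (ch ψ hψ) M).P.Th (pull (smd Y (ch ψ hψ) M).q (lam1 Y ψ hψ)) := by
  have e : EqC (Y' := Y.prod M.sph) (Y := Y) ContinuousMap.fst ψ ψ := fun g y => ⟨g, rfl, rfl⟩
  have k := pull_lam1 hψ hψ S e (smd Y (ch ψ hψ) M).q fun _ _ => rfl
  exact k.symm ▸ T _ _ ψ hψ ⟨S.some.cm e⟩

/-- splitting off the first character -/
def wtS {n : ℕ} (ψ : Fin (n + 1) → Γ →* Circle) (h : ∀ i, Continuous (ψ i)) :
    (Rep.wt ψ h).ls.Iso ((ch (ψ 0) (h 0)).prod (Rep.wt (fun i : Fin n => ψ i.succ) fun i => h _).ls) where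
  e := { toFun := fun v : Fin (n + 1) → ℂ => ((v 0, fun i => v i.succ) : ℂ × (Fin n → ℂ))
         invFun := fun v : ℂ × (Fin n → ℂ) => (Fin.cons v.1 v.2 : Fin (n + 1) → ℂ)
         left_inv := fun v => Fin.cons_self_tail v
         right_inv := fun v => rfl
         continuous_toFun := by
           change Continuous fun v : Fin (n + 1) → ℂ => ((v 0, fun i => v i.succ) : ℂ × (Fin n → ℂ))
           fun_prop
         continuous_invFun := continuous_pi fun i => Fin.cases continuous_fst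
           (fun i => (continuous_apply i).comp continuous_snd) i }
  eq _ _ := rfl

/-- the empty sum -/
def wt0 (ψ : Fin 0 → Γ →* Circle) (h : ∀ i, Continuous (ψ i)) (M : LS Γ) :
    ((Rep.wt ψ h).ls.prod M).Iso M where
  e := { toFun := fun v => v.2
         invFun := fun v => (fun i => i.elim0, v)
         left_inv := fun v => Prod.ext (funext fun i => i.elim0) rfl
         right_inv := fun v => rfl
         continuous_toFun := continuous_snd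
         continuous_invFun := continuous_const.prodMk continuous_id }
  eq _ _ := rfl

omit [CompactSpace Γ] in
/-- induction over sums of characters -/
theorem wt_ind (P : LS Γ → ℕ → Prop) (C : (Γ →* Circle) → Prop)
    (iso : ∀ M M' n, M'.Iso M → P M n → P M' n)
    (st : ∀ ψ hψ M n, C ψ → P M n → P ((ch ψ hψ).prod M) (n + 1)) {M : LS Γ} {m : ℕ} (h0 : P M m)
    (n : ℕ) (ψ : Fin n → Γ →* Circle) (h : ∀ i, Continuous (ψ i)) (hC : ∀ i, C (ψ i)) :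
    P ((Rep.wt ψ h).ls.prod M) (m + n) := by
  induction n with
  | zero => exact iso _ _ _ (wt0 ψ h M) h0
  | succ n ih =>
    exact iso _ _ _ (((wtS ψ h).prod (.refl M)).trans (.assoc _ _ _))
      (st _ _ _ _ (hC 0) (ih _ _ fun i => hC _))

/-- all reduced classes vanish -/
def Lz (Y : GS Γ) (M : LS Γ) : Prop := ∀ x : KS Y M, (Sb Y M).Rd x → x = 0

theorem Lz.iso {M M' : LS Γ} (A : M'.Iso M) (h : Lz Y M) : Lz Y M' := fun x hx => by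
  rw [← pull_pull_id (A.h1 Y).f (A.symm.h1 Y).f A.h1_symm x, h _ (hx.hm (A.symm.h1 Y)), map_zero]

theorem Lz.step (T : THOM1) {ψ : Γ →* Circle} (hψ : Continuous ψ) (S : Nonempty (Sec Y ψ))
    {M : LS Γ} (h : Lz Y M) : Lz Y ((ch ψ hψ).prod M) := fun x hx => by
  obtain ⟨y, hy, rfl⟩ := (smd Y _ M).rel (T _ Y ψ hψ S) (rel1 T hψ S M) hx
  rw [h y hy, SmD.mul_zero]

/-- **`K̃ (wt ψ × M) = 0` if `K̃ M = 0`** -/
theorem Lz.wt (T : THOM1) {M : LS Γ} (h0 : Lz Y M) {n : ℕ} (ψ : Fin n → Γ →* Circle)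
    (h : ∀ i, Continuous (ψ i)) (S : ∀ i, Nonempty (Sec Y (ψ i))) :
    Lz Y ((Rep.wt ψ h).ls.prod M) :=
  wt_ind (fun M _ => Lz Y M) (fun ψ => Nonempty (Sec Y ψ)) (fun _ _ _ A h => h.iso A)
    (fun _ hψ _ _ S h => h.step T hψ S) (m := 0) h0 n ψ h S

/-- **odd cells over a space with `K⁻¹ = 0`** -/
theorem lz_of (T : THOM1) (h0 : K1Z Y.Q) {n : ℕ} (ψ : Fin n → Γ →* Circle)
    (h : ∀ i, Continuous (ψ i)) (S : ∀ i, Nonempty (Sec Y (ψ i))) {N : LS Γ}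
    (A : N.Iso (Rep.wt ψ h).ls.xr) : Lz Y N :=
  (Lz.wt T (M := LS.triv Γ ℝ) (fun _ hx => h0.rd hx) ψ h S).iso A

/-- all reduced classes are of the type of `K⁻¹ (lens)` -/
def Lks (Y : GS Γ) (L : KX Y.Q) (M : LS Γ) (n : ℕ) : Prop :=
  ∀ x : KS Y M, (Sb Y M).Rd x → Lk n (pull (Sb Y M).p L) x

theorem aeval_pull {A B : Type} [TopologicalSpace A] [TopologicalSpace B] (f : C(A, B)) (L : KX B)
    (p : ℤ[X]) : aeval (pull f L) p = pull f (aeval L p) :=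
  aeval_algHom_apply (pull f).toIntAlgHom L p

variable {L : KX Y.Q}

theorem Lks.sm {M : LS Γ} {n : ℕ} (h : Lks Y L M n) {x : KS Y M} (hx : (Sb Y M).Rd x) (p : ℤ[X]) :
    (Sb Y M).sm (aeval L p) x = (p.eval 1 : ℤ) * x := by
  rw [← (h x hx).sm, aeval_pull]; rfl

theorem Lks.iso {M M' : LS Γ} {n : ℕ} (A : M'.Iso M) (h : Lks Y L M n) : Lks Y L M' n :=
  fun x hx => by
  have k := h _ (hx.hm (A.symm.h1 Y))
  have e := pull_pull_id (A.h1 Y).f (A.symm.h1 Y).f A.h1_symm x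
  refine ⟨?_, fun f => ?_, fun m hm h => ?_⟩
  · rw [← e, ps_pull, k.ps, map_mul, map_pow, map_ofNat]
  · have := congrArg (pull (A.h1 Y).f) (k.sm f)
    rwa [map_mul, map_mul, map_intCast, e, ← aeval_pull,
      pull_pull _ _ (Sb Y M').p (A.h1 Y).hp] at this
  · rw [← e, k.tf m hm (by rw [← map_intCast (pull (A.symm.h1 Y).f), ← map_mul, h, map_zero]),
      map_zero]

theorem sm_int {X : Type} [TopologicalSpace X] (A : Ex X) (m : ℤ) (x : KX A.E) :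
    A.sm m x = m * x := by rw [Ex.sm, map_intCast]

theorem mul_int {X : Type} [TopologicalSpace X] {A U S : Ex X} (D : SmD A U S) (m : ℤ)
    (x : KX A.E) (y : KX U.E) : D.mul x (m * y) = m * D.mul x y := by
  rw [← sm_int, D.mul_sm, sm_int]

theorem Lks.step (T : THOM1) {ψ : Γ →* Circle} (hψ : Continuous ψ) (S : Nonempty (Sec Y ψ))
    {k : ℕ} (hk : Lc Y ψ = L ^ k) {M : LS Γ} {n : ℕ} (h : Lks Y L M n) :
    Lks Y L ((ch ψ hψ).prod M) (n + 1) := fun x hx => by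
  obtain ⟨y, hy, rfl⟩ := (smd Y _ M).rel (T _ Y ψ hψ S) (rel1 T hψ S M) hx
  refine ⟨?_, fun f => ?_, fun m hm e => ?_⟩
  · have e := h.sm hy (3 ^ n * rho3 (X ^ k))
    have e1 : aeval L (3 ^ n * rho3 (X ^ k : ℤ[X])) = rho3 (L ^ k) * 3 ^ n := by
      simp [rho3, mul_comm, map_ofNat]
    have e2 : (3 ^ n * rho3 (X ^ k : ℤ[X])).eval 1 = 3 ^ (n + 1) := by simp [rho3, pow_succ]
    have e3 : (Sb Y M).sm (3 ^ n) y = 3 ^ n * y := by rw [Ex.sm, map_pow, map_ofNat]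
    rw [SmD.ps_mul, ps_lam1, (h y hy).ps, SmD.sm_mul, ← SmD.mul_sm, ← e3, Ex.sm_sm, hk, ← e1, e,
      mul_int, e2]
    push_cast; rfl
  · rw [aeval_pull, ← mul_int, ← h.sm hy, SmD.mul_sm]; rfl
  · rw [← mul_int, ← (smd Y _ M).mul_zero (lam1 Y ψ hψ)] at e
    rw [(h y hy).tf m hm ((smd Y _ M).mul_inj (rd_lam1 hψ) (rel1 T hψ S M)
      (by rw [← sm_int]; exact hy.sm _) (map_zero _) e), SmD.mul_zero]

theorem Lks.wt (T : THOM1) {M : LS Γ} {m : ℕ} (h0 : Lks Y L M m) {n : ℕ}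
    (ψ : Fin n → Γ →* Circle) (h : ∀ i, Continuous (ψ i))
    (S : ∀ i, Nonempty (Sec Y (ψ i)) ∧ ∃ k, Lc Y (ψ i) = L ^ k) :
    Lks Y L ((Rep.wt ψ h).ls.prod M) (m + n) :=
  wt_ind (Lks Y L) (fun ψ => Nonempty (Sec Y ψ) ∧ ∃ k, Lc Y ψ = L ^ k) (fun _ _ _ A h => h.iso A)
    (fun _ hψ _ _ ⟨S, _, hk⟩ h => h.step T hψ S hk) h0 n ψ h S

/-- a Thom class with eigenvalue of rank `3 ^ n` -/
def Te (Y : GS Γ) (L : KX Y.Q) (M : LS Γ) (n : ℕ) : Prop :=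
  ∃ (l : KS Y M) (f : ℤ[X]), (Sb Y M).Th l ∧ ps _ l = (Sb Y M).sm (aeval L f) l ∧ f.eval 1 = 3 ^ n

theorem Te.iso {M M' : LS Γ} {n : ℕ} (A : M'.Iso M) : Te Y L M n → Te Y L M' n :=
  fun ⟨l, f, a, b, c⟩ => ⟨_, f, th_iso A (A.h1_pt (Y := Y)) a, eig_iso A (A.h1_pt (Y := Y)) b, c⟩

theorem Te.one (T : THOM1) {ψ : Γ →* Circle} (hψ : Continuous ψ) (S : Nonempty (Sec Y ψ))
    {k : ℕ} (hk : Lc Y ψ = L ^ k) : Te Y L (ch ψ hψ) 1 :=
  ⟨_, rho3 (X ^ k), T _ Y ψ hψ S, by rw [ps_lam1, hk]; simp [rho3], by simp [rho3]⟩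

theorem Te.step (T : THOM1) {ψ : Γ →* Circle} (hψ : Continuous ψ) (S : Nonempty (Sec Y ψ))
    {k : ℕ} (hk : Lc Y ψ = L ^ k) {M : LS Γ} {n : ℕ} : Te Y L M n →
    Te Y L ((ch ψ hψ).prod M) (n + 1) := fun ⟨l, f, a, b, c⟩ =>
  ⟨_, rho3 (X ^ k) * f, (smd Y _ M).th (T _ Y ψ hψ S) (rel1 T hψ S M) a, by
    rw [(smd Y _ M).eig (ps_lam1 hψ) b, hk]; simp [rho3], by simp [rho3, c, pow_succ']⟩

theorem Te.wt (T : THOM1) {M : LS Γ} {m : ℕ} (h0 : Te Y L M m) {n : ℕ}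
    (ψ : Fin n → Γ →* Circle) (h : ∀ i, Continuous (ψ i))
    (S : ∀ i, Nonempty (Sec Y (ψ i)) ∧ ∃ k, Lc Y (ψ i) = L ^ k) :
    Te Y L ((Rep.wt ψ h).ls.prod M) (m + n) :=
  wt_ind (Te Y L) (fun ψ => Nonempty (Sec Y ψ) ∧ ∃ k, Lc Y ψ = L ^ k) (fun _ _ _ A h => h.iso A)
    (fun _ hψ _ _ ⟨S, _, hk⟩ h => h.step T hψ S hk) h0 n ψ h S

theorem chr_pow {Γ : Type} [Group Γ] [Fintype Γ] {χ : Γ →* Circle} (h : Function.Injective χ)
    (ψ : Γ →* Circle) : ∃ k : ℕ, ψ = χ ^ k := by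
  have : IsCyclic Γ := isCyclic_of_injective_ringHom ((Circle.coeHom).comp χ)
    (Circle.coe_injective.comp h)
  obtain ⟨g, hg⟩ := IsCyclic.exists_monoid_generator (α := Γ)
  have : ψ g ∈ χ.range := by
    rw [range_eq_ker h]
    change ψ g ^ _ = 1
    rw [← map_pow, pow_card_eq_one, map_one]
  obtain ⟨a, ha⟩ := this
  obtain ⟨k, rfl⟩ := hg a
  refine ⟨k, MonoidHom.ext fun x => ?_⟩
  obtain ⟨j, rfl⟩ := hg x
  simp only [MonoidHom.pow_apply, map_pow] at ha ⊢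
  rw [← ha, ← pow_mul, mul_comm, pow_mul]

/-- `ℝ^12 = ℂ^6` -/
def r12 : (Rep.triv Γ (Fin 12 → ℝ)).ls.Iso
    (Rep.wt (fun _ : Fin 6 => (1 : Γ →* Circle)) fun _ => continuous_const).ls where
  e := (ContinuousLinearEquiv.ofFinrankEq (𝕜 := ℝ) (E := Fin 12 → ℝ) (F := Fin 6 → ℂ)
    (by simp [Module.finrank_pi_fintype])).toHomeomorph
  eq g x := funext fun i => (one_mul _).symm

end Crest.Agent.N218.K.Kl

namespace Crest.Agent.N218.K
open Kl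

/-- **KILL** -/
theorem kill (T : THOM1) (hK : KLN) : KILL := by
  intro Γ _ _ _ _ χ X V G ⟨A⟩ ⟨n, ψ, hψ, ⟨B⟩⟩ o y hy e
  let Y := Sp χ (cc χ) 7
  have S0 : Nonempty (Sec Y χ) := ⟨Cp.spS0 _ _ _⟩
  have S : ∀ ψ, Nonempty (Sec Y ψ) ∧ ∃ k, Lc Y ψ = Lc Y χ ^ k := fun ψ => by
    obtain ⟨k, rfl⟩ := chr_pow G.inj ψ
    exact ⟨sec_pow S0 k, k, Lc_pow S0 k⟩
  have h0 : Lks Y (Lc Y χ) (LS.triv Γ ℝ) 7 := fun x hx =>
    ln1 T (cc χ) Fintype.card_pos (range_eq_ker G.inj) 6 hx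
  have h1 : Lks Y (Lc Y χ) X.ls.xr (7 + n + 6) :=
    ((h0.wt T ψ hψ fun _ => S _).wt T _ _ fun _ => S _).iso
      (((A.ls.trans (r12.prod B)).prod (.refl _)).trans (.assoc _ _ _))
  obtain ⟨l, f, a, b, c⟩ : Te Y (Lc Y χ) (TT χ (cc χ) 7 V) (1 + 6 + n) :=
    (((Te.one T (cc χ) S0 (pow_one _).symm).wt T (fun _ : Fin 6 => χ) (fun _ => cc χ)
      fun _ => S _).wt T ψ hψ fun _ => S _).iso (B.prod ((wtS _ _).trans (.comm _ _)))
  obtain ⟨u, v, uv, e1, -⟩ := a.unit o.tT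
  have e2 := a.eig b (e1 ▸ o.pT)
  have hL : LL χ (cc χ) 7 = Lc Y χ := (Lc_eq (Cp.spS0 _ _ _)).symm
  obtain ⟨k1, -, k3⟩ := hK χ 7 G.inj (by norm_num)
  simp only [ev, hL] at k1 k3
  obtain ⟨p, rfl⟩ := k1 u
  obtain ⟨p', rfl⟩ := k1 v
  obtain ⟨g, hg⟩ := k1 o.rT
  rw [k3, ← hg, ← map_mul, ← map_mul] at e2
  rw [← map_mul] at uv
  have s1 := h1.sm hy (g * p)
  have s2 := h1.sm hy (p * p')
  rw [e2, h1.sm hy] at s1
  rw [uv, Ex.one_sm] at s2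
  rw [← hg, h1.sm hy, (h1 y hy).ps] at e
  simp only [eval_mul, c, expand_eval, one_pow] at s1 s2
  refine (h1 y hy).tf (3 ^ (7 + n + 6) - 3 ^ (1 + 6 + n)) (sub_ne_zero.2 fun h => by
    have := (pow_right_inj₀ (by norm_num) (by norm_num)).1 h
    omega) ?_
  push_cast at s1 s2 ⊢
  linear_combination e + (((g.eval 1 : ℤ) : KS Y X.ls.xr) - 3 ^ (1 + 6 + n)) * s2 -
    (p'.eval 1 : ℤ) * s1

end Crest.Agent.N218.K

end
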