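import Crest.Agent.N218.K.Denl1
import Crest.Agent.N218.K.Cx1
import Crest.Agent.N218.K.Kill

/-!
# Row 218 (helper86): enlarging `U`
-/

set_option autoImplicit false
set_option linter.unusedVariables false
set_option linter.unusedSectionVars false

open unitInterval Topology Filter Set OnePoint ComplexConjugate Polynomial

noncomputable section

namespace Crest.Agent.N218.K.En

open Cp

section
variable {Γ : Type} [Group Γ] [TopologicalSpace Γ] [CompactSpace Γ] (χ : Γ →* Circle)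
  (hχ : Continuous χ) (r : ℕ)

/-- the inclusion of spheres -/
def ii : C((Sp χ hχ r).Z, (Sp χ hχ (r + 1)).Z) := ⟨fun u : US r => jn r (u, o), by fun_prop⟩

theorem ii_act (g : Γ) (u : US r) :
    ii χ hχ r ((Sp χ hχ r).act g u) = (Sp χ hχ (r + 1)).act g (ii χ hχ r u) :=
  (congrArg (fun c => jn r (_, c)) (Subtype.ext (mul_zero _).symm)).trans (jn_act χ hχ r g u o)

/-- the inclusion of lens spaces -/
def iQ : C((Sp χ hχ r).Q, (Sp χ hχ (r + 1)).Q) :=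
  GS.qmap _ _ (ii χ hχ r) fun g z => ⟨g, (ii_act χ hχ r g z).symm⟩

theorem iQ_LL : pull (iQ χ hχ r) (LL χ hχ (r + 1)) = LL χ hχ r :=
  (spS0 χ hχ (r + 1)).pull_L (spS0 χ hχ r) _ (ii χ hχ r) (fun _ => rfl) fun g y i => by
    rw [ii_act]; rfl

theorem iQ_ev (a : ℤ[X]) : pull (iQ χ hχ r) (ev χ hχ (r + 1) a) = ev χ hχ r a := by
  rw [ev, ev, ← iQ_LL χ hχ r]
  exact (aeval_algHom_apply (pull (iQ χ hχ r)).toIntAlgHom _ a).symm

variable (M : LS Γ)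

theorem mp_i : Mp (ii χ hχ r) id ((jM χ hχ r M).comp (i0 χ hχ r M)) := fun _ _ => rfl

/-- the inclusion of sphere bundles -/
def iH : Hm (Sb (Sp χ hχ r) M) (Sb (Sp χ hχ (r + 1)) M) (iQ χ hχ r) :=
  (mp_i χ hχ r M).hm rfl _ fun _ => rfl
end

section
variable {Γ : Type} [Group Γ] [Fintype Γ] [TopologicalSpace Γ] [DiscreteTopology Γ]
  {χ : Γ →* Circle} {r : ℕ}

theorem gd (hi : Function.Injective χ) (r : ℕ) : Gd (Sp χ (cc χ) r) := fun ψ _ => by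
  obtain ⟨k, rfl⟩ := Kl.chr_pow hi ψ
  exact sec_pow ⟨spS0 χ (cc χ) r⟩ k

theorem unit_up (hK : KLN) (hi : Function.Injective χ) (hr : 0 < r) {b : ℤ[X]}
    (h : IsUnit (ev χ (cc χ) r b)) : IsUnit (ev χ (cc χ) (r + 1) b) := by
  obtain ⟨w, e⟩ := h.exists_right_inv
  obtain ⟨b', rfl⟩ := (hK χ r hi hr).1 w
  obtain ⟨s, t, e'⟩ := Ideal.mem_span_pair.1 (((hK χ r hi hr).2.1 (b * b' - 1)).1
    (by rw [map_sub, map_mul, e, map_one, sub_self]))
  have z := (hK χ (r + 1) hi r.succ_pos).2.1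
  have n : IsNilpotent (ev χ (cc χ) (r + 1) (1 - X)) :=
    ⟨r + 1, by rw [← map_pow]; exact (z _).2 (Ideal.subset_span (.inl rfl))⟩
  have k : ev χ (cc χ) (r + 1) b * ev χ (cc χ) (r + 1) b' =
      1 + ev χ (cc χ) (r + 1) s * ev χ (cc χ) (r + 1) (1 - X) ^ r := by
    rw [← map_mul, sub_eq_iff_eq_add.1 e'.symm, map_add, map_add, map_mul, map_mul, map_pow,
      (z _).2 (Ideal.subset_span (.inr rfl)), map_one, mul_zero, add_zero]
    exact add_comm _ _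
  refine isUnit_of_mul_isUnit_left (y := ev χ (cc χ) (r + 1) b') (k ▸ IsNilpotent.isUnit_one_add ?_)
  exact (Commute.all _ _).isNilpotent_mul_left (n.pow_of_pos hr.ne')
end

end En

open En Cp

/-- **DENL** -/
theorem denl (T : THOM1) (hK : KLN) : DENL := by
  intro Γ _ _ _ _ χ r X V hi hr hX hV lS lT lS' lT' tS tT tS' tT'
  obtain ⟨l1, u1⟩ := (cx_tt χ (cc χ) r hV).ut T (gd hi (r + 1))
  obtain ⟨v, v', hv, e1, -⟩ := (u1.th_l (T _ _ χ (cc χ) ⟨spS0 χ (cc χ) (r + 1)⟩)).unit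
    (th_iso (spl χ (cc χ) r V) (F := ((spl χ (cc χ) r V).h1 _).f) (fun _ _ => rfl) tT')
  obtain ⟨v1, v1', hv1, e2, -⟩ := tT.unit (u1.base (ii χ (cc χ) r) (ii_act χ (cc χ) r)
    (F := (iH χ (cc χ) r _).f) (mp_i χ (cc χ) r _))
  obtain ⟨v2, v2', hv2, e3, -⟩ := ((ut_of_th T (gd hi (r + 1)) hX tS').base (ii χ (cc χ) r)
    (ii_act χ (cc χ) r) (F := (iH χ (cc χ) r _).f) (mp_i χ (cc χ) r _)).unit tS
  obtain ⟨b, hb⟩ := (hK χ r hi hr).1 (v1 * v2)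
  obtain ⟨c, hc⟩ := (hK χ (r + 1) hi r.succ_pos).1 v
  refine ⟨b * c, ?_, fun P a ⟨F, hF, hy⟩ => ?_⟩
  · rw [map_mul, hc]
    refine (unit_up hK hi hr ?_).mul (.of_mul_eq_one _ hv)
    rw [hb]
    exact (IsUnit.of_mul_eq_one _ hv1).mul (.of_mul_eq_one _ hv2)
  obtain ⟨f, F3, F', hf, hF1, hF3, cl, e⟩ := cl_enl χ (cc χ) hr hF
  refine ⟨F', cl, ?_⟩
  have g := gysin χ (cc χ) hr f hf ((iH χ (cc χ) r _).f.comp F.f)
    (fun u w => congrArg (iH χ (cc χ) r _).f (hF1 u w)) F3 hF3 u1.1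
    (y := (Sb _ _).sm (ev χ (cc χ) (r + 1) (a * b)) lS') (by
      refine ((iH χ (cc χ) r _).pull_sm _ _).trans ?_
      rw [pull_comp F.f, e2, F.pull_sm, pull_id, hy, e3, iQ_ev, map_mul, hb, Ex.sm_sm, Ex.sm_sm]
      congr 1; ring)
  have k : ∀ x, pull F3 ((Sb _ _).sm v x) = (Sb _ _).sm v (pull F3 x) := fun x => by
    unfold Ex.sm
    rw [map_mul, pull_pull F3 _ (Sb _ _).p fun z => ?_]
    obtain ⟨y, w, rfl⟩ := pt_surj z
    obtain ⟨⟨u, d⟩, rfl⟩ := jn_onto hr y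
    rw [hF3]; rfl
  rw [e, pull_comp, e1, k, g, Ex.sm_sm, Ex.sm_sm, map_mul, map_mul, map_mul, map_mul, hc, map_sub,
    map_one, show ev χ (cc χ) (r + 1) Polynomial.X = LL χ (cc χ) (r + 1) from aeval_X _]
  congr 1; ring

end Crest.Agent.N218.K

end
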