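import Crest.Agent.N218.K.Eun0
import Crest.Agent.N218.K.Cx1
import Crest.Agent.N218.K.Kill

/-!
# N218/K/Eun: indeterminacy of the defect class over lens spaces (helper94)
-/

set_option autoImplicit false

noncomputable section

namespace Crest.Agent.N218.K

theorem eun (T : THOM1) : EUN := by
  intro Γ _ _ _ _ χ r M W hχ hW F l ρ x x' hl h0 h h'
  have hY : Gd (Sp χ (cc χ) r) := fun ψ _ => by
    obtain ⟨k, rfl⟩ := Kl.chr_pow hχ ψ
    exact sec_pow ⟨Cp.spS0 _ _ _⟩ k
  exact Pup.eun_of F hl.1 (fun y hy => (ut_of_th T hY hW hl).rel_l hy) h0 h h'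

end Crest.Agent.N218.K
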