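import Crest.Agent.N218.K.Stb
import Crest.Agent.N218.K.Cx
import Crest.Agent.N218.K.Cy
import Crest.Agent.N218.K.Eht

/-! Row 218, D1 (helper83): stabilisation of the invariants (`VSTB`). -/

set_option autoImplicit false
set_option linter.unusedVariables false
set_option maxHeartbeats 400000

open unitInterval Topology Filter Set OnePoint

noncomputable section

namespace Crest.Agent.N218.K

namespace Vs

section ex
variable {X : Type} [TopologicalSpace X] {A B U S S₂ : Ex X}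

theorem th_iso (F : H1 A B) (G : H1 B A) (h1 : ∀ e, G.f (F.f e) = e) (h2 : ∀ e, F.f (G.f e) = e)
    {l : KX B.E} (h : B.Th l) : A.Th (pull F.f l) := by
  refine ⟨h.1.hm F, fun x hx => ?_⟩
  obtain ⟨a, e, u⟩ := h.2 _ (hx.hm G)
  refine ⟨a, ?_, fun a' e' => u a' ?_⟩
  · change x = _
    rw [← pull_pull_id F.f G.f h1 x, e, F.pull_sm, pull_id]
  · change x = _ at e'
    rw [e', G.pull_sm, pull_id, pull_pull_id G.f F.f h2]

theorem sm_sm (a b : KX X) (x : KX A.E) : A.sm a (A.sm b x) = A.sm (b * a) x := by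
  unfold Ex.sm; rw [map_mul]; ring

/-- transport of a smash datum -/
def tr (D : SmD A U S) (F : H1 S S₂) (G : H1 S₂ S) (h1 : ∀ e, G.f (F.f e) = e)
    (h2 : ∀ e, F.f (G.f e) = e) : SmD A U S₂ where
  P := D.P
  q := D.q
  j := D.j
  c := F.f.comp D.c
  qj := D.qj
  pj := D.pj
  qs := D.qs
  js := D.js
  pq := D.pq
  pc z := (F.hp _).trans (D.pc z)
  cj a := (congrArg F.f (D.cj a)).trans (F.hs _)
  cs a := (congrArg F.f (D.cs a)).trans (F.hs _)
  surj e := let ⟨z, h⟩ := D.surj (G.f e); ⟨z, (congrArg F.f h).trans (h2 e)⟩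
  inj z z' h := D.inj z z' ((h1 _).symm.trans ((congrArg G.f h).trans (h1 _)))

theorem tr_mul (D : SmD A U S) (F : H1 S S₂) (G : H1 S₂ S) (h1 : ∀ e, G.f (F.f e) = e)
    (h2 : ∀ e, F.f (G.f e) = e) {x : KX A.E} {y : KX U.E} (hx : A.Rd x) (hy : U.Rd y) :
    (tr D F G h1 h2).mul x y = pull G.f (D.mul x y) :=
  ((tr D F G h1 h2).eq_mul hx hy ((pull_pull _ G.f D.c (fun z => h1 _) _).trans
    (D.c_mul hx hy))).symm

/-- naturality for a stabilised map -/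
theorem pull_mul {SA SB : Ex X} {DA : SmD A U SA} {DB : SmD B U SB} {F : H1 A B} {F' : H1 SA SB}
    (T : Stab DA DB F F') {x : KX B.E} {y : KX U.E} (hx : B.Rd x) (hy : U.Rd y) :
    pull F'.f (DB.mul x y) = DA.mul (pull F.f x) y := by
  have := DA.natural DB F.f (.id _) T.G.f F'.f T.hq T.G.hp (fun z => (T.hc z).symm) hx hy
    (hx.hm F) (by rw [pull_id]; exact hy)
  rwa [pull_id] at this

/-- the secondary class of a stabilised map -/
theorem ecl_mul {SA SB EA ES : Ex X} {DA : SmD A U SA} {DB : SmD B U SB} {F : H1 A B}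
    {F' : H1 SA SB} (T : Stab DA DB F F') (D : SD A EA) (D' : SD SA ES) (DX : SmD EA U ES)
    (D'' : SD DA.P DX.P) (h1 : ∀ z t, DX.q (D''.c (z, t)) = D.c (DA.q z, t))
    (h3 : ∀ z t, DX.c (D''.c (z, t)) = D'.c (DA.c z, t))
    {l : KX B.E} {ρ r : KX X} {x : KX EA.E} {y : KX U.E} (hl : B.Rd l) (hy : U.Rd y)
    (py : ps _ y = U.sm r y) (h : Ecl F D l ρ x) :
    Ecl F' D' (DB.mul l y) (ρ * r) (ES.sm r (DX.mul x y)) := by
  have k := T.ecl D D' DX D'' h1 (.id _) (fun z t => (h3 z t).symm) (fun _ => rfl) hl hy py h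
  rwa [pull_id, py, SmD.mul_sm] at k

end ex

variable {Γ : Type} [Group Γ] [TopologicalSpace Γ]

/-- the inverse -/
def isy {M M' : LS Γ} (a : M.Iso M') : M'.Iso M :=
  ⟨a.e.symm, fun g x => a.e.injective (by rw [a.eq, a.e.apply_symm_apply, a.e.apply_symm_apply])⟩

/-- exchange of the last two factors -/
def sw (A B C : Type) [TopologicalSpace A] [TopologicalSpace B] [TopologicalSpace C] :
    (A × B) × C ≃ₜ (A × C) × B where
  toFun z := ((z.1.1, z.2), z.1.2)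
  invFun z := ((z.1.1, z.2), z.1.2)
  left_inv _ := rfl
  right_inv _ := rfl

def swL (A B C : LS Γ) : ((A.prod B).prod C).Iso ((A.prod C).prod B) := ⟨sw _ _ _, fun _ _ => rfl⟩

def swR (A B C : Rep Γ) : ((A.prod B).prod C).Iso ((A.prod C).prod B) :=
  ⟨{ sw A.W B.W C.W with map_add' := fun _ _ => rfl, map_smul' := fun _ _ => rfl }, fun _ _ => rfl⟩

def xrI {M M' W : LS Γ} (a : (M.prod W).Iso M') : (M.xr.prod W).Iso M'.xr :=
  ⟨(sw _ _ _).trans (a.e.prodCongr (.refl ℝ)), fun g x => Prod.ext (a.eq g (x.1.1, x.2)) rfl⟩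

theorem ok_st {X X' : LS Γ} {V W : Rep Γ} {P : PB X V} {S : Set X.Z} (h : P.Ok S)
    (a : X.Z × W.W ≃ₜ X'.Z) (ha : ∀ g x w, X'.act g (a (x, w)) = a (X.act g x, W.ρ g w))
    {Q : PB X' (V.prod W)} (hO : ∀ x w, a (x, w) ∈ Q.O ↔ x ∈ P.O)
    (hf : ∀ x w, Q.f (a (x, w)) = (P.f x, w)) {S' : Set X'.Z}
    (hS : ∀ x ∈ S, a (x, 0) ∈ S') : Q.Ok S' := by
  have o : Q.O = a.symm ⁻¹' (Prod.fst ⁻¹' P.O) := Set.ext fun z => by
    obtain ⟨⟨x, w⟩, rfl⟩ := a.surjective z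
    rw [mem_preimage, a.symm_apply_apply]; exact hO x w
  have f : Q.f = fun z => (P.f (a.symm z).1, (a.symm z).2) := funext fun z => by
    obtain ⟨⟨x, w⟩, rfl⟩ := a.surjective z
    rw [a.symm_apply_apply]; exact hf x w
  have z : Q.Z = a '' (P.Z ×ˢ {0}) := Set.ext fun z => by
    obtain ⟨⟨x, w⟩, rfl⟩ := a.surjective z
    rw [a.injective.mem_set_image]
    exact ⟨fun m => ⟨⟨(hO x w).1 m.1, congrArg Prod.fst ((hf x w).symm.trans m.2)⟩,
      congrArg Prod.snd ((hf x w).symm.trans m.2)⟩,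
      fun m => ⟨(hO x w).2 m.1.1, (hf x w).trans (Prod.ext m.1.2 m.2)⟩⟩
  refine ⟨o ▸ (h.op.preimage continuous_fst).preimage a.symm.continuous, fun g z m => ?_, ?_,
    fun g z m => ?_, z ▸ (h.cp.prod isCompact_singleton).image a.continuous, ?_⟩
  · obtain ⟨⟨x, w⟩, rfl⟩ := a.surjective z
    rw [ha]; exact (hO _ _).2 (h.inv g x ((hO x w).1 m))
  · rw [o, f]
    exact (h.ct.comp a.symm.continuous.fst.continuousOn fun _ m => m).prodMk
      a.symm.continuous.snd.continuousOn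
  · obtain ⟨⟨x, w⟩, rfl⟩ := a.surjective z
    rw [ha, hf, hf]
    exact Prod.ext (h.eq g x ((hO x w).1 m)) rfl
  · rw [z]
    rintro _ ⟨⟨x, w⟩, ⟨m, m'⟩, rfl⟩
    obtain rfl : w = 0 := m'
    exact hS x (h.fr m)

theorem fr_st {X V : Rep Γ} (W : Rep Γ) {P : PB X.ls V} (h : P.Fr) : (P.st W).Fr :=
  ok_st (X' := (X.prod W).ls) (Q := P.st W) h (.refl _) (fun _ _ _ => rfl)
    (fun _ _ => ⟨fun m => m.1, fun m => ⟨m, trivial⟩⟩)
    (fun _ _ => rfl) fun x m g e => m g (congrArg Prod.fst e)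

theorem bd_st {X V : Rep Γ} (W : Rep Γ) {P Q : PB X.ls V} (h : P.Bd Q) :
    (P.st W).Bd (Q.st W) := by
  obtain ⟨p, q, H, c, d, e⟩ := h
  let H' : PB (X.prod W).ls.cy (V.prod W) :=
    ⟨{z | (z.1.1, z.2) ∈ H.O}, fun z => (H.f (z.1.1, z.2), z.1.2)⟩
  have k : ∀ (t : I) (R : PB X.ls V), (H.sl t).Le R → (H'.sl t).Le (R.st W) :=
    fun t R l => ⟨fun x m => ⟨l.sub m, trivial⟩, fun x m => Prod.ext (l.eq x.1 m) rfl,
      fun x m => l.z (a := x.1) ⟨m.1.1, congrArg Prod.fst m.2⟩⟩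
  exact ⟨fr_st W p, fr_st W q, H', ok_st (X' := (X.prod W).ls.cy) (Q := H') c (sw _ _ _)
    (fun _ _ _ => rfl) (fun _ _ => Iff.rfl) (fun _ _ => rfl)
    fun x m g e => m g (congrArg Prod.fst e), k 0 P d, k 1 Q e⟩

variable [CompactSpace Γ] {Y : GS Γ} {M M' N : LS Γ}

theorem map_act (a : M.Iso M') (g : Γ) (w : OnePoint M.Z) :
    M'.sph.act g (a.e.onePointCongr w) = a.e.onePointCongr (M.sph.act g w) := by
  induction w using OnePoint.rec with
  | infty => rfl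
  | coe w => exact congrArg OnePoint.some (a.eq g w).symm

variable (Y) in
/-- the homeomorphism of sphere bundles -/
def isoH (a : M.Iso M') : H1 (Sb Y M) (Sb Y M') where
  f := GS.qmap (Y.prod M.sph) (Y.prod M'.sph) ⟨fun z => (z.1, a.e.onePointCongr z.2),
    continuous_fst.prodMk (a.e.onePointCongr.continuous.comp continuous_snd)⟩
    fun g z => ⟨g, Prod.ext rfl (map_act a g z.2)⟩
  hp e := by obtain ⟨y, w, rfl⟩ := pt_surj e; rfl
  hs x := by obtain ⟨y, rfl⟩ := Y.pr_surj x; rfl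

theorem isoH_pt (a : M.Iso M') (y : Y.Z) (w : OnePoint M.Z) :
    (isoH Y a).f (pt Y M y w) = pt Y M' y (a.e.onePointCongr w) := rfl

theorem isoH_l (a : M.Iso M') (e : (Sb Y M).E) : (isoH Y (isy a)).f ((isoH Y a).f e) = e := by
  obtain ⟨y, w, rfl⟩ := pt_surj e
  exact congrArg (pt Y M y) (a.e.onePointCongr.symm_apply_apply w)

theorem isoH_r (a : M.Iso M') (e : (Sb Y M').E) : (isoH Y a).f ((isoH Y (isy a)).f e) = e := by
  obtain ⟨y, w, rfl⟩ := pt_surj e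
  exact congrArg (pt Y M' y) (a.e.onePointCongr.apply_symm_apply w)

variable (Y) in
/-- the smash datum in other coordinates -/
def smI {W : LS Γ} (a : (M.prod W).Iso M') : SmD (Sb Y M) (Sb Y W) (Sb Y M') :=
  tr (smd Y M W) (isoH Y a) (isoH Y (isy a)) (isoH_l a) (isoH_r a)

theorem th_smI {W : LS Γ} (a : (M.prod W).Iso M') {l : KS Y M} {y : KS Y W} (hl : (Sb Y M).Rd l)
    (hy : (Sb Y W).Rd y) (h : (Sb Y (M.prod W)).Th (xm l y)) : (Sb Y M').Th ((smI Y a).mul l y) := by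
  rw [smI, tr_mul _ _ _ _ _ hl hy]
  exact th_iso _ _ (isoH_r a) (isoH_l a) h

variable {T T' : Rep Γ}

theorem rp_iso {Q : FP Y M T} {Q' : FP Y M' T'} {F : H1 (Sb Y M) (Sb Y T.ls)} (h : Q.Rp F)
    (a : M.Iso M') (b : T.Iso T') (hO : ∀ y m, (y, a.e m) ∈ Q'.O ↔ (y, m) ∈ Q.O)
    (hf : ∀ y m, Q'.f (y, a.e m) = b.e (Q.f (y, m))) :
    Q'.Rp ((isoH Y (isy a)).cm (F.cm (isoH Y b.ls))) := by
  obtain ⟨χ, c, e⟩ := h
  let E : Y.Z × M'.Z ≃ₜ Y.Z × M.Z := (Homeomorph.refl _).prodCongr a.e.symm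
  have t : tsupport (χ ∘ E) = E ⁻¹' tsupport χ := tsupport_comp_eq_preimage χ E
  refine ⟨χ ∘ E, ⟨c.ct.comp E.continuous, fun _ => c.nn _, t ▸ E.isCompact_preimage.2 c.cp,
    fun x m => ?_, fun x o z => ?_, fun g x => ?_⟩, fun y w => ?_⟩
  · rw [t] at m
    have := (hO _ _).2 (c.sub m)
    exact (congrArg (fun m => (x.1, m) ∈ Q'.O) (a.e.apply_symm_apply x.2)).mp this
  · obtain ⟨y, w⟩ := x
    obtain ⟨m, rfl⟩ := a.e.surjective w
    have := c.pos (y, m) ((hO y m).1 o) (b.e.injective ((hf y m).symm.trans (z.trans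
      (map_zero b.e).symm)))
    exact this.trans_eq (congrArg (fun m => χ (y, m)) (a.e.symm_apply_apply m).symm)
  · exact (congrArg (fun m => χ (Y.act g x.1, m)) ((isy a).eq g x.2)).trans
      (c.inv g (x.1, a.e.symm x.2))
  · obtain ⟨m, rfl⟩ := a.e.surjective w
    have e1 : (isoH Y (isy a)).f (pt Y M' y (a.e m : M'.Z)) = pt Y M y m := isoH_l a (pt Y M y m)
    have e2 : (χ ∘ E) (y, a.e m) = χ (y, m) :=
      congrArg (fun m => χ (y, m)) (a.e.symm_apply_apply m)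
    change (isoH Y b.ls).f (F.f ((isoH Y (isy a)).f _)) = _
    rw [e1, e, FP.col, FP.col, e2, hf]
    split_ifs
    · rfl
    · exact congrArg (fun v : T'.W => pt Y T'.ls y (v : OnePoint T'.W)) (map_smul b.e _ _)

/-- stabilisation of fibrewise problems -/
def stW (P : FP Y M T) (W : Rep Γ) : FP Y (M.prod W.ls) (T.prod W) :=
  ⟨{x | (x.1, x.2.1) ∈ P.O}, fun x => (P.f (x.1, x.2.1), x.2.2)⟩

omit [CompactSpace Γ] in
theorem stW_ok {P : FP Y M T} (h : P.Ok) (W : Rep Γ) : (stW P W).Ok :=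
  (FP.ok_iff _).2 (ok_st ((FP.ok_iff P).1 h) (X' := Y.ls.prod (M.prod W.ls)) (Q := (stW P W).tp)
    (Homeomorph.prodAssoc _ _ _) (fun _ _ _ => rfl) (fun _ _ => Iff.rfl) (fun _ _ => rfl)
    fun _ _ => trivial)

theorem pm_st {g : Y.Z × M.Z → OnePoint N.Z} (h : Pm Y M N g) (W : LS Γ) :
    Pm Y (M.prod W) (N.prod W) fun x => wdg (g (x.1, x.2.1), (x.2.2 : OnePoint W.Z)) := by
  refine ⟨continuous_wdg.comp ((h.ct.comp (continuous_fst.prodMk continuous_snd.fst)).prodMk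
    (continuous_coe.comp continuous_snd.snd)), fun K' k => ?_, fun γ y w => ?_⟩
  · obtain ⟨K, a, b⟩ := h.pr _ (k.image continuous_fst)
    refine ⟨K ×ˢ (Prod.snd '' K'), a.prod (k.image continuous_snd), fun p w w' n e m => n ?_⟩
    obtain ⟨e1, e2⟩ := wdg_eq_coe e
    exact ⟨by_contra fun i => b p w.1 w'.1 i e1 ⟨w', m, rfl⟩, w', m, (coe_injective e2).symm⟩
  · exact (congrArg (fun v => wdg (v, (W.act γ w.2 : OnePoint W.Z))) (h.eq γ y w.1)).trans
      (wdg_act2 N W γ _ w.2).symm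

theorem ht_st {P : FP Y M T} (h : P.Ok) {χ : Y.Z × M.Z → ℝ} (c : P.Cut χ) (W : Rep Γ)
    {F : H1 (Sb Y (M.prod W.ls)) (Sb Y (T.prod W).ls)}
    (r : Rg F fun x => wdg (P.col χ (x.1, x.2.1), OnePoint.some x.2.2)) :
    (stW P W).hm.Ht F := by
  have c1 : Continuous fun x : Y.Z × M.Z × W.W => ((x.1, x.2.1) : Y.Z × M.Z) := by fun_prop
  have c2 : Continuous fun x : I × (Y.Z × M.Z × W.W) => χ (x.2.1, x.2.2.1) :=
    (c.ct.comp c1).comp continuous_snd
  have ps : ∀ (s : I) x, χ x ≠ 0 → (1 - (s : ℝ)) * (χ x)⁻¹ + s ≠ 0 := fun s x n => by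
    have p := inv_pos.2 ((c.nn x).lt_of_ne' n)
    rcases s.2.1.eq_or_lt with e | e
    · rw [← e]; simpa using n
    · exact (add_pos_of_nonneg_of_pos (mul_nonneg (sub_nonneg.2 s.2.2) p.le) e).ne'
  obtain ⟨o0, o1, t⟩ := FP.ht_of (Y := Y) (M := M.prod W.ls) (W := T.prod W)
    ⟨{x | χ (x.1, x.2.1) ≠ 0}, fun x => ((χ (x.1, x.2.1))⁻¹ • P.f (x.1, x.2.1), x.2.2)⟩
    ⟨{x | χ (x.1, x.2.1) ≠ 0}, (stW P W).f⟩ {z | χ (z.2.1, z.2.2.1) ≠ 0}
    (fun z => (((1 - (z.1 : ℝ)) * (χ (z.2.1, z.2.2.1))⁻¹ + z.1) • P.f (z.2.1, z.2.2.1), z.2.2.2))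
    (isOpen_ne_fun c2 continuous_const) (fun g t x m => (c.inv g (x.1, x.2.1)).trans_ne m)
    (((((continuous_const.sub (continuous_subtype_val.comp continuous_fst)).continuousOn.mul
      (c2.continuousOn.inv₀ fun _ m => m)).add
      (continuous_subtype_val.comp continuous_fst).continuousOn).smul
      (h.ct.comp (c1.comp continuous_snd).continuousOn fun _ m => c.mem m)).prodMk
      continuous_snd.snd.snd.continuousOn)
    (fun g t x m => Prod.ext (by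
      change ((1 - (t : ℝ)) * (χ (Y.act g x.1, M.act g x.2.1))⁻¹ + t) •
        P.f (Y.act g x.1, M.act g x.2.1) =
        T.ρ g (((1 - (t : ℝ)) * (χ (x.1, x.2.1))⁻¹ + t) • P.f (x.1, x.2.1))
      rw [c.inv g (x.1, x.2.1), h.eq g (x.1, x.2.1) (c.mem m), _root_.map_smul]) rfl)
    (by
      have k := (isCompact_univ (X := I)).prod (stW_ok h W).cp
      refine (congrArg IsCompact (Set.ext fun z => ⟨fun m => ?_, fun m => ?_⟩)).mpr k
      · have z1 := congrArg Prod.fst m.2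
        have z2 := congrArg Prod.snd m.2
        exact ⟨trivial, c.mem m.1, Prod.ext ((smul_eq_zero.1 z1).resolve_left (ps _ _ m.1)) z2⟩
      · have z0 : P.f (z.2.1, z.2.2.1) = 0 := congrArg Prod.fst m.2.2
        have z2 := congrArg Prod.snd m.2.2
        exact ⟨(c.pos _ m.2.1 z0).ne', Prod.ext ((congrArg (_ • ·) z0).trans (smul_zero _)) z2⟩)
    (fun _ => Iff.rfl) (fun x _ => by simp) (fun _ => Iff.rfl) fun x _ => by simp [stW]
  refine ((stW_ok h W).exc o1 (fun x m => c.mem m) (fun _ _ => rfl) fun x o z =>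
    (c.pos _ o (congrArg Prod.fst z)).ne').tr (t.sy.tr (o0.proper (pm_st (c.pm h) W.ls)
      (fun x m => ?_) (fun x m => ?_) r))
  · exact congrArg (fun v => wdg (v, OnePoint.some x.2.2)) (if_neg m)
  · exact congrArg (fun v => wdg (v, OnePoint.some x.2.2)) (if_pos (not_not.1 m))

/-- the classifying map of the stabilised problem -/
theorem rp_st {P : FP Y M T} (h : P.Ok) {F : H1 (Sb Y M) (Sb Y T.ls)} (r : P.Rp F) (W : Rep Γ)
    (a : (M.prod W.ls).Iso M') (b : (T.prod W).Iso T') {Q : FP Y M' T'}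
    (hO : ∀ y m w, (y, a.e (m, w)) ∈ Q.O ↔ (y, m) ∈ P.O)
    (hf : ∀ y m w, Q.f (y, a.e (m, w)) = b.e (P.f (y, m), w)) :
    ∃ F' F1, Q.Rp F' ∧ F1.Ht F' ∧ ∃ S : Stab (smI Y a) (smI Y (M := T.ls) (W := W.ls) b.ls) F F1,
      True := by
  obtain ⟨χ, c, e⟩ := r
  have m := c.pm h
  obtain ⟨F0, r0⟩ := (pm_st m W.ls).exists_rg
  have S := stab W.ls (⟨⟨opx (P.col χ), continuous_opx m.ct m.pr⟩, fun _ _ => rfl, fun γ y w => by
      induction w using OnePoint.rec with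
      | infty => rfl
      | coe w => exact m.eq γ y w, fun _ => rfl⟩ : EqM Y M Y T.ls id (.id _)) F
    (Rg.opx e) F0 fun y w u => by
      induction w using OnePoint.rec with
      | infty => exact F0.f_inf y
      | coe w =>
        induction u using OnePoint.rec with
        | infty => exact (F0.f_inf y).trans (congrArg (pt Y _ y) (wdg_r _).symm)
        | coe u => exact r0 y (w, u)
  refine ⟨_, (isoH Y (isy a)).cm (F0.cm (isoH Y b.ls)), rp_iso (stW_ok h W).rp_hm a b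
    (fun y z => hO y z.1 z.2) fun y z => hf y z.1 z.2,
    (Hm.Ht.rfl' _).cm ((ht_st h c W r0).sy.cm (Hm.Ht.rfl' _)),
    ⟨S.G, S.hq, S.hj, fun z => ?_⟩, trivial⟩
  change (isoH Y b.ls).f (F0.f ((isoH Y (isy a)).f ((isoH Y a).f ((smd Y M W.ls).c z)))) = _
  rw [isoH_l]
  exact congrArg (isoH Y b.ls).f (S.hc z)

theorem cl_st {χ : Γ →* Circle} {hχ : Continuous χ} {r : ℕ} {X V : Rep Γ} (W : Rep Γ)
    {P : PB X.ls V} {F} (h : Cl χ hχ r P F) : ∃ F' F1, Cl χ hχ r (P.st W) F' ∧ F1.Ht F' ∧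
      ∃ S : Stab (smI _ (swL X.ls (LS.triv Γ ℝ) W.ls))
        (smI _ (M := TT χ hχ r V) (W := W.ls) (swR V (UU χ hχ r) W).ls) F F1, True := by
  obtain ⟨P', k, b, l, rp⟩ := h
  have ok : (Tc χ hχ r P' k).Ok := PB.Th_ok b.2.1 l continuous_subtype_val (fun _ _ => rfl)
    fun y e => by
      have := y.2
      rw [Un1, show y.1 = 0 from e] at this
      simp at this
  obtain ⟨F', F1, a, t, S⟩ := rp_st ok rp W (swL X.ls (LS.triv Γ ℝ) W.ls) (swR V (UU χ hχ r) W)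
    (Q := Tc χ hχ r (P'.st W) fun x => k x.1) (fun _ _ _ => ⟨fun m => m.1, fun m => ⟨m, trivial⟩⟩)
    fun _ _ _ => rfl
  exact ⟨F', F1, ⟨_, _, bd_st W b, ⟨l.ct.comp continuousOn_fst fun _ m => m.1,
    fun g x m => l.eq g x.1 m.1, fun x m => l.nz x.1 ⟨m.1.1, congrArg Prod.fst m.2⟩⟩, a⟩, t, S⟩

/-- stabilisation of orientations -/
def ori {S S' N' W : LS Γ} {a b : KX Y.Q} (o : Ori Y S N a b) (α : (S.prod W).Iso S')
    (β : (N.prod W).Iso N') {y : KS Y W} {r : KX Y.Q} (hy : (Sb Y W).Rd y)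
    (py : ps _ y = (Sb Y W).sm r y) (h : ∀ (M : LS Γ) (l : KS Y M), (Sb Y M).Th l →
      (Sb Y (M.prod W)).Th (xm l y)) : Ori Y S' N' a b where
  lS := (smI Y α).mul o.lS y
  lT := (smI Y β).mul o.lT y
  rS := o.rS * r
  rT := o.rT * r
  tS := th_smI α o.tS.1 hy (h _ _ o.tS)
  tT := th_smI β o.tT.1 hy (h _ _ o.tT)
  pS := by
    rw [SmD.ps_mul, o.pS, py, SmD.sm_mul, SmD.mul_sm, Ex.sm, Ex.sm, Ex.sm, map_mul, mul_assoc]
  pT := by
    rw [SmD.ps_mul, o.pT, py, SmD.sm_mul, SmD.mul_sm, Ex.sm, Ex.sm, Ex.sm, map_mul, mul_assoc]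
  nm := by linear_combination r * o.nm

end Vs

open Vs in
/-- **stabilisation of the invariants** -/
theorem vstb (T : THOM1) : VSTB := by
  intro Γ _ _ _ _ χ X V W hq _ hW
  obtain ⟨y, ρ, u, py, -⟩ := hW.sp (cc χ) 7 T hq.inj
  have hy := u.1
  have h := fun (M : LS Γ) (l : KS _ M) => u.th_r (y := l)
  refine ⟨fun _ o => ⟨ori o (xrI (swL X.ls (LS.triv Γ ℝ) W.ls)) (swR V (UU χ _ 7) W).ls hy py h, ?_⟩,
    fun _ o => ⟨ori o (swL X.ls (LS.triv Γ ℝ) W.ls) (swR V (UU χ _ 7) W).ls hy py h, ?_⟩⟩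
  · rintro P φ ⟨e, N, a, ⟨F, c, E⟩, e1, e2⟩
    obtain ⟨F', F1, c', t, S, -⟩ := cl_st W c
    have k := ecl_mul S (sd _ _) (sd _ _) (smI _ (xrI (swL X.ls (LS.triv Γ ℝ) W.ls)))
      (sd ((Sp χ (cc χ) 7).prod W.ls.sph) X.ls.xr)
      (fun z t => by obtain ⟨⟨y, u⟩, w, rfl⟩ := pt_surj z; rfl)
      (fun z t => by
        obtain ⟨⟨y, u⟩, w, rfl⟩ := pt_surj z
        refine congrArg (pt _ _ y) (?_ : (xrI (swL X.ls (LS.triv Γ ℝ) W.ls)).e.onePointCongr
          (wdg (wdg (w, thI t), u)) =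
          wdg ((swL X.ls (LS.triv Γ ℝ) W.ls).e.onePointCongr (wdg (w, u)), thI t))
        induction w using OnePoint.rec with
        | infty => rfl
        | coe w => induction u using OnePoint.rec <;> induction thI t using OnePoint.rec <;> rfl)
      o.tT.1 hy py E
    refine ⟨e * ρ, N, a, ⟨F', c', eht _ _ _ _ _ _ t ?_⟩, ?_, e2⟩
    · rw [SmD.sm_mul, sm_sm] at k
      exact k
    · change _ * (o.rS * ρ) = _
      rw [← mul_assoc, e1, mul_assoc]
  · rintro P φ ⟨a, ⟨F, c, E⟩, e2⟩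
    obtain ⟨F', F1, c', t, S, -⟩ := cl_st W c
    refine ⟨a, ⟨F', c', ?_⟩, e2⟩
    exact (DFunLike.congr_fun t.pull_eq _).symm.trans
      ((pull_mul S o.tT.1 hy).trans (by rw [E, SmD.sm_mul]; rfl))

end Crest.Agent.N218.K

end
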