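import Crest.Agent.N218.K.Inv
import Crest.Agent.N218.K.Cx
import Crest.Agent.N218.K.Kln
import Crest.Agent.N218.K.Kill
import Crest.Agent.N218.K.Eun
import Crest.Agent.N218.K.Vstb
import Crest.Agent.N218.Th.Fin

/-! # Row 218, block D1 (helper34): the invariants, modulo additivity -/

namespace Crest.Agent.N218.K

theorem inve0 (hS : ESUM) : INVE :=
  inve kln (oex Th.thom) (kill Th.thom kln) (eun Th.thom) hS (vstb Th.thom) (vres' Th.thom) cxa

theorem invd0 (hS : DSUM) : INVD := invd kln (oex Th.thom) hS (vstb Th.thom) (vres' Th.thom)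

end Crest.Agent.N218.K
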