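import Crest.Agent.N218.K.St
import Crest.Agent.N218.K.Pd
import Crest.Agent.N218.K.Col

/-!
# Row 218, block D1 (helper79): problems without zeros
-/

set_option autoImplicit false
set_option linter.unusedVariables false

open Crest.Agent.R204.K357 Set

noncomputable section

namespace Crest.Agent.N218.K

/-- the section of the cone of the trivial map -/
def Cn.tsec {B : Type} [TopologicalSpace B] (A T : Ex B) : C(T.E, ℂ) →ₐ[ℂ] Cn (Hm.triv A T) :=
  ((ContinuousMap.compRightAlgHom ℂ ℂ (T.s.comp (A.p.comp ContinuousMap.fst))).prod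
    (AlgHom.id ℂ _)).codRestrict (Cn (Hm.triv A T)) fun a =>
      ⟨fun _ => rfl, fun _ => rfl, fun x _ => congrArg (fun y => a (T.s y)) (A.ps x)⟩

/-- the secondary class of the trivial map -/
theorem ecl_triv {B : Type} [TopologicalSpace B] {A T S : Ex B} (D : SD A S) {l : KX T.E}
    {ρ : KX B} (h : ps _ l = T.sm ρ l) : Ecl (Hm.triv A T) D l ρ 0 := by
  have e0 : KA (A := Cn (Hm.triv A T)) (Cn.res (Hm.triv A T)) (KA (B := Cn (Hm.triv A T)) (Cn.tsec A T) l) = l := by
    have k : ∀ a, Cn.res (Hm.triv A T) (Cn.tsec A T a) = a := fun a => by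
      ext z; rfl
    exact ka_ka_id (A := C(T.E, ℂ)) (B := Cn (Hm.triv A T)) _ _ k l
  refine ⟨map_zero (pull S.s), KA (B := Cn (Hm.triv A T)) (Cn.tsec A T) l, e0, ?_⟩
  have e' : KA (B := Cn (Hm.triv A T)) (Cn.tsec A T) (pull T.p ρ) =
      KA (B := Cn (Hm.triv A T)) (Cn.bas (Hm.triv A T)) ρ := by
    have k : ∀ a, Cn.tsec A T (ContinuousMap.compRightAlgHom ℂ ℂ T.p a) =
        Cn.bas (Hm.triv A T) a := fun a => by
      apply Subtype.ext
      apply Prod.ext
      · ext z; exact congrArg a (T.ps (A.p z.1))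
      · rfl
    exact ka_ka (A := C(B, ℂ)) (B := C(T.E, ℂ)) (C := Cn (Hm.triv A T)) _ _ _ k ρ
  have e : ps _ (KA (B := Cn (Hm.triv A T)) (Cn.tsec A T) l) = KA (B := Cn (Hm.triv A T)) (Cn.tsec A T) (ps _ l) := psi_ka 3 _ l
  rw [e, h, Ex.sm, map_mul, e', sub_self, map_zero]

theorem pull_triv {B : Type} [TopologicalSpace B] {A T : Ex B} {l : KX T.E} (h : T.Rd l) :
    pull (Hm.triv A T).f l = 0 := by
  refine (pull_comp A.p T.s l).trans ?_
  rw [show pull T.s l = 0 from h, map_zero]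

theorem emp : EMP := by
  intro Γ _ _ _ _ χ r X V P hP hZ l ρ hl hρ
  have z : ∀ x ∈ P.O, P.f x ≠ 0 := fun x o e => (hZ ▸ (⟨o, e⟩ : x ∈ P.Z) : x ∈ (∅ : Set X.Z))
  have c : Cl χ (cc χ) r P (Hm.triv _ _) := by
    refine ⟨P, 0, ⟨hP, hP, ⟨Prod.fst ⁻¹' P.O, fun x => P.f x.1⟩,
      ⟨hP.op.preimage continuous_fst, fun g x o => hP.inv g x.1 o,
        hP.ct.comp continuous_fst.continuousOn fun _ o => o, fun g x o => hP.eq g x.1 o, ?_,
        fun x o => absurd o.2 (z _ o.1)⟩, ⟨fun _ o => o, fun _ _ => rfl, fun _ o => o.1⟩,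
      ⟨fun _ o => o, fun _ _ => rfl, fun _ o => o.1⟩⟩,
      ⟨continuousOn_const, fun g x _ => (map_zero _).symm, fun x o => absurd o.2 (z _ o.1)⟩,
      0, ⟨continuous_const, fun _ => le_rfl, by simp, by simp,
        fun x o a => absurd (congrArg Prod.fst a) (z _ o), fun _ _ => rfl⟩,
      fun y w => congrArg (pt _ _ y) (if_pos rfl).symm⟩
    exact isCompact_empty.of_isClosed_subset (by
      convert isClosed_empty
      exact Set.eq_empty_of_forall_notMem fun x o => z _ o.1 o.2) fun x o => z _ o.1 o.2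
  exact ⟨⟨_, c, pull_triv hl⟩, _, c, ecl_triv _ hρ⟩

end Crest.Agent.N218.K

end
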