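import Crest.Agent.N218.K.St
import Crest.Agent.N218.K.Cy
import Crest.Agent.N218.D7.Orb

/-!
# Row 218, block D1 (helper63): naturality of the classifying map (VISO)
-/

set_option autoImplicit false
set_option linter.unusedVariables false
set_option linter.unusedSectionVars false

open unitInterval Topology Filter Set OnePoint

noncomputable section

namespace Crest.Agent.N218.K

variable {Γ Γ' : Type} [Group Γ] [TopologicalSpace Γ] [Group Γ'] [TopologicalSpace Γ']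

theorem Vi.prp_map {A B C D : Type} [TopologicalSpace A] [TopologicalSpace B] [TopologicalSpace C]
    [TopologicalSpace D] {f : A → B} {g : C → D} (a : IsProperMap f) (b : IsProperMap g) :
    IsProperMap (Prod.map f g) := a.prodMap b

/-- naturality data -/
structure Nt (X' : LS Γ') (X : LS Γ) (V' : Rep Γ') (V : Rep Γ) where
  φ : Γ' → Γ
  inj : ∀ g, φ g = 1 → g = 1
  j : X'.Z → X.Z
  pr : IsProperMap j
  ej : ∀ g x, j (X'.act g x) = X.act (φ g) (j x)
  B : V.W ≃L[ℝ] V'.W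
  eB : ∀ g v, B (V.ρ (φ g) v) = V'.ρ g (B v)

namespace Nt
variable {X' : LS Γ'} {X : LS Γ} {V' : Rep Γ'} {V : Rep Γ} (D : Nt X' X V' V)

/-- the transported problem -/
def pb (P : PB X V) : PB X' V' := ⟨D.j ⁻¹' P.O, fun x => D.B (P.f (D.j x))⟩

/-- cylinders -/
def cy : Nt X'.cy X.cy V' V :=
  ⟨D.φ, D.inj, Prod.map D.j id, Vi.prp_map D.pr isProperMap_id,
    fun g x => Prod.ext (D.ej g x.1) rfl, D.B, D.eB⟩

theorem z (P : PB X V) : (D.pb P).Z = D.j ⁻¹' P.Z :=
  Set.ext fun x => and_congr_right fun _ => map_eq_zero_iff _ D.B.injective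

theorem ok {P : PB X V} {S : Set X.Z} {S' : Set X'.Z} (h : P.Ok S) (s : D.j ⁻¹' S ⊆ S') :
    (D.pb P).Ok S' :=
  ⟨h.op.preimage D.pr.continuous, fun g x a => show D.j _ ∈ P.O from D.ej g x ▸ h.inv _ _ a,
    D.B.continuous.comp_continuousOn (h.ct.comp D.pr.continuous.continuousOn fun _ a => a),
    fun g x a => (congrArg D.B ((congrArg P.f (D.ej g x)).trans (h.eq _ _ a))).trans (D.eB _ _),
    D.z P ▸ D.pr.isCompact_preimage h.cp, D.z P ▸ (preimage_mono h.fr).trans s⟩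

theorem fr : D.j ⁻¹' X.fr ⊆ X'.fr := fun x a g e =>
  D.inj g (a _ ((D.ej g x).symm.trans (congrArg D.j e)))

theorem le {P Q : PB X V} (h : P.Le Q) : (D.pb P).Le (D.pb Q) :=
  ⟨preimage_mono h.sub, fun x a => congrArg D.B (h.eq _ a), D.z Q ▸ preimage_mono h.z⟩

theorem bd {P Q : PB X V} (h : P.Bd Q) : (D.pb P).Bd (D.pb Q) :=
  let ⟨a, b, H, c, d, e⟩ := h
  ⟨D.ok a D.fr, D.ok b D.fr, D.cy.pb H, D.cy.ok c fun _ i => D.fr i, D.le d, D.le e⟩

variable [CompactSpace Γ] [CompactSpace Γ'] {χ : Γ →* Circle} {hχ : Continuous χ}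
  {χ' : Γ' →* Circle} {hχ' : Continuous χ'} {r : ℕ}

theorem th_ok {P : PB X V} {S : Set X.Z} (h : P.Ok S) {k : X.Z → Fin r → ℂ}
    (l : P.Lift (UU χ hχ r) k) : (Tc χ hχ r P k).Ok :=
  PB.Th_ok h l continuous_subtype_val (fun _ _ => rfl) fun y e => by
    have := y.2
    rw [show y.1 = 0 from e] at this
    simp [Un1] at this

/-- **naturality of the classifying map** -/
theorem cl (e : ∀ g, χ' g = χ (D.φ g)) {P : PB X V} {F} (h : Cl χ hχ r P F)
    {a : C((Sb (Sp χ' hχ' r) X'.xr).E, (Sb (Sp χ hχ r) X.xr).E)}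
    (ha : Mp (Y' := Sp χ' hχ' r) (Y := Sp χ hχ r) (fun y => y) (.map (Prod.map D.j id)) a)
    {b : C((Sb (Sp χ' hχ' r) (TT χ' hχ' r V')).E, (Sb (Sp χ hχ r) (TT χ hχ r V)).E)}
    (hb : Mp (Y' := Sp χ' hχ' r) (Y := Sp χ hχ r) (fun y => y) (.map (Prod.map D.B.symm id)) b) :
    ∃ F', Cl χ' hχ' r (D.pb P) F' ∧ ∀ x, b (F'.f x) = F.f (a x) := by
  obtain ⟨Q, k, p, l, c, hc, q⟩ := h
  have l' : (D.pb Q).Lift (UU χ' hχ' r) fun x => k (D.j x) :=
    ⟨l.ct.comp D.pr.continuous.continuousOn fun _ a => a, fun g x a => by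
      rw [D.ej, l.eq _ _ a]
      exact funext fun i => congrArg (fun z : Circle => (z : ℂ) * k (D.j x) i) (e g).symm,
      fun x a => l.nz _ (show x ∈ D.j ⁻¹' Q.Z from D.z Q ▸ a)⟩
  let m : US r × X'.Z × ℝ → US r × X.Z × ℝ := Prod.map id (Prod.map D.j id)
  have pm : IsProperMap m := Vi.prp_map isProperMap_id (Vi.prp_map D.pr isProperMap_id)
  have s : tsupport (fun x => c (m x)) ⊆ m ⁻¹' tsupport c :=
    closure_minimal (fun x i => subset_tsupport c i) ((isClosed_tsupport c).preimage pm.continuous)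
  have c' : (Tc χ' hχ' r (D.pb Q) fun x => k (D.j x)).Cut fun x => c (m x) :=
    ⟨hc.ct.comp pm.continuous, fun x => hc.nn _,
      (pm.isCompact_preimage hc.cp).of_isClosed_subset (isClosed_tsupport _) s,
      fun x i => hc.sub (s i), fun x o z => hc.pos (m x) o (Prod.ext
        ((map_eq_zero_iff _ D.B.injective).1 (Prod.ext_iff.1 z).1) (Prod.ext_iff.1 z).2),
      fun g x => by
        refine Eq.trans (congrArg c ?_) (hc.inv (D.φ g) (m x))
        exact Prod.ext (Subtype.ext (funext fun i =>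
          congrArg (fun z : Circle => (z : ℂ) * x.1.1 i) (e g))) (Prod.ext (D.ej g x.2.1) rfl)⟩
  obtain ⟨F', u, v⟩ := c'.rp (th_ok (D.bd p).2.1 l')
  refine ⟨F', ⟨_, _, D.bd p, l', v⟩, sb_ind (fun y => ?_) fun y w => ?_⟩
  · exact (congrArg b (F'.f_inf y)).trans ((hb y _).trans
      ((F.f_inf y).symm.trans (congrArg F.f (ha y ∞)).symm))
  · refine (congrArg b (u y w)).trans ((hb y _).trans (Eq.trans ?_ (congrArg F.f (ha y w)).symm))
    refine Eq.trans (congrArg (pt (Sp χ hχ r) _ y) ?_) (q y (Prod.map D.j id w)).symm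
    by_cases z : c (m (y, w)) = 0
    · exact (congrArg (OnePoint.map _) (if_pos z)).trans (if_pos z).symm
    · refine (congrArg (OnePoint.map _) (if_neg z)).trans (Eq.trans ?_ (if_neg z).symm)
      refine congrArg OnePoint.some (Prod.ext ?_ rfl)
      exact (congrArg D.B.symm (D.B.map_smul _ _).symm).trans (D.B.symm_apply_apply _)

end Nt

variable [CompactSpace Γ] [CompactSpace Γ']

/-- proper equivariant maps induce maps of sphere bundles -/
theorem Vi.exists_mp (Y : GS Γ) {M M' : LS Γ} {h : M'.Z → M.Z} (p : IsProperMap h)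
    (e : ∀ g x, h (M'.act g x) = M.act g (h x)) :
    ∃ G : H1 (Sb Y M') (Sb Y M), Mp (fun y => y) (.map h) G.f := by
  obtain ⟨G, r⟩ := Pm.exists_rg (Y := Y) (M := M') (N := M) (g := fun z => (h z.2 : OnePoint M.Z))
    ⟨continuous_coe.comp (p.continuous.comp continuous_snd), fun K k =>
      ⟨_, p.isCompact_preimage k, fun _ w w' n q i => n (show h w ∈ K from coe_injective q ▸ i)⟩,
      fun g _ w => congrArg OnePoint.some (e g w)⟩
  refine ⟨G, fun y w => ?_⟩
  induction w using OnePoint.rec with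
  | infty => exact G.f_inf y
  | coe w => exact r y w

theorem Vi.mp_congr {Y' : GS Γ'} {M' : LS Γ'} {Y : GS Γ} {M : LS Γ} {a : Y'.Z → Y.Z}
    {b b' : OnePoint M'.Z → OnePoint M.Z} {G} (h : Mp a b G) (e : ∀ w, b w = b' w) : Mp a b' G :=
  fun y w => (h y w).trans (congrArg _ (e w))

theorem Vi.map_idd {A : Type} {f : A → A} (h : ∀ x, f x = x) (w : OnePoint A) : w = .map f w := by
  induction w using OnePoint.rec with
  | infty => rfl
  | coe w => exact congrArg OnePoint.some (h w).symm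

theorem Vi.exists_rs [Fintype Γ] [DiscreteTopology Γ] [Fintype Γ'] [DiscreteTopology Γ']
    (χ : Γ →* Circle) (φ : Γ' →* Γ) (r : ℕ) (M : LS Γ) (M' : LS Γ') (h : M'.Z ≃ₜ M.Z)
    (e : ∀ g x, h (M'.act g x) = M.act (φ g) (h x)) :
    ∃ G : RS χ φ r M M', G.Ok (.map h) := by
  obtain ⟨G, q⟩ := sb_map (Y' := Sp (χ.comp φ) (cc _) r) (Y := Sp χ (cc χ) r) (M' := M') (M := M)
    (.id _) (g := fun z => (h z.2 : OnePoint M.Z))
    (continuous_coe.comp (h.continuous.comp continuous_snd)) (fun K k =>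
      ⟨_, h.isClosedEmbedding.isCompact_preimage k, fun _ w w' n q i =>
        n (show h w ∈ K from coe_injective q ▸ i)⟩)
    fun g _ => ⟨φ g, rfl, fun w => congrArg OnePoint.some (e g w).symm⟩
  refine ⟨G.f, fun y w => ?_⟩
  induction w using OnePoint.rec with
  | infty => exact G.hs (GS.pr _ y)
  | coe w => exact q y w

/-- Thom classes along isomorphisms -/
theorem Vi.th_iso {B : Type} [TopologicalSpace B] {A A' : Ex B} (a : H1 A' A) (a' : H1 A A')
    (h : ∀ x, a.f (a'.f x) = x) (h' : ∀ x, a'.f (a.f x) = x) {l : KX A.E} (t : A.Th l) :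
    A'.Th (pull a.f l) := by
  refine ⟨Orb.pull_rd a t.1, fun x r => ?_⟩
  obtain ⟨c, e, u⟩ := t.2 _ (Orb.pull_rd a' r)
  refine ⟨c, ?_, fun d q => u d ?_⟩
  · have := congrArg (pull a.f) e
    rwa [pull_pull_id _ _ h', Orb.pull_sm a, pull_id] at this
  · have := congrArg (pull a'.f) q
    rwa [Orb.pull_sm a', pull_id, pull_pull_id _ _ h] at this

theorem Vi.exists_iso (Y : GS Γ) {M M' : LS Γ} (A : M'.Iso M) : ∃ G : H1 (Sb Y M') (Sb Y M),
    Mp (fun y => y) (.map A.e) G.f ∧ ∀ l, (Sb Y M).Th l → (Sb Y M').Th (pull G.f l) := by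
  obtain ⟨G, a⟩ := Vi.exists_mp Y A.e.isProperMap A.eq
  obtain ⟨G', b⟩ := Vi.exists_mp Y (M := M') (M' := M) A.e.symm.isProperMap fun g x =>
    A.e.injective (by rw [A.eq, A.e.apply_symm_apply, A.e.apply_symm_apply])
  refine ⟨G, a, fun l => Vi.th_iso G G' (fun x => ?_) fun x => ?_⟩ <;>
    obtain ⟨y, w, rfl⟩ := pt_surj x
  · rw [b, a]
    induction w using OnePoint.rec <;> simp
  · rw [a, b]
    induction w using OnePoint.rec <;> simp

/-- transport of orientations -/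
def Ori.tr {Y : GS Γ} {S T S' T' : LS Γ} {a b : KX Y.Q} (o : Ori Y S T a b)
    (c : H1 (Sb Y S') (Sb Y S)) (d : H1 (Sb Y T') (Sb Y T))
    (hc : (Sb Y S').Th (pull c.f o.lS)) (hd : (Sb Y T').Th (pull d.f o.lT)) : Ori Y S' T' a b :=
  ⟨pull c.f o.lS, pull d.f o.lT, o.rS, o.rT, hc, hd,
    by rw [ps_pull, o.pS, Orb.pull_sm c, pull_id], by rw [ps_pull, o.pT, Orb.pull_sm d, pull_id],
    o.nm⟩

/-- one more coordinate -/
def LS.Iso.xr' {X X' : LS Γ} (A : X'.Iso X) : X'.xr.Iso X.xr :=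
  ⟨A.e.prodCongr (.refl _), fun g x => Prod.ext (A.eq g x.1) rfl⟩

theorem Vi.map_wdg {A B C : Type} (f : A → B) (w : OnePoint A) (t : OnePoint C) :
    OnePoint.map (Prod.map f id) (wdg (w, t)) = wdg (w.map f, t) := by
  induction w using OnePoint.rec with
  | infty => rfl
  | coe w => induction t using OnePoint.rec <;> rfl

theorem viso : VISO := by
  intro Γ _ _ _ _ χ X X' V V' A B
  obtain ⟨a, ha, ta⟩ := Vi.exists_iso (Sp χ (cc χ) 7) A.xr'
  obtain ⟨c, hc, tc⟩ := Vi.exists_iso (Sp χ (cc χ) 7) A.xr'.xr'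
  obtain ⟨b, hb, tb⟩ := Vi.exists_iso (Sp χ (cc χ) 7) (M := TT χ (cc χ) 7 V) (M' := TT χ (cc χ) 7 V')
    ⟨B.e.symm.toHomeomorph.prodCongr (.refl _), fun g x => Prod.ext (B.e.injective
      ((B.e.apply_symm_apply _).trans ((congrArg _ (B.e.apply_symm_apply _).symm).trans
        (B.eq g _).symm))) rfl⟩
  let D : Nt X' X V' V := ⟨id, fun _ h => h, A.e, A.e.isProperMap, A.eq, B.e, B.eq⟩
  refine ⟨fun o => ⟨o.tr c b (tc _ o.tS) (tb _ o.tT), fun P φ ⟨e, N, p, ⟨F, q, s⟩, t⟩ => ?_⟩,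
    fun o => ⟨o.tr a b (ta _ o.tS) (tb _ o.tT), fun P φ ⟨p, ⟨F, q, s⟩, t⟩ => ?_⟩⟩ <;>
    obtain ⟨F', q', s'⟩ := D.cl (fun _ => rfl) q ha hb
  · have := Orb.ecl_pull a b c s' (D' := sd _ _) (fun z t => by
      obtain ⟨y, w, rfl⟩ := pt_surj z
      exact (hc y _).trans ((congrArg (pt _ _ y) (Vi.map_wdg A.xr'.e w (thI t))).trans
        (congrArg (fun e => (sd _ _).c (e, t)) (ha y w)).symm)) s
    rw [Orb.pull_sm c, pull_id, pull_id] at this
    exact ⟨e, N, p, ⟨F', q', this⟩, t⟩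
  · refine ⟨p, ⟨F', q', ?_⟩, t⟩
    have := congrArg (pull a.f) s
    rw [Orb.pull_sm a, pull_id, ← pull_comp] at this
    exact (pull_pull _ _ _ s' _).trans this

end Crest.Agent.N218.K

end
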