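import Crest.Agent.N218.K.Ai
import Crest.Agent.N218.K.Cx0
import Crest.Agent.N218.K.Unit
import Crest.Agent.N218.K.Eht
import Crest.Agent.N218.K.Viso
import Crest.Agent.N218.K.Vres
import Crest.Agent.N218.K.Cx2
import Crest.Agent.N218.K.Emp
import Crest.Agent.N218.Al.Kr

/-!
# Row 218, block D1 (helper34): the invariants from the leaves
-/

set_option autoImplicit false
set_option linter.unusedVariables false
set_option linter.unusedSectionVars false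

open Topology Filter Set Module Polynomial

noncomputable section

namespace Crest.Agent.N218.K
open Al

namespace Iv

section alg
variable {A : Type} [CommRing A] {l : A} {q k : ℕ}

theorem ae [Algebra ℤ A] (l : A) (p : ℤ[X]) : p.eval₂ (Int.castRingHom A) l = aeval l p := by
  rw [aeval_def, Subsingleton.elim (algebraMap ℤ A) (Int.castRingHom A)]

theorem lf_aeval (l : A) (p : ℤ[X]) : Lf l (aeval l p) (iS p) := ⟨p, ae l p, ae L p⟩

theorem o3 (N : ℕ) : ((3 : ℚ) ^ N)⁻¹ ∈ O2 := by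
  have := inv_mem (n := 3 ^ N) (Odd.pow (by decide))
  simpa using this

theorem od_of (h : Pz (Int.castRingHom A) l 7 q) {ρ c : A} {N : ℕ} (e : ρ * c = 3 ^ N) :
    Od l ρ := by
  obtain ⟨σ, a⟩ := h.lf ρ
  obtain ⟨γ, b⟩ := h.lf c
  obtain ⟨x, -, y, -, f⟩ := (a.mul b).uniq h (e ▸ (lf_3 l).pow N)
  have f' := congrArg PowerSeries.constantCoeff f
  simp only [map_mul, map_add, map_pow, map_sub, map_one, cc_t, cc_L, map_ofNat] at f'
  obtain ⟨m, hm, g⟩ := odd_of_mul (cc_mem a.mem) (O2.mul_mem (cc_mem b.mem) (o3 N)) (by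
    rw [← mul_assoc, f']; simp)
  exact ⟨σ, a, uo_of a.mem hm g⟩

theorem phi_val (h : Pz (Int.castRingHom A) l 7 q) (hq : 256 ∣ q) {ρ e : A} (o : Od l ρ)
    {a : ℤ[X]} {N : ℕ} (k : aeval l a * ρ = 3 ^ N * e) :
    Phi h ρ e = ((ph (iS a) / 3 ^ N : ℚ) : Q2) := by
  obtain ⟨σ, kσ, -⟩ := id o
  obtain ⟨ε, kε⟩ := h.lf e
  have n := ((lf_aeval l a).mul kσ).ng h (k ▸ ((lf_3 l).pow N).mul kε)
  have c : (PowerSeries.C ((3 : ℚ) ^ N)⁻¹ : S) * 3 ^ N = 1 := by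
    rw [show (3 : S) = PowerSeries.C 3 from (map_ofNat _ 3).symm, ← map_pow, ← map_mul]; simp
  rw [Phi_eq h hq o kσ kε (z := PowerSeries.C ((3 : ℚ) ^ N)⁻¹ * iS a)
    (OS.mul_mem (C_mem (o3 N)) (Ut.iS_mem a)) (by
      convert n.mul (OS.neg_mem (C_mem (o3 N))) using 1
      linear_combination -ε * c), ph_C, div_eq_inv_mul]

theorem tf3 (h : Pz (Int.castRingHom A) l 7 (2 ^ k)) (h7 : (1 - l) ^ 7 = 0) (hq : l ^ 2 ^ k = 1)
    {x : A} {M : ℕ} (e : 3 ^ M * x = 0) : x = 0 := by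
  obtain ⟨p, rfl⟩ := h.1 x
  obtain ⟨a, b, f⟩ := h.2 (3 ^ M * p) (by rw [eval₂_mul, eval₂_pow, eval₂_ofNat]; exact e)
  have f1 := congrArg (eval 1) f
  simp at f1
  obtain ⟨p', rfl⟩ := (dvd_iff_isRoot (p := p) (a := 1)).2 f1
  have g : (∑ i ∈ Finset.range (2 ^ k), l ^ i) * (l - 1) = 0 := by rw [geom_sum_mul, hq, sub_self]
  obtain ⟨d, hd⟩ : (l - 1) ∣ (∑ i ∈ Finset.range (2 ^ k), l ^ i) - (2 ^ k : ℕ) := by
    rw [show ((2 ^ k : ℕ) : A) = ∑ i ∈ Finset.range (2 ^ k), (1 : A) by simp,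
      ← Finset.sum_sub_distrib]
    exact Finset.dvd_sum fun i _ => by simpa using sub_dvd_pow_sub_pow l 1 i
  have g1 : ((2 ^ k : ℕ) : A) * (l - 1) = (l - 1) * (-d) * (l - 1) := by
    linear_combination g - (l - 1) * hd
  have g2 : ∀ n, ((2 ^ k : ℕ) : A) ^ n * (l - 1) = ((l - 1) * (-d)) ^ n * (l - 1) := fun n => by
    induction n with
    | zero => simp
    | succ n ih => linear_combination ((2 ^ k : ℕ) : A) * ih + ((l - 1) * (-d)) ^ n * g1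
  have g3 : (2 : A) ^ (k * 6) * (l - 1) = 0 := by
    have := g2 6
    push_cast at this
    linear_combination this - d ^ 6 * h7
  obtain ⟨u, v, uv⟩ : IsCoprime ((3 : A) ^ M) (2 ^ (k * 6)) :=
    IsCoprime.pow ⟨1, -1, by norm_num⟩
  simp only [eval₂_mul, eval₂_sub, eval₂_X, map_one, eval₂_one] at e ⊢
  linear_combination u * e + v * eval₂ (Int.castRingHom A) l p' * g3 -
    (l - 1) * eval₂ (Int.castRingHom A) l p' * uv
end alg

variable {Γ : Type} [Group Γ] [Fintype Γ] [TopologicalSpace Γ] [DiscreteTopology Γ]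
  {χ : Γ →* Circle}

theorem q256 (g : Gq χ) : 256 ∣ Fintype.card Γ := by
  obtain ⟨k, a, b⟩ := g.card
  rw [b]; exact pow_dvd_pow 2 (show 8 ≤ k by omega)

theorem pz (n : KLN) (g : Function.Injective χ) {r : ℕ} (hr : 0 < r) :
    Pz (Int.castRingHom _) (LL χ (cc χ) r) r (Fintype.card Γ) := by
  obtain ⟨a, b, -⟩ := n χ r g hr
  refine ⟨fun y => let ⟨p, e⟩ := a y; ⟨p, (ae _ p).trans e⟩, fun p e => ?_⟩
  obtain ⟨x, y, f⟩ := Ideal.mem_span_pair.1 ((b p).1 ((ae _ p).symm.trans e))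
  exact ⟨x, -y, by rw [← f]; ring⟩

theorem ps_LL (n : KLN) (g : Function.Injective χ) {r : ℕ} (hr : 0 < r) :
    K.ps _ (LL χ (cc χ) r) = LL χ (cc χ) r ^ 3 := by
  simpa [ev] using (n χ r g hr).2.2 X

theorem rU_eq (r : ℕ) : rU χ (cc χ) r = (1 + LL χ (cc χ) r + LL χ (cc χ) r ^ 2) ^ r := by
  simp [rU, ev]

theorem tf (n : KLN) (g : Gq χ) {x : KX (Sp χ (cc χ) 7).Q} {M : ℕ} (e : 3 ^ M * x = 0) : x = 0 := by
  obtain ⟨k, -, b⟩ := g.card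
  obtain ⟨-, c, -⟩ := n χ 7 g.inj (by norm_num)
  refine tf3 (b ▸ pz n g.inj (by norm_num)) ?_ ?_ e
  · simpa [ev] using (c _).2 (Ideal.subset_span (.inl rfl))
  · simpa [ev, sub_eq_zero, b] using (c _).2 (Ideal.subset_span (.inr rfl))

/-- invariant units act by signs -/
theorem sgn (n : KLN) (g : Gq χ) {w w' : KX (Sp χ (cc χ) 7).Q} (e : w * w' = 1)
    (e' : K.ps _ w = w) : ∃ s : ℤˣ, ∀ ρ, Od (LL χ (cc χ) 7) ρ → ∀ x,
      Phi (pz n g.inj (by norm_num)) ρ (w * x) = s • Phi (pz n g.inj (by norm_num)) ρ x := by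
  obtain ⟨k, a, b⟩ := g.card
  obtain ⟨c1, c2, c3⟩ := n χ 7 g.inj (by norm_num)
  obtain ⟨p, rfl⟩ := c1 w
  obtain ⟨p', rfl⟩ := c1 w'
  obtain ⟨s, f⟩ := unit k a p p' (b ▸ (c2 _).1 (by rw [map_sub, map_mul, e, map_one, sub_self]))
    (b ▸ (c2 _).1 (by rw [map_sub, ← c3, e', sub_self]))
  refine ⟨s, fun ρ o x => ?_⟩
  obtain ⟨σ, ε, z, hz, i, j, rfl, y⟩ := Phi_ex (pz n g.inj (by norm_num)) (q256 g) o x
  refine (Phi_eq _ (q256 g) o i ((lf_aeval _ p).mul j) (OS.mul_mem (Ut.iS_mem p) hz)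
    ⟨0, 0, OS.zero_mem, by ring⟩).trans ?_
  rw [y, Units.smul_def, ← QuotientAddGroup.mk_zsmul, q2_eq]
  simpa using f z hz

/-- comparison of two orientations -/
theorem ori {Y : GS Γ} {S T : LS Γ} {a b : KX Y.Q} (o o' : Ori Y S T a b) :
    ∃ u u' v v', u * u' = 1 ∧ v * v' = 1 ∧ o'.lT = (Sb Y T).sm u o.lT ∧
      o.lS = (Sb Y S).sm v' o'.lS ∧ o'.rT * u = K.ps _ u * o.rT ∧ o'.rS * v = K.ps _ v * o.rS ∧
      o.rS * a * (K.ps _ (u * v') - u * v') = 0 := by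
  obtain ⟨u, u', e, f, -⟩ := o.tT.unit o'.tT
  obtain ⟨v, v', e', f', g'⟩ := o.tS.unit o'.tS
  have h := o.tT.eig o.pT (f ▸ o'.pT)
  have h' := o.tS.eig o.pS (f' ▸ o'.pS)
  have k : K.ps _ v * K.ps _ v' = 1 := by rw [← map_mul, e', map_one]
  refine ⟨u, u', v, v', e, e', f, g', h, h', ?_⟩
  have n := o.nm
  have n' := o'.nm
  rw [map_mul]
  linear_combination (K.ps _ u * K.ps _ v') * n - b * K.ps _ v' * h - u * K.ps _ v' * n' +
    a * u * v' * K.ps _ v' * h' + o.rS * a * u * v' * k - a * o'.rS * u * K.ps _ v' * e'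

theorem inv_unit (n : KLN) (g : Gq χ) {ρ c x : KX (Sp χ (cc χ) 7).Q} {N : ℕ} (e : ρ * c = 3 ^ N)
    (h : ρ * rU χ (cc χ) 7 * x = 0) : x = 0 := by
  obtain ⟨-, c2, -⟩ := n χ 7 g.inj (by norm_num)
  have t : (1 - LL χ (cc χ) 7) ^ 7 = 0 := by
    simpa [ev] using (c2 _).2 (Ideal.subset_span (.inl rfl))
  generalize hl : LL χ (cc χ) 7 = l at t
  obtain ⟨d, hd⟩ := sub_dvd_pow_sub_pow (3 : KX (Sp χ (cc χ) 7).Q) ((1 - l) * (2 + l)) 7
  rw [mul_pow, t, zero_mul, sub_zero, show 3 - (1 - l) * (2 + l) = 1 + l + l ^ 2 by ring] at hd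
  rw [rU_eq, hl] at h
  refine tf n g (M := N + 7 * 7) ?_
  rw [pow_add, pow_mul, hd, ← e]
  linear_combination c * d ^ 7 * h

theorem dim {m : ℕ} {X V : Rep Γ} (a : Adm m X V) (hm : m ≤ 12) :
    finrank ℝ X.W + 1 < finrank ℝ V.W + 2 * 7 := by rw [Ai.adm_rank a]; omega

theorem cl {X V : Rep Γ} {r : ℕ} (h : finrank ℝ X.W < finrank ℝ V.W + 2 * r) {P : PB X.ls V}
    (p : P.Fr) : ∃ F, Cl χ (cc χ) r P F :=
  let ⟨_, _, H, a, _, _, b, c, d, e⟩ := cle χ r X V h P p; ⟨_, cl_hm ⟨p, a, H, b, c, d⟩ e⟩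

theorem eg_on (hH : EHT) {X V : Rep Γ} (a : Adm 12 X V) {P : PB X.ls V} {F l ρ x}
    (c : Cl χ (cc χ) 7 P F) (h : Eg χ (cc χ) 7 P l ρ x) : Ecl F (sd _ _) l ρ x :=
  let ⟨F', c', e⟩ := h; hH F' F _ l ρ x (clu χ 7 X V (dim a le_rfl) P F' F c' c) e

theorem kil (hK : KILL) (g : Gq χ) {X V : Rep Γ} (a : Adm 12 X V) (c : Cx V.ls)
    (o : OE χ (cc χ) X.ls V) (F : H1 (Sb _ X.ls.xr) (Sb _ (TT χ (cc χ) 7 V))) :
    pull F.f o.lT = 0 :=
  hK χ X V g a c o _ (o.tT.1.hm F) (by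
    have := F.eig o.pT
    rwa [pull_id] at this)

section ev
variable (n : KLN) (hO : OEX) (g : Gq χ) {X V : Rep Γ} (a : Adm 12 X V) (c : Cx V.ls)
include n hO g a c

theorem ev_iff (o : OE χ (cc χ) X.ls V) (P : PB X.ls V) (φ : QQ) : EV χ (cc χ) o P φ ↔
    ∃ e, Eg χ (cc χ) 7 P o.lT o.rT ((Sb _ _).sm e o.lS) ∧
      φ = Phi (pz n g.inj (by norm_num)) o.rS e := by
  obtain ⟨N, d, k⟩ := ((hO χ X V g c).1 a).2 o
  have od := od_of (pz n g.inj (by norm_num)) k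
  refine ⟨fun ⟨e, N, p, h1, h2, h3⟩ => ⟨e, h1, h3.trans (phi_val _ (q256 g) od h2).symm⟩,
    fun ⟨e, h1, h2⟩ => ?_⟩
  obtain ⟨p, hp⟩ := (n χ 7 g.inj (by norm_num)).1 (d * e)
  have : ev χ (cc χ) 7 p * o.rS = 3 ^ N * e := by rw [hp, ← k]; ring
  exact ⟨e, N, p, h1, this, h2.trans (phi_val _ (q256 g) od this)⟩

/-- change of orientation -/
theorem ev_ch (hH : EHT) (hK : KILL) (hU : EUN) (cT : Cx (TT χ (cc χ) 7 V))
    (o o' : OE χ (cc χ) X.ls V) {u v v' : KX (Sp χ (cc χ) 7).Q} (e2 : v * v' = 1)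
    (e3 : o'.lT = (Sb _ _).sm u o.lT) (e4 : o.lS = (Sb _ _).sm v' o'.lS)
    (e5 : o'.rT * u = K.ps _ u * o.rT) (e6 : o'.rS * v = K.ps _ v * o.rS)
    (e7 : K.ps _ (u * v') = u * v') {P : PB X.ls V} {e e' : KX (Sp χ (cc χ) 7).Q}
    (h : Eg χ (cc χ) 7 P o.lT o.rT ((Sb _ _).sm e o.lS))
    (h' : Eg χ (cc χ) 7 P o'.lT o'.rT ((Sb _ _).sm e' o'.lS)) :
    Phi (pz n g.inj (by norm_num)) o'.rS e' =
      Phi (pz n g.inj (by norm_num)) o.rS (u * v' * e) := by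
  obtain ⟨N, d, k⟩ := ((hO χ X V g c).1 a).2 o
  obtain ⟨N', d', k'⟩ := ((hO χ X V g c).1 a).2 o'
  have z := pz n g.inj (show 0 < 7 by norm_num)
  have od := od_of z k
  have od' := od_of z k'
  obtain ⟨F, cF, h⟩ := h
  have h1 := Pup.ecl_sm _ _ u e5.symm h
  rw [← e3] at h1
  obtain ⟨y, ry, ey⟩ := hU χ 7 _ _ g.inj cT F _ _ _ _ o'.tT (kil hK g a c o' F) h1
    (eg_on hH a cF h')
  obtain ⟨b, rfl⟩ := o'.tS.ex ry
  rw [e4, Ex.ps_sm, o'.pS] at ey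
  simp only [Ex.sm_sm, ← Ex.sub_sm] at ey
  have ey := o'.tS.inj ey
  have i := Phi_ind z (q256 g) od' (K.ps _) (ps_LL n g.inj (by norm_num)) b
  have nm : o'.rS * (1 + LL χ (cc χ) 7 + LL χ (cc χ) 7 ^ 2) ^ 7 = 3 ^ 7 * o'.rT :=
    (congrArg _ (rU_eq 7)).symm.trans o'.nm
  have j : Phi z o'.rS (K.ps _ b * o'.rS - o'.rT * b) = 0 := by
    have j1 : 3 ^ 7 • Phi z o'.rS (K.ps _ b * o'.rS - o'.rT * b) = 0 := by
      refine (map_nsmul _ _ _).symm.trans (Eq.trans (congrArg (Phi z o'.rS) ?_) i)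
      rw [nsmul_eq_mul, Nat.cast_pow, Nat.cast_ofNat]
      linear_combination b * nm
    have j2 := Phi_32 z (q256 g) od' (K.ps _ b * o'.rS - o'.rT * b)
    generalize Phi z o'.rS (K.ps _ b * o'.rS - o'.rT * b) = w at j1 j2
    have j3 : (3 * 3 ^ 7) • w = (205 * 32 + 1) • w := rfl
    rw [mul_smul, j1, add_smul, mul_smul, j2] at j3
    simpa using j3.symm
  have ov : Od (LL χ (cc χ) 7) v := od_of z (N := 0) (by simpa using e2)
  have ov' : Od (LL χ (cc χ) 7) (K.ps _ v) :=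
    od_of z (c := K.ps _ v') (N := 0) (by rw [← map_mul, e2, map_one, pow_zero])
  have k1 : K.ps _ v * K.ps _ v' = 1 := by rw [← map_mul, e2, map_one]
  rw [map_mul] at e7
  rw [← Phi_mul z (q256 g) od ov', ← e6, mul_comm o'.rS v, ← sub_eq_zero.1 ((map_sub _ _ _).symm.trans
    ((congrArg _ ey).trans j)), ← Phi_mul z (q256 g) od' ov]
  congr 1
  linear_combination (K.ps _ u * e) * e2 - K.ps _ u * e * k1 + K.ps _ v * e * e7
end ev

theorem den (a : ℤ[X]) (N : ℕ) : 32 • ((ph (iS a) / 3 ^ N : ℚ) : QQ) = 0 := by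
  rw [← QuotientAddGroup.mk_nsmul]
  refine (QuotientAddGroup.eq_zero_iff _).2 ?_
  have := O2.mul_mem (ph_den (Ut.iS_mem a)) (o3 N)
  simpa [div_eq_mul_inv, mul_assoc] using this

theorem dv_iff (n : KLN) (g : Gq χ) {X V : Rep Γ} (o : OD χ (cc χ) X.ls V) (P : PB X.ls V)
    (φ : QQ) : DV χ (cc χ) o P φ ↔ ∃ d, Dg χ (cc χ) 7 P o.lT ((Sb _ _).sm d o.lS) ∧
      φ = Phi (pz n g.inj (by norm_num)) 1 (rU χ (cc χ) 7 * d) := by
  have k : ∀ p : ℤ[X], Phi (pz n g.inj (show 0 < 7 by norm_num)) 1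
      (rU χ (cc χ) 7 * ev χ (cc χ) 7 p) = ((ph (r ^ 7 * iS p) : ℚ) : QQ) := fun p => by
    refine Eq.trans ?_ (Phi_rho (pz n g.inj (show 0 < 7 by norm_num)) (q256 g) (od_one _)
      (((lf_r _).pow 7).mul (lf_aeval _ p)))
    rw [one_mul, rU_eq]
    rfl
  refine ⟨fun ⟨p, h1, h2⟩ => ⟨_, h1, h2.trans (k p).symm⟩, fun ⟨d, h1, h2⟩ => ?_⟩
  obtain ⟨p, rfl⟩ := (n χ 7 g.inj (by norm_num)).1 d
  exact ⟨p, h1, h2.trans (k p)⟩

theorem dg_un {X V : Rep Γ} {r : ℕ} (h : finrank ℝ X.W + 1 < finrank ℝ V.W + 2 * r)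
    {P : PB X.ls V} {l y y' u} (a : Dg χ (cc χ) r P l y)
    (a' : Dg χ (cc χ) r P ((Sb _ _).sm u l) y') : y' = (Sb _ _).sm u y := by
  obtain ⟨F, c, rfl⟩ := a
  obtain ⟨F', c', rfl⟩ := a'
  rw [(clu χ r X V h P F' F c' c).pull_eq, F.pull_sm, pull_id]

end Iv

open Iv

/-- the value system of `e` -/
def vsE (n : KLN) (hO : OEX) (hK : KILL) (hU : EUN) (hS : ESUM) (hB : VSTB) (hR : VRES)
    (hC : CXA) : VS 12 where
  O χ X V := OE χ (cc χ) X.ls V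
  R χ X V o P a := EV χ (cc χ) o P a
  oex χ X V g a c := ((hO χ X V g c).1 a).1
  fr χ X V o P a := fun ⟨_, _, _, ⟨_, h, _⟩, _⟩ => h.fr
  ex χ X V g a c o P p := by
    obtain ⟨F, f⟩ := cl (χ := χ) (Nat.lt_of_succ_lt (dim a le_rfl)) p
    obtain ⟨x, h⟩ := eex F (sd _ _) _ _ o.tT.1 (kil hK g a c o F) o.pT
    obtain ⟨e, rfl⟩ := o.tS.ex h.1
    exact ⟨_, (ev_iff n hO g a c o P _).2 ⟨e, ⟨F, f, h⟩, rfl⟩⟩
  un χ X V g a c o P b b' i i' := by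
    obtain ⟨e, h, rfl⟩ := (ev_iff n hO g a c o P _).1 i
    obtain ⟨e', h', rfl⟩ := (ev_iff n hO g a c o P _).1 i'
    rw [ev_ch n hO g a c eht hK hU (hC χ X V c).2.2 o o (u := 1) (v := 1) (v' := 1) (mul_one 1)
      (Ex.one_sm _ _).symm (Ex.one_sm _ _).symm (by simp) (by simp) (by simp) h h']
    simp
  ch χ X V g a c o o' := by
    obtain ⟨u, u', v, v', e1, e2, e3, e4, e5, e6, e7⟩ := ori o o'
    obtain ⟨N, d, k⟩ := ((hO χ X V g c).1 a).2 o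
    have e7 := sub_eq_zero.1 (inv_unit n g k e7)
    obtain ⟨s, f⟩ := sgn n g (w' := u' * v) (by linear_combination v * v' * e1 + e2) e7
    refine ⟨s, fun P b b' i i' => ?_⟩
    obtain ⟨e, h, rfl⟩ := (ev_iff n hO g a c o P _).1 i
    obtain ⟨e', h', rfl⟩ := (ev_iff n hO g a c o' P _).1 i'
    exact (ev_ch n hO g a c eht hK hU (hC χ X V c).2.2 o o' e2 e3 e4 e5 e6 e7 h h').trans
      (f _ (od_of (pz n g.inj (by norm_num)) k) e)
  bd χ X V o P Q a b := fun ⟨e, N, p, h, k⟩ => ⟨e, N, p, h.bd b, k⟩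
  emp χ X V o P p z := ⟨0, 0, 0, by
    rw [Ex.zero_sm]; exact (emp χ 7 _ V P p z _ _ o.tT.1 o.pT).2, by simp, by simp⟩
  sum χ X V g a c o P U U' p u u' d z := by
    obtain ⟨x, x', h, h', h''⟩ := hS χ 7 X V (Nat.lt_of_succ_lt (dim a le_rfl)) P U U' p u u' d z
      _ _ o.tT.1 o.pT (kil hK g a c o)
    obtain ⟨e, rfl⟩ := o.tS.ex h.choose_spec.2.1
    obtain ⟨e', rfl⟩ := o.tS.ex h'.choose_spec.2.1
    rw [← Ex.add_sm] at h''
    exact ⟨_, _, (ev_iff n hO g a c o _ _).2 ⟨e, h, rfl⟩, (ev_iff n hO g a c o _ _).2 ⟨e', h', rfl⟩,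
      (ev_iff n hO g a c o _ _).2 ⟨_, h'', (map_add _ _ _).symm⟩⟩
  iso χ X V X' V' A B := (viso χ _ _ V V' A B).1
  stb χ X V W g a c w := (hB χ X V W g c w).1 a
  res χ _ _ _ _ _ φ X V g g' a c := (hR χ φ X V g.inj (Function.Injective.of_comp
    (f := χ) g'.inj) c).1 a
  den χ X V o P a := fun ⟨_, N, p, _, _, h⟩ => h ▸ den p N

/-- the value system of `d` -/
def vsD (n : KLN) (hO : OEX) (hS : DSUM) (hB : VSTB) (hR : VRES) : VS 5 where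
  O χ X V := OD χ (cc χ) X.ls V
  R χ X V o P a := DV χ (cc χ) o P a
  oex χ X V g a c := ((hO χ X V g c).2 a).1
  fr χ X V o P a := fun ⟨_, ⟨_, h, _⟩, _⟩ => h.fr
  ex χ X V g a c o P p := by
    obtain ⟨F, f⟩ := cl (χ := χ) (Nat.lt_of_succ_lt (dim a (by norm_num))) p
    obtain ⟨e, h⟩ := o.tS.ex (o.tT.1.hm F)
    exact ⟨_, (dv_iff n g o P _).2 ⟨e, ⟨F, f, h⟩, rfl⟩⟩
  un χ X V g a c o P b b' i i' := by
    obtain ⟨e, h, rfl⟩ := (dv_iff n g o P _).1 i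
    obtain ⟨e', h', rfl⟩ := (dv_iff n g o P _).1 i'
    rw [← Ex.one_sm _ o.lT] at h'
    have := dg_un (dim a (by norm_num)) h h'
    rw [Ex.one_sm] at this
    rw [o.tS.inj this]
  ch χ X V g a c o o' := by
    obtain ⟨u, u', v, v', e1, e2, e3, e4, e5, e6, e7⟩ := ori o o'
    obtain ⟨N, d, k⟩ := ((hO χ X V g c).2 a).2 o
    have e7 := sub_eq_zero.1 (inv_unit n g k e7)
    obtain ⟨s, f⟩ := sgn n g (w' := u' * v) (by linear_combination v * v' * e1 + e2) e7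
    refine ⟨s, fun P b b' i i' => ?_⟩
    obtain ⟨e, h, rfl⟩ := (dv_iff n g o P _).1 i
    obtain ⟨e', h', rfl⟩ := (dv_iff n g o' P _).1 i'
    rw [e3] at h'
    have := dg_un (dim a (by norm_num)) h h'
    rw [e4, Ex.sm_sm, Ex.sm_sm] at this
    rw [o'.tS.inj this, ← f _ (od_one _)]
    congr 1; ring
  bd χ X V o P Q a b := fun ⟨p, h, k⟩ => ⟨p, h.bd b, k⟩
  emp χ X V o P p z := ⟨0, by
    rw [map_zero, Ex.zero_sm]; exact (emp χ 7 _ V P p z _ _ o.tT.1 o.pT).1, by simp⟩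
  sum χ X V g a c o P U U' p u u' d z := by
    obtain ⟨x, x', h, h', h''⟩ := hS χ 7 X V (Nat.lt_of_succ_lt (dim a (by norm_num))) P U U' p u u'
      d z _ o.tT.1
    obtain ⟨e, rfl⟩ := o.tS.ex (h.choose_spec.2 ▸ o.tT.1.hm h.choose)
    obtain ⟨e', rfl⟩ := o.tS.ex (h'.choose_spec.2 ▸ o.tT.1.hm h'.choose)
    rw [← Ex.add_sm] at h''
    exact ⟨_, _, (dv_iff n g o _ _).2 ⟨e, h, rfl⟩, (dv_iff n g o _ _).2 ⟨e', h', rfl⟩,
      (dv_iff n g o _ _).2 ⟨_, h'', by rw [mul_add, map_add]⟩⟩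
  iso χ X V X' V' A B := (viso χ _ _ V V' A B).2
  stb χ X V W g a c w := (hB χ X V W g c w).2 a
  res χ _ _ _ _ _ φ X V g g' a c := (hR χ φ X V g.inj (Function.Injective.of_comp
    (f := χ) g'.inj) c).2 a
  den χ X V o P a := fun ⟨p, _, h⟩ => by
    rw [h, ← QuotientAddGroup.mk_nsmul]
    refine (QuotientAddGroup.eq_zero_iff _).2 ?_
    simpa using ph_den (OS.mul_mem (OS.pow_mem r_mem 7) (Ut.iS_mem p))

theorem inve (n : KLN) (hO : OEX) (hK : KILL) (hU : EUN) (hS : ESUM) (hB : VSTB) (hR : VRES)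
    (hC : CXA) : INVE := (vsE n hO hK hU hS hB hR hC).ai cx2

theorem invd (n : KLN) (hO : OEX) (hS : DSUM) (hB : VSTB) (hR : VRES) : INVD :=
  (vsD n hO hS hB hR).ai cx2

end Crest.Agent.N218.K

end
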