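import Crest.Agent.N218.K.Cx0

/-! Row 218, D0 (helper33): iterated smash products (abstract), commutativity, associativity and
the relative Thom isomorphism for `xm`. -/

open Crest.Agent.R204 Crest.Agent.R204.Ex837 Topology Filter Set OnePoint
open K357 (K0)

noncomputable section

namespace Crest.Agent.N218.K

theorem kc_triv {C : Type} [CommRing C] [Subsingleton C] (x : KC C) : x = 0 := by
  obtain ⟨n, m, e, f, -, -, rfl⟩ := K0.exists_rep x
  rw [Subsingleton.elim e 0, Subsingleton.elim f 0, K0.cls_zero, K0.cls_zero, sub_zero]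

/-- commuting idempotent endomorphisms over a base -/
structure Nf (ι k P : Type) [CommRing k] [CommRing P] [Algebra ℂ k] [Algebra ℂ P] where
  u : k →ₐ[ℂ] P
  e : ι → P →ₐ[ℂ] P
  cm : ∀ i j x, e i (e j x) = e j (e i x)
  id : ∀ i x, e i (e i x) = e i x
  eu : ∀ i c, e i (u c) = u c

namespace Nf
variable {ι k P : Type} [CommRing k] [CommRing P] [Algebra ℂ k] [Algebra ℂ P] (N : Nf ι k P)

/-- partial smash -/
def S (J : List ι) : Subalgebra ℂ (P × k) where
  carrier := {x | ∀ j ∈ J, N.e j x.1 = N.u x.2}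
  mul_mem' a b j h := by simp [a j h, b j h]
  add_mem' a b j h := by simp [a j h, b j h]
  algebraMap_mem' c j _ := by simp

/-- the face -/
def D (J : List ι) (j : ι) : Subalgebra ℂ (N.S J) :=
  AlgHom.equalizer ((N.e j).comp ((AlgHom.fst ℂ P k).comp (N.S J).val))
    ((AlgHom.fst ℂ P k).comp (N.S J).val)

/-- first projection -/
def f1 (J : List ι) : N.S J →ₐ[ℂ] P := (AlgHom.fst ℂ P k).comp (N.S J).val
/-- second projection -/
def f2 (J : List ι) : N.S J →ₐ[ℂ] k := (AlgHom.snd ℂ P k).comp (N.S J).val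

/-- the endomorphism of a partial smash -/
def en (J : List ι) (j : ι) : N.S J →ₐ[ℂ] N.S J :=
  (((N.e j).comp (N.f1 J)).prod (N.f2 J)).codRestrict (N.S J) fun x i h =>
    (N.cm i j _).trans ((congrArg (N.e j) (x.2 i h)).trans (N.eu j _))

/-- restriction to the face -/
def fr (J : List ι) (j : ι) : N.S J →ₐ[ℂ] N.D J j := (N.en J j).codRestrict (N.D J j) fun _ => N.id j _

theorem fr_val (J : List ι) (j : ι) (x : N.D J j) : N.fr J j ((N.D J j).val x) = x :=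
  Subtype.ext (Subtype.ext (Prod.ext x.2 rfl))

/-- forgetting a condition -/
def ic (J : List ι) (j : ι) : N.S (j :: J) →ₐ[ℂ] N.S J :=
  Subalgebra.inclusion fun _ h i hi => h i (List.mem_cons_of_mem _ hi)

/-- the step -/
def sq (J : List ι) (j : ι) : Sq (N.S (j :: J)) (N.S J) k (N.D J j) where
  p1 := (N.ic J j : _ →+* _)
  p2 := (N.f2 (j :: J) : _ →+* _)
  al := (N.fr J j : _ →+* _)
  be := ((((N.u.prod (AlgHom.id ℂ k)).codRestrict (N.S J) fun c i _ => N.eu i c).codRestrict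
    (N.D J j) fun c => N.eu j c : k →ₐ[ℂ] N.D J j) : _ →+* _)
  comm x := Subtype.ext (Subtype.ext (Prod.ext (x.2 j List.mem_cons_self) rfl))
  lift a c h := by
    have h1 : N.e j a.1.1 = N.u c := congrArg (fun x : N.D J j => x.1.1.1) h
    have h2 : a.1.2 = c := congrArg (fun x : N.D J j => x.1.1.2) h
    refine ⟨⟨a.1, fun i hi => ?_⟩, rfl, h2⟩
    rcases List.mem_cons.1 hi with rfl | hi
    · rw [h1, h2]
    · exact a.2 i hi
  inj _ _ h _ := Subtype.ext (congrArg (fun x : N.S J => x.1) h)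

/-- the start -/
def sq0 : Sq (N.S []) P k PUnit.{1} where
  p1 := (N.f1 [] : _ →+* _)
  p2 := (N.f2 [] : _ →+* _)
  al := { toFun := fun _ => PUnit.unit, map_one' := rfl, map_mul' := fun _ _ => rfl,
          map_zero' := rfl, map_add' := fun _ _ => rfl }
  be := { toFun := fun _ => PUnit.unit, map_one' := rfl, map_mul' := fun _ _ => rfl,
          map_zero' := rfl, map_add' := fun _ _ => rfl }
  comm _ := rfl
  lift a c _ := ⟨⟨(a, c), fun _ h => absurd h List.not_mem_nil⟩, rfl, rfl⟩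
  inj _ _ h h' := Subtype.ext (Prod.ext h h')

theorem injS (J : List ι) (z : KC (N.S J)) (h1 : KA (N.f1 J) z = 0) (h2 : KA (N.f2 J) z = 0) :
    z = 0 := by
  induction J with
  | nil =>
    refine N.sq0.K0_inj (fun n g g' _ _ => ⟨0, 1, 1, mul_one _, mul_one _, ?_⟩) h1 h2
    exact Subsingleton.elim _ _
  | cons j J ih =>
    refine (N.sq J j).K0_inj (stLift_of_section _ ((N.D J j).val : _ →+* _) (N.fr_val J j))
      (ih (KA (N.ic J j) z) ?_ ?_) h2
    · exact (ka_ka _ _ _ (fun _ => rfl) z).trans h1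
    · exact (ka_ka _ _ _ (fun _ => rfl) z).trans h2

theorem surS (J : List ι) (z : KC P) (h : ∀ j ∈ J, KA (N.e j) z = 0) :
    ∃ s, KA (N.f1 J) s = z ∧ KA (N.f2 J) s = 0 := by
  induction J with
  | nil => exact N.sq0.exists_rel (fun _ => ⟨0, rfl⟩) (kc_triv _)
  | cons j J ih =>
    obtain ⟨s, h1, h2⟩ := ih fun i hi => h i (List.mem_cons_of_mem _ hi)
    have a : KA (N.en J j) s = 0 := by
      apply N.injS
      · rw [ka_sq (N.f1 J) (N.en J j) (N.e j) (N.f1 J) (fun _ => rfl), h1, h j List.mem_cons_self]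
      · rw [ka_ka (N.f2 J) (N.en J j) (N.f2 J) (fun _ => rfl), h2]
    have b : KA (B := N.D J j) (N.fr J j) s = 0 := by
      rw [← ka_ka_id (A := N.D J j) (N.fr J j) (N.D J j).val (N.fr_val J j)
        (KA (B := N.D J j) (N.fr J j) s),
        ka_ka (B := N.D J j) (N.D J j).val (N.fr J j) (N.en J j) (fun _ => rfl), a, map_zero]
    obtain ⟨t, t1, t2⟩ := (N.sq J j).exists_rel (fun x => ⟨_, N.fr_val J j x⟩) (x := s) b
    have t1' : KA (N.ic J j) t = s := t1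
    exact ⟨t, by rw [← ka_ka (N.f1 J) (N.ic J j) _ (fun _ => rfl), t1', h1], t2⟩

/-- **the iterated smash lemma** -/
theorem main [Fintype ι] {S : Type} [CommRing S] [Algebra ℂ S] (inc : S →ₐ[ℂ] P) (ev : S →ₐ[ℂ] k)
    (h1 : ∀ j s, N.e j (inc s) = N.u (ev s)) (h2 : ∀ s s', inc s = inc s' → ev s = ev s' → s = s')
    (h3 : ∀ F c, (∀ j, N.e j F = N.u c) → ∃ s, inc s = F ∧ ev s = c) :
    (∀ z, KA inc z = 0 → KA ev z = 0 → z = 0) ∧
      ∀ z, (∀ j, KA (N.e j) z = 0) → ∃ s, KA inc s = z ∧ KA ev s = 0 := by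
  let J := (Finset.univ : Finset ι).toList
  let φ : S →ₐ[ℂ] N.S J := (inc.prod ev).codRestrict (N.S J) fun s j _ => h1 j s
  have hφ : Function.Bijective φ := ⟨fun s s' h => h2 s s' (congrArg (fun x : N.S J => x.1.1) h)
    (congrArg (fun x : N.S J => x.1.2) h), fun x => by
      obtain ⟨s, a, b⟩ := h3 x.1.1 x.1.2 fun j => x.2 j (by simp [J])
      exact ⟨s, Subtype.ext (Prod.ext a b)⟩⟩
  let E := AlgEquiv.ofBijective φ hφ
  refine ⟨fun z a b => ?_, fun z h => ?_⟩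
  · rw [← ka_ka_id E.symm.toAlgHom φ E.symm_apply_apply z,
      N.injS J (KA φ z) ((ka_ka _ _ _ (fun _ => rfl) z).trans a)
        ((ka_ka _ _ _ (fun _ => rfl) z).trans b), map_zero]
  · obtain ⟨s, a, b⟩ := N.surS J z fun j _ => h j
    refine ⟨KA E.symm.toAlgHom s, ?_, ?_⟩
    · rw [ka_ka inc E.symm.toAlgHom (N.f1 J) (fun x => congrArg (N.f1 J) (E.apply_symm_apply x)), a]
    · rw [ka_ka ev E.symm.toAlgHom (N.f2 J) (fun x => congrArg (N.f2 J) (E.apply_symm_apply x)), b]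

end Nf

section ex
variable {X : Type} [TopologicalSpace X] {A B : Ex X}

theorem Ex.Rd.sub {x y : KX A.E} (h : A.Rd x) (h' : A.Rd y) : A.Rd (x - y) := by
  unfold Ex.Rd at *; rw [map_sub, h, h', sub_zero]
theorem Ex.Rd.add {x y : KX A.E} (h : A.Rd x) (h' : A.Rd y) : A.Rd (x + y) := by
  unfold Ex.Rd at *; rw [map_add, h, h', add_zero]
theorem Ex.rd_zero (A : Ex X) : A.Rd 0 := map_zero _
namespace SmD
variable {U S : Ex X} (D : SmD A U S) {l : KX A.E}

theorem comm {S' : Ex X} (D' : SmD U A S') (sw : C(D.P.E, D'.P.E)) (F : C(S.E, S'.E))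
    (h1 : ∀ z, F (D.c z) = D'.c (sw z)) (h2 : ∀ z, D'.P.p (sw z) = D.q z)
    (h3 : ∀ z, D'.q (sw z) = D.P.p z) {x : KX A.E} {z : KX U.E} (hx : A.Rd x) (hz : U.Rd z) :
    pull F (D'.mul z x) = D.mul x z := by
  refine D.eq_mul hx hz ?_
  rw [pull_sq D.c F sw D'.c h1, D'.c_mul hz hx, map_mul, mul_comm, pull_pull sw _ _ h2,
    pull_pull sw _ _ h3]

theorem assoc {V U W UW VU S1 S2 : Ex X} (D1 : SmD V UW S1) (D23 : SmD U W UW) (D12 : SmD V U VU)
    (D3 : SmD VU W S2) {T : Type} [TopologicalSpace T] (g1 : C(T, D1.P.E))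
    (inj : Function.Injective (pull g1)) (h23 : C(T, D23.P.E)) (h12 : C(T, D12.P.E))
    (h3 : C(T, D3.P.E)) (F : C(S1.E, S2.E)) (e1 : ∀ t, F (D1.c (g1 t)) = D3.c (h3 t))
    (e2 : ∀ t, D3.q (h3 t) = D12.c (h12 t)) (e3 : ∀ t, D1.P.p (g1 t) = D23.c (h23 t))
    (e4 : ∀ t, D12.q (h12 t) = D1.q (g1 t)) (e5 : ∀ t, D12.P.p (h12 t) = D23.q (h23 t))
    (e6 : ∀ t, D3.P.p (h3 t) = D23.P.p (h23 t)) {a : KX V.E} {b : KX U.E} {c : KX W.E}
    (ha : V.Rd a) (hb : U.Rd b) (hc : W.Rd c) :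
    pull F (D3.mul (D12.mul a b) c) = D1.mul a (D23.mul b c) := by
  refine D1.eq_mul ha (D23.rd_mul b c) (inj ?_)
  rw [pull_pull g1 _ (D1.c.comp g1) (fun _ => rfl), pull_sq (D1.c.comp g1) F h3 D3.c e1,
    D3.c_mul (D12.rd_mul a b) hc, map_mul, map_mul, pull_sq h3 D3.q h12 D12.c e2,
    pull_sq g1 D1.P.p h23 D23.c e3, D12.c_mul ha hb, D23.c_mul hb hc, map_mul, map_mul, mul_assoc,
    pull_sq h12 D12.q g1 D1.q e4, pull_sq h12 D12.P.p h23 D23.q e5,
    pull_sq h3 D3.P.p h23 D23.P.p e6]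

end SmD
end ex

variable {Γ : Type} [Group Γ] [TopologicalSpace Γ] [CompactSpace Γ] {Y : GS Γ} {V U W : LS Γ}

/-- the swap of the two spheres -/
def swP (Y : GS Γ) (V U : LS Γ) : C((smd Y V U).P.E, (smd Y U V).P.E) :=
  GS.qmap ((Y.prod U.sph).prod V.sph) ((Y.prod V.sph).prod U.sph)
    ⟨fun z => ((z.1.1, z.2), z.1.2), by fun_prop⟩ fun g _ => ⟨g, rfl⟩

theorem swP_swP (z : (smd Y V U).P.E) : swP Y U V (swP Y V U z) = z := by
  obtain ⟨⟨y, u⟩, w, rfl⟩ := pt_surj z; rfl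

/-- **commutativity** -/
theorem xm_comm (F : C((Sb Y (V.prod U)).E, (Sb Y (U.prod V)).E))
    (hF : ∀ y v u, F (pt Y _ y (wdg (v, u))) = pt Y _ y (wdg (u, v))) {x : KS Y V} {z : KS Y U}
    (hx : (Sb Y V).Rd x) (hz : (Sb Y U).Rd z) : pull F (xm z x) = xm x z := by
  refine (smd Y V U).comm (smd Y U V) (swP Y V U) F ?_ ?_ ?_ hx hz <;> intro z <;>
    obtain ⟨⟨y, u⟩, w, rfl⟩ := pt_surj z
  exacts [hF y w u, rfl, rfl]

/-- **associativity** -/
theorem xm_assoc (F : C((Sb Y (V.prod (U.prod W))).E, (Sb Y ((V.prod U).prod W)).E))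
    (hF : ∀ y v u w, F (pt Y _ y (wdg (v, wdg (u, w)))) = pt Y _ y (wdg (wdg (v, u), w)))
    {a : KS Y V} {b : KS Y U} {c : KS Y W} (ha : (Sb Y V).Rd a) (hb : (Sb Y U).Rd b)
    (hc : (Sb Y W).Rd c) : pull F (xm (xm a b) c) = xm a (xm b c) := by
  let T := ((Y.prod V.sph).prod W.sph).prod U.sph
  let c' : C(T.Q, (smd Y (U.prod W) V).P.E) := (smd (Y.prod V.sph) U W).c
  have i1 : Function.Injective (pull c') := (smd (Y.prod V.sph) U W).injective
  have inj : Function.Injective (pull ((swP Y (U.prod W) V).comp c')) := by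
    intro x y h
    rw [pull_comp, pull_comp] at h
    have := congrArg (pull (swP Y V (U.prod W))) (i1 h)
    rwa [pull_pull_id _ _ swP_swP, pull_pull_id _ _ swP_swP] at this
  let h23 : C(T.Q, (smd Y U W).P.E) := GS.qmap T ((Y.prod W.sph).prod U.sph)
    ⟨fun z => ((z.1.1.1, z.1.2), z.2), by fun_prop⟩ fun g _ => ⟨g, rfl⟩
  let h12 : C(T.Q, (smd Y V U).P.E) := GS.qmap T ((Y.prod U.sph).prod V.sph)
    ⟨fun z => ((z.1.1.1, z.2), z.1.1.2), by fun_prop⟩ fun g _ => ⟨g, rfl⟩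
  let h3 : C(T.Q, (smd Y (V.prod U) W).P.E) := GS.qmap T ((Y.prod W.sph).prod (V.prod U).sph)
    ⟨fun z => ((z.1.1.1, z.1.2), wdg (z.1.1.2, z.2)),
      (continuous_fst.fst.fst.prodMk continuous_fst.snd).prodMk
        (continuous_wdg.comp (continuous_fst.fst.snd.prodMk continuous_snd))⟩
    fun g z => ⟨g, Prod.ext rfl (wdg_act2 V U g z.1.1.2 z.2)⟩
  have ind : ∀ {P : T.Q → Prop}, (∀ z, P (T.pr z)) → ∀ t, P t := fun h t => by
    obtain ⟨z, rfl⟩ := T.pr_surj t; exact h z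
  exact (smd Y V (U.prod W)).assoc (smd Y U W) (smd Y V U) (smd Y (V.prod U) W) _ inj h23 h12 h3 F
    (ind fun z => hF z.1.1.1 z.1.1.2 z.2 z.1.2) (ind fun _ => rfl) (ind fun _ => rfl)
    (ind fun _ => rfl) (ind fun _ => rfl) (ind fun _ => rfl) ha hb hc

end Crest.Agent.N218.K
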