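import Crest.Agent.N218.K.Lam1
import Crest.Agent.N218.K.Nf

/-! Row 218, D0 (helper33): the Thom class of a sum of characters. -/

open Crest.Agent.R204.K357 Topology Filter Set OnePoint

set_option linter.unusedVariables false
set_option linter.unusedSectionVars false

noncomputable section

namespace Crest.Agent.N218.K

section wpi
variable {ι κ : Type}

open Classical in
/-- the iterated smash map -/
def wpi (z : ι → OnePoint ℂ) : OnePoint (ι → ℂ) :=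
  if ∃ i, z i = ∞ then ∞ else ((fun i => OnePoint.rec 0 id (z i) : ι → ℂ) : OnePoint (ι → ℂ))

theorem wpi_inf {z : ι → OnePoint ℂ} {i : ι} (h : z i = ∞) : wpi z = ∞ := if_pos ⟨i, h⟩
theorem wpi_coe (w : ι → ℂ) : wpi (fun i => (w i : OnePoint ℂ)) = w :=
  if_neg fun ⟨_, h⟩ => coe_ne_infty _ h
theorem wpi_cases (z : ι → OnePoint ℂ) : (∃ i, z i = ∞) ∨ ∃ w : ι → ℂ, z = fun i => ↑(w i) := by
  by_cases h : ∃ i, z i = ∞
  · exact .inl h
  · push Not at h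
    choose w hw using fun i => ne_infty_iff_exists.1 (h i)
    exact .inr ⟨w, funext fun i => (hw i).symm⟩

theorem continuous_wpi [Finite ι] : Continuous (wpi : (ι → OnePoint ℂ) → _) := by
  rw [continuous_iff_continuousAt]
  intro z
  rcases wpi_cases z with ⟨i, h⟩ | ⟨w, rfl⟩
  · change Tendsto _ _ _
    rw [wpi_inf h, hasBasis_nhds_infty.tendsto_right_iff]
    rintro K ⟨-, hK⟩
    have k := hK.image (continuous_apply i)
    have : ∀ᶠ z' : ι → OnePoint ℂ in 𝓝 z, z' i ∈ (↑) '' ((fun w => w i) '' K)ᶜ ∪ {∞} :=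
      (continuous_apply i).continuousAt.eventually
        (h ▸ hasBasis_nhds_infty.mem_of_mem ⟨k.isClosed, k⟩)
    filter_upwards [this] with z' hz'
    rcases wpi_cases z' with ⟨j, e⟩ | ⟨w, rfl⟩
    · exact .inr (wpi_inf e)
    · rcases hz' with ⟨v, hv, e⟩ | e
      · exact .inl ⟨w, fun hw => hv ⟨w, hw, (coe_injective e).symm⟩, (wpi_coe w).symm⟩
      · exact absurd e (coe_ne_infty _)
  · have e : IsOpenEmbedding (Pi.map fun _ => (↑) : (ι → ℂ) → ι → OnePoint ℂ) :=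
      IsOpenEmbedding.piMap fun _ => isOpenEmbedding_coe
    refine (e.continuousAt_iff (x := w)).1 ?_
    rw [show wpi ∘ (Pi.map fun _ => (↑) : (ι → ℂ) → ι → OnePoint ℂ) = (↑) from funext wpi_coe]
    exact continuous_coe.continuousAt

theorem wpi_eq {z z' : ι → OnePoint ℂ} (h : wpi z = wpi z') :
    z = z' ∨ ((∃ i, z i = ∞) ∧ ∃ i, z' i = ∞) := by
  rcases wpi_cases z with ⟨i, a⟩ | ⟨w, rfl⟩ <;> rcases wpi_cases z' with ⟨j, b⟩ | ⟨w', rfl⟩
  · exact .inr ⟨⟨i, a⟩, j, b⟩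
  · rw [wpi_inf a, wpi_coe] at h; exact absurd h (infty_ne_coe _)
  · rw [wpi_inf b, wpi_coe] at h; exact absurd h (coe_ne_infty _)
  · rw [wpi_coe, wpi_coe] at h; rw [coe_injective h]; exact .inl rfl

open Classical in
/-- put `∞` in place `i` -/
def upi (i : ι) (z : ι → OnePoint ℂ) : ι → OnePoint ℂ := fun j => if j = i then ∞ else z j

theorem upi_self (i : ι) (z : ι → OnePoint ℂ) : upi i z i = ∞ := if_pos rfl
theorem upi_comm (i j : ι) (z : ι → OnePoint ℂ) : upi i (upi j z) = upi j (upi i z) :=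
  funext fun k => by unfold upi; split_ifs <;> rfl
theorem upi_of {i : ι} {z : ι → OnePoint ℂ} (h : z i = ∞) : upi i z = z :=
  funext fun k => by
    unfold upi; split_ifs with e
    · rw [e, h]
    · rfl
theorem continuous_upi (i : ι) : Continuous (upi i) := continuous_pi fun j => by
  unfold upi; split_ifs
  · exact continuous_const
  · exact continuous_apply j
theorem upi_map (i : ι) (z : ι → OnePoint ℂ) (f : ι → OnePoint ℂ → OnePoint ℂ)
    (hf : ∀ j, f j ∞ = ∞) : (fun j => f j (upi i z j)) = upi i fun j => f j (z j) :=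
  funext fun k => by
    unfold upi; split_ifs
    · exact hf k
    · rfl

end wpi

variable {Γ Γ' : Type} [Group Γ] [TopologicalSpace Γ] [Group Γ'] [TopologicalSpace Γ']
  [CompactSpace Γ] [CompactSpace Γ'] {ι κ μ : Type} [Fintype ι] [Fintype κ] [Fintype μ]

/-- the space of a sum of characters -/
abbrev wl (χ : ι → Γ →* Circle) (hχ : ∀ i, Continuous (χ i)) : LS Γ := (Rep.wt χ hχ).ls

/-- product of the spheres of the characters -/
def sphs (χ : ι → Γ →* Circle) (hχ : ∀ i, Continuous (χ i)) : GS Γ where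
  Z := ι → OnePoint ℂ
  act g z i := (ch (χ i) (hχ i)).sph.act g (z i)
  one z := funext fun i => (ch (χ i) (hχ i)).sph.one _
  mul g h z := funext fun i => (ch (χ i) (hχ i)).sph.mul _ _ _
  cont := continuous_pi fun i => (ch (χ i) (hχ i)).sph.cont.comp
    (continuous_fst.prodMk ((continuous_apply i).comp continuous_snd))

variable (Y : GS Γ) (χ : ι → Γ →* Circle) (hχ : ∀ i, Continuous (χ i))

theorem wpi_act (g : Γ) (z : ι → OnePoint ℂ) :
    (wl χ hχ).sph.act g (wpi z) = wpi ((sphs χ hχ).act g z) := by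
  rcases wpi_cases z with ⟨i, a⟩ | ⟨w, rfl⟩
  · rw [wpi_inf a]
    exact (wpi_inf (z := (sphs χ hχ).act g z) (congrArg ((ch (χ i) (hχ i)).sph.act g) a)).symm
  · rw [wpi_coe]; exact (wpi_coe fun i => χ i g * w i).symm

/-- the product of the sphere bundles -/
abbrev TL : Type := (Y.prod (sphs χ hχ)).Q
/-- its points -/
def tp' (y : Y.Z) (z : ι → OnePoint ℂ) : TL Y χ hχ := (Y.prod (sphs χ hχ)).pr (y, z)
/-- the collapse -/
def cL : C(TL Y χ hχ, (Sb Y (wl χ hχ)).E) :=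
  GS.qmap _ (Y.prod (wl χ hχ).sph) ⟨fun z => (z.1, wpi z.2),
    continuous_fst.prodMk (continuous_wpi.comp continuous_snd)⟩ fun g z =>
      ⟨g, Prod.ext rfl (wpi_act χ hχ g z.2)⟩
/-- the projections -/
def qL (i : ι) : C(TL Y χ hχ, (Sb Y (ch (χ i) (hχ i))).E) :=
  GS.qmap _ (Y.prod (ch (χ i) (hχ i)).sph) ⟨fun z => (z.1, z.2 i),
    continuous_fst.prodMk ((continuous_apply i).comp continuous_snd)⟩ fun g _ => ⟨g, rfl⟩
/-- the base -/
def pL : C(TL Y χ hχ, Y.Q) := GS.qmap _ _ ContinuousMap.fst fun g _ => ⟨g, rfl⟩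
/-- the faces -/
def eL (i : ι) : C(TL Y χ hχ, TL Y χ hχ) :=
  GS.qmap _ _ ⟨fun z => (z.1, upi i z.2),
    continuous_fst.prodMk ((continuous_upi i).comp continuous_snd)⟩ fun g z =>
      ⟨g, Prod.ext rfl (upi_map i z.2 (fun j => (ch (χ j) (hχ j)).sph.act g) fun _ => rfl)⟩

variable {Y χ hχ} in
theorem tt_ind {P : TL Y χ hχ → Prop} (h : ∀ y z, P (tp' Y χ hχ y z)) (t : TL Y χ hχ) : P t := by
  obtain ⟨z, rfl⟩ := (Y.prod (sphs χ hχ)).pr_surj t; exact h z.1 z.2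

theorem cL_tp (y : Y.Z) (z : ι → OnePoint ℂ) :
    cL Y χ hχ (tp' Y χ hχ y z) = pt Y (wl χ hχ) y (wpi z) := rfl

/-- the face datum -/
def nfL : Nf ι C(Y.Q, ℂ) C(TL Y χ hχ, ℂ) where
  u := cR (pL Y χ hχ)
  e i := cR (eL Y χ hχ i)
  cm i j f := ContinuousMap.ext <| tt_ind fun y z => congrArg (fun w => f (tp' Y χ hχ y w)) 
    (upi_comm j i z)
  id i f := ContinuousMap.ext <| tt_ind fun y z => congrArg (fun w => f (tp' Y χ hχ y w))
    (upi_of (upi_self i z))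
  eu i f := ContinuousMap.ext <| tt_ind fun _ _ => rfl

theorem cL_main : (∀ x, pull (cL Y χ hχ) x = 0 → (Sb Y (wl χ hχ)).Rd x → x = 0) ∧
    ∀ x, (∀ j, pull (eL Y χ hχ j) x = 0) → ∃ s, pull (cL Y χ hχ) s = x ∧ (Sb Y (wl χ hχ)).Rd s := by
  classical
  have sur : ∀ e, (∃ t, cL Y χ hχ t = e) ∨ ∃ x, (Sb Y (wl χ hχ)).s x = e :=
    sb_ind (fun y => .inr ⟨Y.pr y, rfl⟩) fun y w =>
      .inl ⟨tp' Y χ hχ y fun i => (w i : ℂ), congrArg (pt Y (wl χ hχ) y) (wpi_coe w)⟩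
  refine (nfL Y χ hχ).main (cR (cL Y χ hχ)) (cR (Sb Y (wl χ hχ)).s) (fun j f => ?_)
    (fun f g a b => ContinuousMap.ext fun e => ?_) fun F c h => ?_
  · exact ContinuousMap.ext <| tt_ind fun y z => congrArg (fun w => f (pt Y (wl χ hχ) y w))
      (wpi_inf (upi_self j z))
  · rcases sur e with ⟨t, rfl⟩ | ⟨x, rfl⟩
    · exact DFunLike.congr_fun a t
    · exact DFunLike.congr_fun b x
  · have k : ∀ y z, (∃ i, z i = ∞) → F (tp' Y χ hχ y z) = c (Y.pr y) := by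
      rintro y z ⟨i, e⟩
      have := DFunLike.congr_fun (h i) (tp' Y χ hχ y z)
      change F (tp' Y χ hχ y (upi i z)) = c (Y.pr y) at this
      rwa [upi_of e] at this
    have k2 : ∀ t x, cL Y χ hχ t = (Sb Y (wl χ hχ)).s x → F t = c x := by
      refine tt_ind fun y z x e => ?_
      have ex : x = Y.pr y := ((Sb Y (wl χ hχ)).ps x).symm.trans (congrArg (Sb Y (wl χ hχ)).p e).symm
      subst ex
      have : wpi z = ∞ := pt_bas.1 e
      rcases wpi_cases z with a | ⟨w, rfl⟩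
      · exact k y z a
      · rw [wpi_coe] at this; exact absurd this (coe_ne_infty _)
    obtain ⟨G, hG⟩ := exists_desc (X := TL Y χ hχ ⊕ Y.Q)
      ⟨Sum.elim (cL Y χ hχ) (Sb Y (wl χ hχ)).s,
        (cL Y χ hχ).continuous.sumElim (Sb Y (wl χ hχ)).s.continuous⟩
      (fun e => (sur e).elim (fun ⟨t, h⟩ => ⟨.inl t, h⟩) fun ⟨t, h⟩ => ⟨.inr t, h⟩)
      ⟨Sum.elim F c, F.continuous.sumElim c.continuous⟩ (by
        rintro (t | x) (t' | x') e
        · induction t using tt_ind with | _ y z => ?_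
          induction t' using tt_ind with | _ y' z' => ?_
          obtain ⟨g, rfl, e2⟩ := pt_eq.1 (show pt Y (wl χ hχ) y (wpi z) = pt Y _ y' (wpi z') from e)
          have e3 : tp' Y χ hχ y z = tp' Y χ hχ (Y.act g y) ((sphs χ hχ).act g z) :=
            ((Y.prod (sphs χ hχ)).pr_act g (y, z)).symm
          change F _ = F _
          rw [e3]
          rcases wpi_eq ((wpi_act χ hχ g z).symm.trans e2) with a | ⟨a, b⟩
          · rw [a]
          · rw [k _ _ a, k _ _ b]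
        · exact k2 t x' e
        · exact (k2 t' x e.symm).symm
        · exact congrArg c (((Sb Y (wl χ hχ)).ps x).symm.trans
            ((congrArg (Sb Y (wl χ hχ)).p e).trans ((Sb Y (wl χ hχ)).ps x'))))
    exact ⟨G, ContinuousMap.ext fun t => hG (.inl t), ContinuousMap.ext fun x => hG (.inr x)⟩

theorem exists_lam : ∃ l, pull (cL Y χ hχ) l = ∏ i, pull (qL Y χ hχ i) (lam1 Y (χ i) (hχ i)) ∧
    (Sb Y (wl χ hχ)).Rd l := by
  classical
  refine (cL_main Y χ hχ).2 _ fun j => ?_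
  rw [map_prod]
  refine Finset.prod_eq_zero (Finset.mem_univ j) ?_
  rw [← pull_comp]
  exact pull_lam1_inf _ _ <| tt_ind fun y z =>
    ⟨y, congrArg (pt Y (ch (χ j) (hχ j)) y) (upi_self j z)⟩

/-- **the Thom class of a sum of characters** -/
def lam : KS Y (wl χ hχ) := (exists_lam Y χ hχ).choose

theorem c_lam : pull (cL Y χ hχ) (lam Y χ hχ) = ∏ i, pull (qL Y χ hχ i) (lam1 Y (χ i) (hχ i)) :=
  (exists_lam Y χ hχ).choose_spec.1
theorem rd_lam : (Sb Y (wl χ hχ)).Rd (lam Y χ hχ) := (exists_lam Y χ hχ).choose_spec.2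

variable {Y χ hχ} in
theorem cL_ext {x x' : KS Y (wl χ hχ)} (h : (Sb Y (wl χ hχ)).Rd x) (h' : (Sb Y (wl χ hχ)).Rd x')
    (e : pull (cL Y χ hχ) x = pull (cL Y χ hχ) x') : x = x' :=
  sub_eq_zero.1 ((cL_main Y χ hχ).1 _ (by rw [map_sub, e, sub_self]) (h.sub h'))

theorem cL_p (a : KX Y.Q) : pull (cL Y χ hχ) (pull (Sb Y (wl χ hχ)).p a) = pull (pL Y χ hχ) a :=
  pull_pull _ _ _ (tt_ind fun _ _ => rfl) a
theorem qL_p (i : ι) (a : KX Y.Q) :
    pull (qL Y χ hχ i) (pull (Sb Y (ch (χ i) (hχ i))).p a) = pull (pL Y χ hχ) a :=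
  pull_pull _ _ _ (tt_ind fun _ _ => rfl) a

/-- `ψ³ λ = ρ³ λ` -/
theorem ps_lam : ps _ (lam Y χ hχ) = (Sb Y (wl χ hχ)).sm (∏ i, rho3 (Lc Y (χ i))) (lam Y χ hχ) := by
  refine cL_ext (rd_lam Y χ hχ).ps ((rd_lam Y χ hχ).sm _) ?_
  rw [← ps_pull, Ex.sm, map_mul, c_lam, cL_p, map_prod, map_prod, ← Finset.prod_mul_distrib]
  exact Finset.prod_congr rfl fun i _ => by rw [ps_pull, ps_lam1, Ex.sm, map_mul, qL_p]

variable {Y χ}

/-- the Euler class -/
theorem zero_lam (hS : ∀ i, Nonempty (Sec Y (χ i))) (f : C(Y.Q, (Sb Y (wl χ hχ)).E))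
    (hf : ∀ y, f (Y.pr y) = pt Y (wl χ hχ) y ((0 : ι → ℂ) : OnePoint (ι → ℂ))) :
    pull f (lam Y χ hχ) = ∏ i, (1 - Lc Y (χ i)) := by
  let z : C(Y.Q, TL Y χ hχ) := GS.qmap _ _ ⟨fun y => (y, fun _ => ((0 : ℂ) : OnePoint ℂ)),
    continuous_id.prodMk continuous_const⟩ fun g y => ⟨g, Prod.ext rfl (funext fun i =>
      congrArg OnePoint.some (mul_zero (χ i g : ℂ)))⟩
  rw [← pull_pull z (cL Y χ hχ) f (fun x => by
    obtain ⟨y, rfl⟩ := Y.pr_surj x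
    exact (congrArg (pt Y (wl χ hχ) y) (wpi_coe 0)).trans (hf y).symm), c_lam, map_prod]
  exact Finset.prod_congr rfl fun i _ => by
    rw [← pull_comp]; exact zero_lam1 _ (hS i) _ fun _ => rfl

/-- the map of line sphere bundles over an equivariant map -/
def chM {Y' : GS Γ'} {ξ : Γ →* Circle} {ξ' : Γ' →* Circle} (hξ : Continuous ξ) (hξ' : Continuous ξ')
    {f : C(Y'.Z, Y.Z)} (h : EqC f ξ' ξ) : C((Sb Y' (ch ξ' hξ')).E, (Sb Y (ch ξ hξ)).E) :=
  GS.qmap (Y'.prod (ch ξ' hξ').sph) (Y.prod (ch ξ hξ).sph)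
    ⟨fun z => (f z.1, z.2), (f.continuous.comp continuous_fst).prodMk continuous_snd⟩ fun g z => by
    obtain ⟨g₁, a, b⟩ := h g z.1
    refine ⟨g₁, Prod.ext a.symm ?_⟩
    obtain ⟨y, w⟩ := z
    induction w using OnePoint.rec with
    | infty => rfl
    | coe w => exact congrArg (fun c : Circle => (((c : ℂ) * (show ℂ from w) : ℂ) : OnePoint ℂ)) b

/-- the map of products over an equivariant map and a map of index sets -/
def ttM {Y' : GS Γ'} {χ' : κ → Γ' →* Circle} (hχ' : ∀ i, Continuous (χ' i)) (a : ι → κ)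
    (f : C(Y'.Z, Y.Z)) (h : ∀ g' y, ∃ g, f (Y'.act g' y) = Y.act g (f y) ∧ ∀ i, χ i g = χ' (a i) g') :
    C(TL Y' χ' hχ', TL Y χ hχ) :=
  GS.qmap _ _ ⟨fun z => (f z.1, fun i => z.2 (a i)), (f.continuous.comp continuous_fst).prodMk
    (continuous_pi fun i => (continuous_apply (a i)).comp continuous_snd)⟩ fun g z => by
    obtain ⟨g₁, e, b⟩ := h g z.1
    refine ⟨g₁, Prod.ext e.symm (funext fun i => ?_)⟩
    change (ch (χ i) (hχ i)).sph.act g₁ (z.2 (a i)) = (ch (χ' (a i)) (hχ' (a i))).sph.act g (z.2 (a i))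
    induction z.2 (a i) using OnePoint.rec with
    | infty => rfl
    | coe w => exact congrArg (fun c : Circle => (((c : ℂ) * w : ℂ) : OnePoint ℂ)) (b i)

theorem ttM_lam {Y' : GS Γ'} {χ' : κ → Γ' →* Circle} (hχ' : ∀ i, Continuous (χ' i))
    (hS : ∀ i, Nonempty (Sec Y (χ i))) (a : ι → κ)
    (f : C(Y'.Z, Y.Z)) (h : ∀ g' y, ∃ g, f (Y'.act g' y) = Y.act g (f y) ∧ ∀ i, χ i g = χ' (a i) g') :
    pull (ttM hχ hχ' a f h) (pull (cL Y χ hχ) (lam Y χ hχ)) =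
      ∏ i, pull (qL Y' χ' hχ' (a i)) (lam1 Y' (χ' (a i)) (hχ' (a i))) := by
  rw [c_lam, map_prod]
  refine Finset.prod_congr rfl fun i _ => ?_
  have e : EqC f (χ' (a i)) (χ i) := fun g y => (h g y).imp fun _ k => ⟨k.1, k.2 i⟩
  rw [pull_sq _ (qL Y χ hχ i) (qL Y' χ' hχ' (a i)) (chM (hχ i) (hχ' (a i)) e)
    (tt_ind fun _ _ => rfl), pull_lam1 (hχ i) (hχ' (a i)) (hS i) e _ fun _ _ => rfl]

theorem rd_of_inf {Y' : GS Γ'} {V : LS Γ} {V' : LS Γ'} {x : KS Y V} (hx : (Sb Y V).Rd x)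
    (F : C((Sb Y' V').E, (Sb Y V).E)) (hF : ∀ y, ∃ y', F (pt Y' V' y ∞) = pt Y V y' ∞) :
    (Sb Y' V').Rd (pull F x) := by
  unfold Ex.Rd at *
  rw [pull_sq (Sb Y' V').s F (((Sb Y V).p.comp F).comp (Sb Y' V').s) (Sb Y V).s (fun t => by
    obtain ⟨y, rfl⟩ := Y'.pr_surj t
    obtain ⟨y', e⟩ := hF y
    change F (pt Y' V' y ∞) = (Sb Y V).s ((Sb Y V).p (F (pt Y' V' y ∞)))
    rw [e]; rfl), hx, map_zero]

/-- **naturality** under base change, change of group and relabelling -/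
theorem pull_lam {Y' : GS Γ'} {χ' : κ → Γ' →* Circle} (hχ' : ∀ i, Continuous (χ' i))
    (hS : ∀ i, Nonempty (Sec Y (χ i))) {a : ι → κ} (ha : Function.Bijective a) (f : C(Y'.Z, Y.Z))
    (h : ∀ g' y, ∃ g, f (Y'.act g' y) = Y.act g (f y) ∧ ∀ i, χ i g = χ' (a i) g')
    (F : C((Sb Y' (wl χ' hχ')).E, (Sb Y (wl χ hχ)).E))
    (h0 : ∀ y, F (pt Y' (wl χ' hχ') y ∞) = pt Y (wl χ hχ) (f y) ∞)
    (h1 : ∀ y (w : κ → ℂ), F (pt Y' (wl χ' hχ') y (w : OnePoint (κ → ℂ))) =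
      pt Y (wl χ hχ) (f y) ((fun i => w (a i) : ι → ℂ) : OnePoint (ι → ℂ))) :
    pull F (lam Y χ hχ) = lam Y' χ' hχ' := by
  refine cL_ext (rd_of_inf (rd_lam Y χ hχ) F fun y => ⟨_, h0 y⟩) (rd_lam _ _ _) ?_
  rw [pull_sq (cL Y' χ' hχ') F (ttM hχ hχ' a f h) (cL Y χ hχ) (tt_ind fun y z => ?_),
    ttM_lam hχ hχ' hS, c_lam]
  · exact ha.prod_comp fun j => pull (qL Y' χ' hχ' j) (lam1 Y' (χ' j) (hχ' j))
  · change F (pt Y' (wl χ' hχ') y (wpi z)) = pt Y (wl χ hχ) (f y) (wpi fun i => z (a i))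
    rcases wpi_cases z with ⟨j, e⟩ | ⟨w, rfl⟩
    · obtain ⟨i, rfl⟩ := ha.2 j
      rw [wpi_inf e, wpi_inf (z := fun i => z (a i)) e]; exact h0 y
    · rw [wpi_coe, wpi_coe fun i => w (a i)]; exact h1 y w

/-- **additivity** -/
theorem sum_lam {χ' : κ → Γ →* Circle} (hχ' : ∀ i, Continuous (χ' i)) {ξ : μ → Γ →* Circle}
    (hξ : ∀ i, Continuous (ξ i)) (hS : ∀ i, Nonempty (Sec Y (ξ i))) {a : ι → μ} {b : κ → μ}
    (hab : Function.Bijective (Sum.elim a b)) (ea : ∀ i, χ i = ξ (a i)) (eb : ∀ i, χ' i = ξ (b i))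
    (F : C((Sb Y (wl ξ hξ)).E, (Sb Y ((wl χ hχ).prod (wl χ' hχ'))).E))
    (h0 : ∀ y, F (pt Y (wl ξ hξ) y ∞) = pt Y _ y ∞)
    (h1 : ∀ y (w : μ → ℂ), F (pt Y (wl ξ hξ) y (w : OnePoint (μ → ℂ))) = pt Y _ y
      (((fun i => w (a i), fun i => w (b i)) : (ι → ℂ) × (κ → ℂ)) : OnePoint ((ι → ℂ) × (κ → ℂ)))) :
    pull F (xm (lam Y χ hχ) (lam Y χ' hχ')) = lam Y ξ hξ := by
  refine cL_ext (rd_of_inf (rd_xm _ _) F fun y => ⟨_, h0 y⟩) (rd_lam _ _ _) ?_
  have ha : ∀ g' y, ∃ g, ContinuousMap.id _ (Y.act g' y) = Y.act g (ContinuousMap.id _ y) ∧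
    ∀ i, χ i g = ξ (a i) g' := fun g y => ⟨g, rfl, fun i => by rw [ea]⟩
  have hb : ∀ g' y, ∃ g, ContinuousMap.id _ (Y.act g' y) = Y.act g (ContinuousMap.id _ y) ∧
    ∀ i, χ' i g = ξ (b i) g' := fun g y => ⟨g, rfl, fun i => by rw [eb]⟩
  let G : C(TL Y ξ hξ, (smd Y (wl χ hχ) (wl χ' hχ')).P.E) :=
    GS.qmap (Y.prod (sphs ξ hξ)) ((Y.prod (wl χ' hχ').sph).prod (wl χ hχ).sph)
      ⟨fun z => ((z.1, wpi fun i => z.2 (b i)), wpi fun i => z.2 (a i)),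
        (continuous_fst.prodMk (continuous_wpi.comp
          (continuous_pi fun i => (continuous_apply (b i)).comp continuous_snd))).prodMk
          (continuous_wpi.comp (continuous_pi fun i => (continuous_apply (a i)).comp continuous_snd))⟩
      fun g z => ⟨g, Prod.ext (Prod.ext rfl ((wpi_act χ' hχ' g _).trans (congrArg wpi (funext fun i => by
        obtain rfl := funext eb; rfl)))) ((wpi_act χ hχ g _).trans (congrArg wpi (funext fun i => by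
        obtain rfl := funext ea; rfl)))⟩
  rw [pull_sq (cL Y ξ hξ) F G (smd Y (wl χ hχ) (wl χ' hχ')).c (tt_ind fun y z => ?_), xm,
    SmD.c_mul _ (rd_lam _ _ _) (rd_lam _ _ _), map_mul,
    pull_sq G (smd Y (wl χ hχ) (wl χ' hχ')).q (ttM hχ hξ a _ ha) (cL Y χ hχ) (tt_ind fun _ _ => rfl),
    pull_sq G (smd Y (wl χ hχ) (wl χ' hχ')).P.p (ttM hχ' hξ b _ hb) (cL Y χ' hχ')
      (tt_ind fun _ _ => rfl), ttM_lam hχ hξ (fun i => ea i ▸ hS (a i)),
    ttM_lam hχ' hξ (fun i => eb i ▸ hS (b i)), c_lam,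
    ← hab.prod_comp fun j => pull (qL Y ξ hξ j) (lam1 Y (ξ j) (hξ j)), Fintype.prod_sum_type]
  · rfl
  · change F (pt Y (wl ξ hξ) y (wpi z)) = pt Y ((wl χ hχ).prod (wl χ' hχ')) y
      (wdg (wpi fun i => z (a i), wpi fun i => z (b i)))
    rcases wpi_cases z with ⟨j, e⟩ | ⟨w, rfl⟩
    · rw [wpi_inf e]
      obtain ⟨i | i, rfl⟩ := hab.2 j
      · rw [wpi_inf (z := fun i => z (a i)) e]; exact h0 y
      · rw [wpi_inf (z := fun i => z (b i)) e]
        exact (h0 y).trans (congrArg (pt Y _ y) (wdg_r _).symm)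
    · rw [wpi_coe, wpi_coe fun i => w (a i), wpi_coe fun i => w (b i)]; exact h1 y w

/-- one character -/
theorem one_lam [Unique ι] (F : C((Sb Y (wl χ hχ)).E, (Sb Y (ch (χ default) (hχ default))).E))
    (h0 : ∀ y, F (pt Y (wl χ hχ) y ∞) = pt Y _ y ∞)
    (h1 : ∀ y (w : ι → ℂ), F (pt Y (wl χ hχ) y (w : OnePoint (ι → ℂ))) =
      pt Y _ y ((w default : ℂ) : OnePoint ℂ)) :
    pull F (lam1 Y (χ default) (hχ default)) = lam Y χ hχ := by
  refine cL_ext (rd_of_inf (rd_lam1 _) F fun y => ⟨_, h0 y⟩) (rd_lam _ _ _) ?_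
  rw [c_lam, Fintype.prod_unique]
  refine pull_pull _ _ _ (tt_ind fun y z => ?_) _
  change F (pt Y (wl χ hχ) y (wpi z)) = pt Y (ch (χ default) (hχ default)) y (z default)
  rcases wpi_cases z with ⟨j, e⟩ | ⟨w, rfl⟩
  · obtain rfl := Unique.eq_default j
    rw [wpi_inf e, e]; exact h0 y
  · rw [wpi_coe]; exact h1 y w

/-- splitting a sum of characters -/
def wlS {χ' : κ → Γ →* Circle} (hχ' : ∀ i, Continuous (χ' i)) {ξ : μ → Γ →* Circle}
    (hξ : ∀ i, Continuous (ξ i)) (e : ι ⊕ κ ≃ μ) (ea : ∀ i, χ i = ξ (e (.inl i)))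
    (eb : ∀ i, χ' i = ξ (e (.inr i))) : (wl ξ hξ).Iso ((wl χ hχ).prod (wl χ' hχ')) :=
  ⟨(Homeomorph.piCongrLeft (Y := fun _ => ℂ) e).symm.trans Homeomorph.sumArrowHomeomorphProdArrow,
    fun g x => Prod.ext (funext fun i => by obtain rfl := funext ea; rfl)
      (funext fun i => by obtain rfl := funext eb; rfl)⟩

theorem wlS_lam {χ' : κ → Γ →* Circle} (hχ' : ∀ i, Continuous (χ' i)) {ξ : μ → Γ →* Circle}
    (hξ : ∀ i, Continuous (ξ i)) (hS : ∀ i, Nonempty (Sec Y (ξ i))) (e : ι ⊕ κ ≃ μ)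
    (ea : ∀ i, χ i = ξ (e (.inl i))) (eb : ∀ i, χ' i = ξ (e (.inr i))) :
    pull ((wlS hχ hχ' hξ e ea eb).h1 Y).f (xm (lam Y χ hχ) (lam Y χ' hχ')) = lam Y ξ hξ :=
  sum_lam hχ hχ' hξ hS (a := fun i => e (.inl i)) (b := fun i => e (.inr i))
    (by convert e.bijective using 1; ext (i | i) <;> rfl) ea eb _ (fun _ => rfl) fun _ _ => rfl

/-- relabelling -/
def wlE {χ' : κ → Γ →* Circle} (hχ' : ∀ i, Continuous (χ' i)) (e : ι ≃ κ)
    (ea : ∀ i, χ i = χ' (e i)) : (wl χ' hχ').Iso (wl χ hχ) :=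
  ⟨(Homeomorph.piCongrLeft (Y := fun _ => ℂ) e).symm,
    fun g x => funext fun i => by obtain rfl := funext ea; rfl⟩

theorem wlE_lam {χ' : κ → Γ →* Circle} (hχ' : ∀ i, Continuous (χ' i))
    (hS : ∀ i, Nonempty (Sec Y (χ i))) (e : ι ≃ κ) (ea : ∀ i, χ i = χ' (e i)) :
    pull ((wlE hχ hχ' e ea).h1 Y).f (lam Y χ hχ) = lam Y χ' hχ' :=
  pull_lam hχ hχ' hS e.bijective (.id _) (fun g y => ⟨g, rfl, fun i => by rw [ea]⟩) _
    (fun _ => rfl) fun _ _ => rfl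

/-- one character -/
def wl1 [Unique ι] : (wl χ hχ).Iso (ch (χ default) (hχ default)) :=
  ⟨Homeomorph.funUnique ι ℂ, fun _ _ => rfl⟩

theorem wl1_lam [Unique ι] :
    pull ((wl1 hχ).h1 Y).f (lam1 Y (χ default) (hχ default)) = lam Y χ hχ :=
  one_lam hχ _ (fun _ => rfl) fun _ _ => rfl

/-- the class on the product space of `smd` -/
theorem smd_lam (hS : ∀ i, Nonempty (Sec Y (χ i))) (U : LS Γ) :
    pull (smd Y (wl χ hχ) U).q (lam Y χ hχ) = lam (Y.prod U.sph) χ hχ :=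
  pull_lam (Y' := Y.prod U.sph) hχ hχ hS Function.bijective_id .fst
    (fun g _ => ⟨g, rfl, fun _ => rfl⟩) _ (fun _ => rfl) fun _ _ => rfl

theorem sec_prod {ξ : Γ →* Circle} (h : Nonempty (Sec Y ξ)) (Z : GS Γ) :
    Nonempty (Sec (Y.prod Z) ξ) :=
  EqC.sec (Y' := Y.prod Z) (f := .fst) (fun g _ => ⟨g, rfl, rfl⟩) h

/-- the zero section -/
def z0 (Y : GS Γ) (V : Rep Γ) : C(Y.Q, (Sb Y V.ls).E) :=
  GS.qmap _ (Y.prod V.ls.sph) ⟨fun y => (y, ((0 : V.W) : OnePoint V.W)),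
    continuous_id.prodMk continuous_const⟩ fun g y =>
      ⟨g, Prod.ext rfl (congrArg OnePoint.some (map_zero (V.ρ g)))⟩

theorem z0_pr (V : Rep Γ) (y : Y.Z) : z0 Y V (Y.pr y) = pt Y V.ls y ((0 : V.W) : OnePoint V.W) := rfl
theorem p_z0 (V : Rep Γ) (x : Y.Q) : (Sb Y V.ls).p (z0 Y V x) = x := by
  obtain ⟨y, rfl⟩ := Y.pr_surj x; rfl

theorem z0_lam (hS : ∀ i, Nonempty (Sec Y (χ i))) :
    pull (z0 Y (Rep.wt χ hχ)) (lam Y χ hχ) = ∏ i, (1 - Lc Y (χ i)) := zero_lam hχ hS _ fun _ => rfl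

/-- **the Thom isomorphism for sums of characters** -/
theorem th_lam (T : ∀ (Y : GS Γ) (ξ : Γ →* Circle) (hξ : Continuous ξ), Nonempty (Sec Y ξ) →
    (Sb Y (ch ξ hξ)).Th (lam1 Y ξ hξ)) (hS : ∀ i, Nonempty (Sec Y (χ i))) :
    (Sb Y (wl χ hχ)).Th (lam Y χ hχ) := by
  classical
  induction hn : Fintype.card ι generalizing ι with
  | zero =>
    have := Fintype.card_eq_zero_iff.1 hn
    refine (Ex.th_pt (z0 Y (Rep.wt χ hχ)) (p_z0 _) (sb_ind (fun y => .inl ⟨Y.pr y, rfl⟩)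
      fun y w => .inr ⟨Y.pr y, ?_⟩) (rd_lam _ _ _) ?_).1
    · exact congrArg (fun w : ι → ℂ => pt Y (wl χ hχ) y (w : OnePoint (ι → ℂ)))
        (Subsingleton.elim _ _)
    · rw [z0_lam hχ hS, Fintype.prod_empty]
  | succ n ih =>
    obtain ⟨i₀⟩ := Fintype.card_pos_iff.1 (by rw [hn]; exact n.succ_pos : 0 < Fintype.card ι)
    let e : Unit ⊕ {i // i ≠ i₀} ≃ ι :=
      ((Equiv.sumComm _ _).trans (Equiv.optionEquivSumPUnit _).symm).trans (Equiv.optionSubtypeNe i₀)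
    have one : ∀ Z : GS Γ, Nonempty (Sec Z (χ i₀)) →
        (Sb Z (wl (fun _ : Unit => χ i₀) fun _ => hχ i₀)).Th (lam Z _ fun _ => hχ i₀) := fun Z h => by
      rw [← wl1_lam]; exact th_iso _ (fun _ _ => rfl) (T Z _ _ h)
    rw [← wlS_lam (χ := fun _ : Unit => χ i₀) (fun _ => hχ i₀) (χ' := fun i : {i // i ≠ i₀} => χ i)
      (fun i => hχ i) hχ hS e (fun _ => rfl) fun _ => rfl]
    refine th_iso _ (fun _ _ => rfl) (SmD.th _ (one Y (hS i₀)) ?_ (ih _ (fun i => hS i) ?_))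
    · rw [smd_lam _ fun _ => hS i₀]; exact one _ (sec_prod (hS i₀) _)
    · rw [Fintype.card_subtype_compl, hn, Fintype.card_subtype_eq]; rfl

end Crest.Agent.N218.K
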