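import Crest.Agent.N218.K.Cp2

/-!
# Row 218, block D0 (helper56): K-theory of lens space bundles
-/

set_option autoImplicit false
set_option linter.unusedVariables false

open Crest.Agent.R204.K357 Crest.Agent.R204.Ex837 Topology Set OnePoint ComplexConjugate Polynomial

noncomputable section

namespace Crest.Agent.N218.K.Cp

variable {Γ Γ' : Type} [Group Γ] [TopologicalSpace Γ] [CompactSpace Γ] [Group Γ']
  [TopologicalSpace Γ'] [CompactSpace Γ'] (Y : GS Γ) (χ : Γ →* Circle) (hχ : Continuous χ)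
  (φ : Γ' →* Γ) (hφ : Continuous φ) (r : ℕ)

/-- the lens space bundle -/
abbrev YL : GS Γ' := YS (Y.res φ hφ) (χ.comp φ) (hχ.comp hφ) r

/-- projection to the projective bundle -/
def aL : C((YL Y χ hχ φ hφ r).Q, (YS Y χ hχ r).Q) := GS.qmap _ _ (.id _) fun g _ => ⟨φ g, rfl⟩
/-- the same for the sphere bundles -/
def aP : C((YP (Y.res φ hφ) (χ.comp φ) (hχ.comp hφ) r).E, (YP Y χ hχ r).E) :=
  GS.qmap _ _ (.id _) fun g _ => ⟨φ g, rfl⟩
/-- projection to the base -/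
def piL : C((YL Y χ hχ φ hφ r).Q, Y.Q) := (piB Y χ hχ r).comp (aL Y χ hχ φ hφ r)
/-- the line bundle -/
abbrev LL' : KX (YL Y χ hχ φ hφ r).Q := Lc (YL Y χ hχ φ hφ r) (χ.comp φ)

omit [CompactSpace Γ] [CompactSpace Γ'] in
theorem eqC : EqC (Y := YS Y χ hχ r) (Y' := YL Y χ hχ φ hφ r) (.id _) (χ.comp φ) χ :=
  fun g _ => ⟨φ g, rfl, rfl⟩

omit [CompactSpace Γ] [CompactSpace Γ'] in
theorem aL_L : pull (aL Y χ hχ φ hφ r) (Lc (YS Y χ hχ r) χ) = LL' Y χ hχ φ hφ r :=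
  pull_Lc ⟨spS Y χ hχ r⟩ (eqC Y χ hχ φ hφ r) _ fun _ => rfl

omit [CompactSpace Γ] [CompactSpace Γ'] in
theorem aL_ev (p : (KX Y.Q)[X]) :
    pull (aL Y χ hχ φ hφ r) (eval₂ (pull (piB Y χ hχ r)) (Lc (YS Y χ hχ r) χ) p) =
      eval₂ (pull (piL Y χ hχ φ hφ r)) (LL' Y χ hχ φ hφ r) p := by
  rw [ev_hom _ _ _ (pull (piL Y χ hχ φ hφ r)) fun a => (pull_comp _ _ a).symm, aL_L]

/-- the axis -/
def ax1 (r : ℕ) : C(US 1, US (r + 1)) :=
  ⟨fun u => ⟨Fin.cons (u.1 0) 0, by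
    have := u.2
    simpa [Un1, Fin.sum_univ_succ] using this⟩, by
    refine Continuous.subtype_mk (continuous_pi fun i => ?_) _
    refine Fin.cases ?_ (fun i => ?_) i
    · simp only [Fin.cons_zero]; exact (continuous_apply 0).comp continuous_subtype_val
    · simp only [Fin.cons_succ]; exact continuous_const⟩

theorem ax1_inj : Function.Injective (ax1 r) := fun u v h => Subtype.ext (funext fun i => by
  rw [Subsingleton.elim i 0]; exact congrArg (fun z : US (r + 1) => z.1 0) h)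

omit [CompactSpace Γ] in
theorem ax1_act (g : Γ) (u : US 1) :
    (Sp χ hχ (r + 1)).act g (ax1 r u) = ax1 r ((Sp χ hχ 1).act g u) :=
  Subtype.ext (funext fun i => Fin.cases rfl (fun _ => mul_zero _) i)

/-- the inclusion of the axis -/
def iA : C((YS Y χ hχ 1).Q, (YS Y χ hχ (r + 1)).Q) :=
  GS.qmap _ _ ⟨fun z : Y.Z × US 1 => (z.1, ax1 r z.2), by fun_prop⟩
    fun g z => ⟨g, Prod.ext rfl (ax1_act χ hχ r g z.2)⟩

theorem iA_inj : Function.Injective (iA Y χ hχ r) := fun a b h => by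
  obtain ⟨y, u, rfl⟩ := pb_surj _ _ _ _ a
  obtain ⟨y', u', rfl⟩ := pb_surj _ _ _ _ b
  obtain ⟨g, e, e'⟩ := (pb_eq Y χ hχ (r + 1)).1 h
  exact (pb_eq ..).2 ⟨g, e, ax1_inj r ((ax1_act χ hχ r g u).symm.trans e')⟩

theorem iA_range (y : Y.Z) (u : US (r + 1)) :
    pb Y χ hχ (r + 1) y u ∈ range (iA Y χ hχ r) ↔ Ax r u := by
  refine ⟨fun ⟨b, e⟩ => ?_, fun h => ?_⟩
  · obtain ⟨y', u', rfl⟩ := pb_surj _ _ _ _ b
    obtain ⟨g, -, rfl⟩ := (pb_eq Y χ hχ (r + 1)).1 e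
    exact (ax_act χ hχ r g).2 fun _ => rfl
  · obtain ⟨z, e⟩ := h.circ
    refine ⟨pb Y χ hχ 1 y ⟨fun _ => z, by simp [Un1, mul_comm, circ_conj]⟩,
      congrArg (pb Y χ hχ (r + 1) y) (Subtype.ext (funext fun i => ?_))⟩
    exact Fin.cases e.symm (fun i => (h i).symm) i

theorem f1_L : pull (f1 Y χ hχ r) (Lc (YS Y χ hχ (r + 1)) χ) = Lc (YD Y χ hχ r) χ :=
  pull_Lc (Y' := YD Y χ hχ r) ⟨spS Y χ hχ (r + 1)⟩
    (f := ⟨fun z : (Y.Z × US r) × UD => (z.1.1, jn r (z.1.2, z.2)), by fun_prop⟩)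
    (fun g z => ⟨g, Prod.ext rfl (jn_act χ hχ r g z.1.2 z.2), rfl⟩) _ fun _ => rfl

theorem f2_L : pull (f2 Y χ hχ r) (pull (YP Y χ hχ r).p (Lc (YS Y χ hχ r) χ)) =
    Lc (YD Y χ hχ r) χ := by
  rw [← pull_comp]
  exact pull_Lc (Y' := YD Y χ hχ r) ⟨spS Y χ hχ r⟩ (f := ContinuousMap.fst)
    (fun g z => ⟨g, rfl, rfl⟩) _ fun _ => rfl

variable {Y χ}

/-- the polynomials in `L` exhaust the K-theory -/
theorem ln_surj (T : THOM1) (H : StS Y χ)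
    (h1 : ∀ x : KX (YL Y χ hχ φ hφ 1).Q, ∃ k, pull (piL Y χ hχ φ hφ 1) k = x) (r : ℕ) :
    ∀ x, ∃ p, eval₂ (pull (piL Y χ hχ φ hφ r)) (LL' Y χ hχ φ hφ r) p = x := by
  induction r with
  | zero => exact fun x => ⟨0, (kx_empty _).trans (kx_empty _).symm⟩
  | succ r ih =>
    intro x
    let Y' := Y.res φ hφ
    let χ' := χ.comp φ
    have hχ' : Continuous χ' := hχ.comp hφ
    obtain ⟨k, hk⟩ := h1 (pull (iA Y' χ' hχ' r) x)
    obtain ⟨z, z0, hz⟩ := exc_transfer (exc1 Y' χ' hχ' r (iA Y' χ' hχ' r) (iA_range Y' χ' hχ' r))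
      (exc2 Y' χ' hχ' r) (cr_surj (iA_inj Y' χ' hχ' r))
      (stLift_of_section _ (cr (YP Y' χ' hχ' r).p) fun a =>
        ContinuousMap.ext fun b => congrArg a ((YP Y' χ' hχ' r).ps b))
      (cr_surj (Function.LeftInverse.injective (piB_jB hχ r H))) (cr (aL Y χ hχ φ hφ (r + 1)))
      (cr ((cP hχ r H).comp (aP Y χ hχ φ hφ r)))
      (fun b hb => ContinuousMap.ext fun w => by
        obtain ⟨y, u, rfl⟩ := pb_surj _ _ _ _ w
        exact (congrArg b (ax_eq hχ r H y (u := ax1 r u) fun _ => rfl).symm).trans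
          (DFunLike.congr_fun hb (Y.pr y)))
      (fun b hb => ContinuousMap.ext fun w => by
        obtain ⟨y, u, rfl⟩ := pb_surj _ _ _ _ w
        exact (congrArg b (cP_s hχ r H (pb Y χ hχ r y u))).trans (DFunLike.congr_fun hb _))
      (fun b => ContinuousMap.ext fun w => by
        obtain ⟨y, u, w, rfl⟩ := pd_surj _ _ _ _ w
        exact congrArg b (cP_f2 hχ r H (pd Y χ hχ r y u w)).symm)
      (t := 1 - Lc (YS Y χ hχ (r + 1)) χ) (by rw [← pull_kr, map_sub, map_one, jB_L, sub_self])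
      (x := x - pull (piL Y χ hχ φ hφ (r + 1)) k) (by
        rw [← pull_kr, map_sub, ← hk, pull_pull _ _ (piL Y χ hχ φ hφ 1) fun w => by
          obtain ⟨y, u, rfl⟩ := pb_surj _ _ _ _ w; rfl, sub_self])
    obtain ⟨b, hb, -⟩ := (T _ _ χ' hχ' ⟨spS Y' χ' hχ' r⟩).2 z z0
    obtain ⟨a, rfl⟩ := ih b
    have := hz (eval₂ (pull (piL Y χ hχ φ hφ (r + 1))) (LL' Y χ hχ φ hφ (r + 1)) a)
      (pull (YP Y' χ' hχ' r).p (eval₂ (pull (piL Y χ hχ φ hφ r)) (LL' Y χ hχ φ hφ r) a)) (by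
        rw [← pull_kr, ← pull_kr, ev_hom _ _ _
          (pull ((piL Y χ hχ φ hφ (r + 1)).comp (f1 Y' χ' hχ' r))) fun a => (pull_comp _ _ a).symm,
          ev_hom _ _ _ (pull ((piL Y χ hχ φ hφ r).comp (YP Y' χ' hχ' r).p))
            fun a => (pull_comp _ _ a).symm,
          ev_hom _ _ _ (pull ((piL Y χ hχ φ hφ (r + 1)).comp (f1 Y' χ' hχ' r))) fun a =>
            pull_pull _ _ _ (fun w => by obtain ⟨y, u, w, rfl⟩ := pd_surj _ _ _ _ w; rfl) a,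
          f1_L, f2_L]) (by
        rw [hb, ← pull_kr, pull_comp, map_sub, map_one, ← lam_cP, pull_lam1 hχ hχ' ⟨spS Y χ hχ r⟩
          (eqC Y χ hχ φ hφ r) (aP Y χ hχ φ hφ r) fun _ _ => rfl, Ex.sm, mul_comm])
    refine ⟨C k + (1 - X) * a, ?_⟩
    rw [← pull_kr, map_sub, map_one, aL_L] at this
    rw [eval₂_add, eval₂_C, eval₂_mul, eval₂_sub, eval₂_one, eval₂_X, ← this, add_sub_cancel]

theorem circ_root {q : ℕ} (hq : q ≠ 0) (v : Circle) : ∃ z : Circle, z ^ q = v := by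
  obtain ⟨t, rfl⟩ := Circle.exp_surjective v
  exact ⟨Circle.exp (t / q), by
    rw [← Circle.exp_nsmul, nsmul_eq_mul, mul_div_cancel₀ _ (Nat.cast_ne_zero.2 hq)]⟩

/-- the kernel -/
theorem ln_ker (T : THOM1) (H : StS Y χ) {q : ℕ} (hq : q ≠ 0)
    (hr : ∀ g, χ g ^ q = 1 ↔ g ∈ φ.range) (p : (KX Y.Q)[X])
    (hp : eval₂ (pull (piL Y χ hχ φ hφ r)) (LL' Y χ hχ φ hφ r) p = 0) :
    ∃ a b, p = (1 - X) ^ r * a + (1 - X ^ q) * b := by
  have hψ : Continuous (χ ^ q : Γ →* Circle) := hχ.pow q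
  let B := YS Y χ hχ r
  let P := Sb B (ch (χ ^ q) hψ)
  let t : P.E → ℝ := fun e => (Sec.aS B hψ e).re
  have ht : Continuous t := Complex.continuous_re.comp (Sec.aS B hψ).continuous
  have tc : ∀ y (v : ℂ), t (pt B (ch (χ ^ q) hψ) y (v : OnePoint ℂ)) = (1 + ‖v‖ ^ 2)⁻¹ := fun _ _ => rfl
  have ti : ∀ y, t (pt B (ch (χ ^ q) hψ) y ∞) = 0 := fun _ => rfl
  let ι : C((YL Y χ hχ φ hφ r).Q, P.E) := GS.qmap _ _
    ⟨fun z : Y.Z × US r => (z, (((1 : ℂ)) : OnePoint ℂ)), by fun_prop⟩ fun g z =>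
      ⟨φ g, Prod.ext rfl (congrArg (fun w : ℂ => (w : OnePoint ℂ)) (by
        change ((χ (φ g) ^ q : Circle) : ℂ) * 1 = 1
        rw [(hr _).2 ⟨g, rfl⟩]; simp))⟩
  have ιt : ∀ c, t (ι c) = 1 / 2 := fun c => by
    obtain ⟨y, rfl⟩ := (YL Y χ hχ φ hφ r).pr_surj c
    exact (tc y 1).trans (by norm_num)
  have ιi : Function.Injective ι := fun c c' e => by
    obtain ⟨y, rfl⟩ := (YL Y χ hχ φ hφ r).pr_surj c
    obtain ⟨y', rfl⟩ := (YL Y χ hχ φ hφ r).pr_surj c'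
    obtain ⟨g, e1, e2⟩ := (pt_iff (Y := B) (M := ch (χ ^ q) hψ)).1 e
    obtain ⟨g', rfl⟩ := (hr g).1 (Circle.ext (by simpa using
      (show ((χ g ^ q : Circle) : ℂ) * 1 = 1 from coe_injective e2)))
    exact (YL Y χ hχ φ hφ r).pr_eq.2 ⟨g', e1⟩
  have ιs : ∀ e, t e = 1 / 2 → ∃ c, ι c = e := by
    refine sb_ind (fun y h => by rw [ti] at h; norm_num at h) fun y (v : ℂ) h => ?_
    have n : ‖v‖ = 1 := by
      have h := (tc y v).symm.trans h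
      field_simp at h
      nlinarith [norm_nonneg v]
    obtain ⟨z, hz⟩ := circ_root hq ⟨v, mem_sphere_zero_iff_norm.2 n⟩
    obtain ⟨g, -, hg⟩ := H y.1 z
    refine ⟨(YL Y χ hχ φ hφ r).pr (B.act g⁻¹ y), (pt_iff (Y := B)).2 ⟨g, B.ls.act_inv g y,
      congrArg (fun w : ℂ => (w : OnePoint ℂ)) ?_⟩⟩
    change ((χ g ^ q : Circle) : ℂ) * 1 = v
    rw [hg, hz, mul_one]
  haveI : CompactSpace {e // 1 / 2 ≤ t e} :=
    isCompact_iff_compactSpace.1 (isClosed_le continuous_const ht).isCompact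
  haveI : CompactSpace {e // t e ≤ 1 / 2} :=
    isCompact_iff_compactSpace.1 (isClosed_le ht continuous_const).isCompact
  let i : C({e // 1 / 2 ≤ t e}, P.E) := ⟨Subtype.val, continuous_subtype_val⟩
  let j : C({e // t e ≤ 1 / 2}, P.E) := ⟨Subtype.val, continuous_subtype_val⟩
  let k : C(_, {e // 1 / 2 ≤ t e}) := ⟨fun c => ⟨ι c, (ιt c).ge⟩, ι.continuous.subtype_mk _⟩
  let l : C(_, {e // t e ≤ 1 / 2}) := ⟨fun c => ⟨ι c, (ιt c).le⟩, ι.continuous.subtype_mk _⟩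
  let S := sqCov i j k l Subtype.val_injective Subtype.val_injective
    (fun e => (le_total (1 / 2) (t e)).imp (fun h => ⟨⟨e, h⟩, rfl⟩) fun h => ⟨⟨e, h⟩, rfl⟩)
    (fun _ => rfl) fun u u' e => by
      obtain ⟨c, hc⟩ := ιs u (le_antisymm ((show u.1 = u'.1 from e) ▸ u'.2) u.2)
      exact ⟨c, Subtype.ext hc, Subtype.ext (hc.trans e)⟩
  set x := eval₂ (pull (piB Y χ hχ r)) (Lc (YS Y χ hχ r) χ) p with hx
  obtain ⟨y, y1, y2⟩ := S.exists_rel (cr_surj (i := k) fun c c' e => ιi (congrArg Subtype.val e))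
    (x := pull (P.p.comp i) x) (by
      change pull k _ = 0
      rw [pull_pull _ _ (aL Y χ hχ φ hφ r) fun c => by
        obtain ⟨y, rfl⟩ := (YL Y χ hχ φ hφ r).pr_surj c; rfl, hx, aL_ev, hp])
  have y1 : pull i y = pull (P.p.comp i) x := y1
  have y2 : pull j y = 0 := y2
  let z0 : C(B.Q, P.E) := GS.qmap _ _ ⟨fun z => (z, (((0 : ℂ)) : OnePoint ℂ)), by fun_prop⟩
    fun g z => ⟨g, Prod.ext rfl (congrArg (fun w : ℂ => (w : OnePoint ℂ)) (mul_zero _))⟩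
  have z2 : ∀ b, 1 / 2 ≤ t (z0 b) := fun b => by
    obtain ⟨y, rfl⟩ := B.pr_surj b
    exact le_of_le_of_eq (by norm_num) (tc y 0).symm
  have s2 : ∀ b, t (P.s b) ≤ 1 / 2 := fun b => by
    obtain ⟨y, rfl⟩ := B.pr_surj b
    exact (ti y).trans_le (by norm_num)
  let z1 : C(B.Q, {e // 1 / 2 ≤ t e}) := ⟨fun b => ⟨z0 b, z2 b⟩, z0.continuous.subtype_mk z2⟩
  let s1 : C(B.Q, {e // t e ≤ 1 / 2}) := ⟨fun b => ⟨P.s b, s2 b⟩, P.s.continuous.subtype_mk s2⟩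
  obtain ⟨b, hb, -⟩ := (T _ B _ hψ (sec_pow ⟨spS Y χ hχ r⟩ q)).2 y (by
    rw [Ex.Rd, ← pull_pull s1 j _ fun _ => rfl, y2, map_zero])
  have zp : ∀ b, P.p (z0 b) = b := fun b => by obtain ⟨y, rfl⟩ := B.pr_surj b; rfl
  have e := congrArg (pull z0) hb
  rw [Ex.sm, map_mul, pull_pull_id _ _ zp, zero_lam1 hψ (sec_pow ⟨spS Y χ hχ r⟩ q) z0 fun _ => rfl,
    Lc_pow ⟨spS Y χ hχ r⟩, ← pull_pull z1 i _ fun _ => rfl, y1, pull_pull_id z1 _ zp] at e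
  obtain ⟨b', rfl⟩ := (cp hχ r T H).1 b
  obtain ⟨a, ha⟩ := ((cp hχ r T H).2 (p - (1 - X ^ q) * b')).1 (by
    rw [eval₂_sub, eval₂_mul, eval₂_sub, eval₂_one, eval₂_X_pow, ← hx, e]; ring)
  exact ⟨a, b', by rw [← ha]; ring⟩

theorem ln_nil (T : THOM1) (H : StS Y χ) : (1 - LL' Y χ hχ φ hφ r) ^ r = 0 := by
  have := congrArg (pull (aL Y χ hχ φ hφ r)) (cp_nil hχ r T H)
  rwa [map_pow, map_sub, map_one, map_zero, aL_L] at this

omit [CompactSpace Γ] [CompactSpace Γ'] in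
theorem ln_pow {q : ℕ} (hr : ∀ g, χ (φ g) ^ q = 1) : LL' Y χ hχ φ hφ r ^ q = 1 := by
  rw [← Lc_pow ⟨spS _ _ _ r⟩]; exact Lc_of_one hr

/-- **K-theory of lens space bundles** -/
theorem ln_pz (T : THOM1) (H : StS Y χ) {q : ℕ} (hq : q ≠ 0)
    (hr : ∀ g, χ g ^ q = 1 ↔ g ∈ φ.range)
    (h1 : ∀ x : KX (YL Y χ hχ φ hφ 1).Q, ∃ k, pull (piL Y χ hχ φ hφ 1) k = x) :
    Al.Pz (pull (piL Y χ hχ φ hφ r)) (LL' Y χ hχ φ hφ r) r q :=
  ⟨ln_surj hχ φ hφ T H h1 r, ln_ker hχ φ hφ r T H hq hr⟩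

end Crest.Agent.N218.K.Cp

end
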