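import Crest.Agent.N218.K.Nf

/-! Row 218, D0 (helper33): stabilisation of the secondary class. -/

open Crest.Agent.R204 unitInterval Topology Filter Set OnePoint

noncomputable section

namespace Crest.Agent.N218.K

section ex
variable {X : Type} [TopologicalSpace X] {A B U SA SB S S' S'' : Ex X} {DA : SmD A U SA}
  {DB : SmD B U SB} {F : H1 A B} {F' : H1 SA SB}

theorem Cn.ev_inc (F : H1 A B) (D : SD A S) (x : KX S.E) :
    KA (Cn.ev F) (KA (B := Cn F) (Cn.inc F D) x) = pull S.s x :=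
  ka_ka _ _ (cR S.s) (fun a => ContinuousMap.ext fun x => congrArg (fun y => a (S.s y)) (B.ps x)) x

theorem Cn.ev_res (F : H1 A B) (μ : KC (Cn F)) : KA (Cn.ev F) μ = pull B.s (KA (Cn.res F) μ) :=
  ka_comp _ _ μ

namespace Stab
variable (T : Stab DA DB F F') (D : SD A S) (D' : SD SA S') (DS : SmD S U S'') (K : SD DA.P DS.P)
  (hq : ∀ z t, DS.q (K.c (z, t)) = D.c (DA.q z, t)) (R : C(S'.E, S''.E))
  (hR : ∀ z t, R (D'.c (DA.c z, t)) = DS.c (K.c (z, t))) (hs : ∀ x, R (S'.s x) = S''.s x)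
include hq hR hs

/-- compatibility of the cone product with the suspension -/
theorem inc_mul {x : KX S.E} {m : KX U.E} (hx : S.Rd x) (hm : U.Rd m) :
    KA (B := Cn F') (Cn.inc F' D') (pull R (DS.mul x m)) =
      T.pd.mul (KA (B := Cn F) (Cn.inc F D) x) m := by
  have := DS.pd.natural T.pd (Cn.inc F D) (AlgHom.id ℂ _) (Cn.inc T.G K)
    ((Cn.inc F' D').comp (cR R))
    (fun b => Cn.ext' (fun z t => congrArg b (hq z t)) fun w =>
      congrArg b ((DS.qs _).trans (congrArg S.s (DB.pq w).symm)))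
    (fun b => Cn.ext' (fun z t => congrArg b (K.hp (z, t))) fun w => congrArg b (DS.P.ps _))
    (fun s => Cn.ext' (fun z t => congrArg s (hR z t).symm) fun w => congrArg s
      ((DS.cs _).trans ((congrArg S''.s ((DB.pc w).trans (DB.pq w)).symm).trans (hs _).symm)))
    hx hm ((Cn.ev_inc F D x).trans hx) ((congrArg _ (ka_id m)).trans hm)
  rw [ka_id, ka_comp] at this
  exact this

include T in
/-- **stabilisation of the secondary class** -/
theorem ecl {l : KX B.E} {ρ τ : KX X} {x : KX S.E} {m : KX U.E} (hl : B.Rd l) (hm : U.Rd m)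
    (e : ps _ m = U.sm τ m) (h : Ecl F D l ρ x) :
    Ecl F' D' (DB.mul l m) (ρ * τ) (pull R (DS.mul x (ps _ m))) := by
  obtain ⟨hx, μ, h1, h2⟩ := h
  have hμ : KA (Cn.ev F) μ = 0 := by rw [Cn.ev_res, h1]; exact hl
  refine ⟨?_, T.pd.mul μ m, by rw [T.res_mul hμ hm, h1], ?_⟩
  · unfold Ex.Rd
    rw [pull_pull _ _ _ hs]; exact DS.rd_mul _ _
  · rw [T.inc_mul D D' DS K hq R hR hs hx hm.ps, ← h2, T.pd.sub_mul]
    have a : T.pd.mul (KA (B := Cn F) (Cn.bas F) ρ * μ) (ps _ m) =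
        KA (B := Cn F') (Cn.bas F') (ρ * τ) * T.pd.mul μ m := by
      rw [e, map_mul, mul_assoc]
      exact (T.pd.smul_mul ρ μ _).trans (congrArg _ (T.pd.mul_smul τ μ m))
    rw [a]
    exact congrArg (· - _) (T.pd.psi_mul 3 μ m)

end Stab
end ex

variable {Γ : Type} [Group Γ] [TopologicalSpace Γ] [CompactSpace Γ] {Y : GS Γ} {V W U : LS Γ}

/-- **stabilisation of the secondary class on sphere bundles** -/
theorem ecl_stab (E : EqM Y V Y W id (.id _)) {F : H1 (Sb Y V) (Sb Y W)}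
    (hF : ∀ y w, F.f (pt Y V y w) = pt Y W y (E.f (y, w)))
    {F' : H1 (Sb Y (V.prod U)) (Sb Y (W.prod U))}
    (hF' : ∀ y w u, F'.f (pt Y _ y (wdg (w, u))) = pt Y _ y (wdg (E.f (y, w), u)))
    (R : C((Sb Y ((V.prod U).prod (LS.triv Γ ℝ))).E, (Sb Y ((V.prod (LS.triv Γ ℝ)).prod U)).E))
    (hR : ∀ y w u t, R (pt Y _ y (wdg (wdg (w, u), t))) = pt Y _ y (wdg (wdg (w, t), u)))
    {l : KS Y W} {ρ τ : KX Y.Q} {x : KS Y (V.prod (LS.triv Γ ℝ))} {m : KS Y U}
    (hl : (Sb Y W).Rd l) (hm : (Sb Y U).Rd m) (e : ps _ m = (Sb Y U).sm τ m)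
    (h : Ecl F (sd Y V) l ρ x) :
    Ecl F' (sd Y (V.prod U)) (xm l m) (ρ * τ) (pull R (xm x (ps _ m))) := by
  refine (stab U E F hF F' hF').ecl (sd Y V) (sd Y (V.prod U)) (smd Y (V.prod (LS.triv Γ ℝ)) U)
    (sd (Y.prod U.sph) V) (fun z t => ?_) R (fun z t => ?_) (fun x => ?_) hl hm e h
  · obtain ⟨⟨y, u⟩, w, rfl⟩ := pt_surj z; rfl
  · obtain ⟨⟨y, u⟩, w, rfl⟩ := pt_surj z; exact hR y w u (thI t)
  · obtain ⟨y, rfl⟩ := Y.pr_surj x; exact hR y ∞ ∞ ∞

/-- the shuffle `(V × U) × T ≅ (V × T) × U` -/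
def LS.Iso.shf (V U T : LS Γ) : ((V.prod U).prod T).Iso ((V.prod T).prod U) :=
  ⟨⟨⟨fun z => ((z.1.1, z.2), z.1.2), fun z => ((z.1.1, z.2), z.1.2), fun _ => rfl, fun _ => rfl⟩,
    (continuous_fst.fst.prodMk continuous_snd).prodMk continuous_fst.snd,
    (continuous_fst.fst.prodMk continuous_snd).prodMk continuous_fst.snd⟩, fun _ _ => rfl⟩

theorem shf_pt {T : LS Γ} (y : Y.Z) (w : OnePoint V.Z) (u : OnePoint U.Z) (t : OnePoint T.Z) :
    ((LS.Iso.shf V U T).h1 Y).f (pt Y _ y (wdg (wdg (w, u), t))) = pt Y _ y (wdg (wdg (w, t), u)) :=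
  congrArg (pt Y ((V.prod T).prod U) y) (by
    induction w using OnePoint.rec <;> induction u using OnePoint.rec <;>
      induction t using OnePoint.rec <;> rfl)

theorem assoc_pt {T : LS Γ} (y : Y.Z) (w : OnePoint V.Z) (u : OnePoint U.Z) (t : OnePoint T.Z) :
    ((LS.Iso.assoc V U T).symm.h1 Y).f (pt Y _ y (wdg (w, wdg (u, t)))) =
      pt Y _ y (wdg (wdg (w, u), t)) :=
  congrArg (pt Y ((V.prod U).prod T) y) (by
    induction w using OnePoint.rec <;> induction u using OnePoint.rec <;>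
      induction t using OnePoint.rec <;> rfl)

theorem xm_assoc' {T : LS Γ} {a : KS Y V} {b : KS Y U} {c : KS Y T} (ha : (Sb Y V).Rd a)
    (hb : (Sb Y U).Rd b) (hc : (Sb Y T).Rd c) :
    pull ((LS.Iso.assoc V U T).symm.h1 Y).f (xm (xm a b) c) = xm a (xm b c) :=
  xm_assoc _ assoc_pt ha hb hc

/-- a proper fibrewise map as an `EqM` -/
def Pm.eqm {g : Y.Z × V.Z → OnePoint W.Z} (h : Pm Y V W g) : EqM Y V Y W id (.id _) where
  f := ⟨opx g, continuous_opx h.ct h.pr⟩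
  hg _ _ := rfl
  hf γ y w := by
    induction w using OnePoint.rec with
    | infty => rfl
    | coe w => exact h.eq γ y w
  hi _ := rfl

/-- the same for `Rg` -/
theorem Rg.ecl_stab {g : Y.Z × V.Z → OnePoint W.Z} (h : Pm Y V W g) {F : H1 (Sb Y V) (Sb Y W)}
    (hF : Rg F g) {F' : H1 (Sb Y (V.prod U)) (Sb Y (W.prod U))}
    (hF' : Rg F' fun z => wdg (g (z.1, z.2.1), (z.2.2 : OnePoint U.Z)))
    {l : KS Y W} {ρ τ : KX Y.Q} {x : KS Y (V.prod (LS.triv Γ ℝ))} {m : KS Y U}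
    (hl : (Sb Y W).Rd l) (hm : (Sb Y U).Rd m) (e : ps _ m = (Sb Y U).sm τ m)
    (k : Ecl F (sd Y V) l ρ x) : Ecl F' (sd Y (V.prod U)) (xm l m) (ρ * τ)
      (pull ((LS.Iso.shf V U (LS.triv Γ ℝ)).h1 Y).f (xm x (ps _ m))) := by
  refine K.ecl_stab h.eqm hF.opx (fun y w u => ?_) _ shf_pt hl hm e k
  induction w using OnePoint.rec with
  | infty => exact F'.f_inf y
  | coe w =>
    induction u using OnePoint.rec with
    | infty => exact (F'.f_inf y).trans (congrArg (pt Y (W.prod U) y) (wdg_r _).symm)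
    | coe u => exact hF' y (w, u)

/-- stabilisation of the primary class -/
theorem Rg.pull_xm {g : Y.Z × V.Z → OnePoint W.Z} (h : Pm Y V W g) {F : H1 (Sb Y V) (Sb Y W)}
    (hF : Rg F g) {F' : H1 (Sb Y (V.prod U)) (Sb Y (W.prod U))}
    (hF' : Rg F' fun z => wdg (g (z.1, z.2.1), (z.2.2 : OnePoint U.Z)))
    {l : KS Y W} {m : KS Y U} (hl : (Sb Y W).Rd l) (hm : (Sb Y U).Rd m) :
    pull F'.f (xm l m) = xm (pull F.f l) m := by
  have T := stab U h.eqm F hF.opx F' fun y w u => by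
    induction w using OnePoint.rec with
    | infty => exact F'.f_inf y
    | coe w =>
      induction u using OnePoint.rec with
      | infty => exact (F'.f_inf y).trans (congrArg (pt Y (W.prod U) y) (wdg_r _).symm)
      | coe u => exact hF' y (w, u)
  have := (smd Y V U).natural (smd Y W U) F.f (.id _) T.G.f F'.f T.hq T.G.hp
    (fun z => (T.hc z).symm) hl hm (hl.hm F) (by rw [pull_id]; exact hm)
  rwa [pull_id] at this

end Crest.Agent.N218.K
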