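import Crest.Agent.N218.K.Pup

/-!
# N218/K/Pu2: exactness at `K(S)`, and the calculus of `Ecl` (helper94)
-/

set_option autoImplicit false

open Crest.Agent.R204 Crest.Agent.R204.K357 unitInterval Topology Set
open Crest.Agent.N218.Pw

noncomputable section

namespace Crest.Agent.N218.K.Pup

section fb
variable {P Q R T : Type} [CommRing P] [CommRing Q] [CommRing R] [CommRing T] [Algebra ℂ P]
  [Algebra ℂ Q] [Algebra ℂ R] [Algebra ℂ T]

/-- fibre products, as subalgebras -/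
def fbS (φ : AH P R) (ψ : AH Q R) : Subalgebra ℂ (P × Q) where
  carrier := {z | φ z.1 = ψ z.2}
  mul_mem' := fun {a b} (ha : _ = _) (hb : _ = _) => by
    change φ (a.1 * b.1) = ψ (a.2 * b.2)
    rw [map_mul, map_mul, ha, hb]
  add_mem' := fun {a b} (ha : _ = _) (hb : _ = _) => by
    change φ (a.1 + b.1) = ψ (a.2 + b.2)
    rw [map_add, map_add, ha, hb]
  algebraMap_mem' c := (φ.commutes c).trans (ψ.commutes c).symm

/-- fibre products -/
def Fb (φ : AH P R) (ψ : AH Q R) : Type := fbS φ ψ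

instance (φ : AH P R) (ψ : AH Q R) : CommRing (Fb φ ψ) := inferInstanceAs (CommRing (fbS φ ψ))
instance (φ : AH P R) (ψ : AH Q R) : Algebra ℂ (Fb φ ψ) := inferInstanceAs (Algebra ℂ (fbS φ ψ))

/-- first component -/
def fb1 (φ : AH P R) (ψ : AH Q R) : AH (Fb φ ψ) P := (AlgHom.fst ℂ _ _).comp (fbS φ ψ).val
/-- second component -/
def fb2 (φ : AH P R) (ψ : AH Q R) : AH (Fb φ ψ) Q := (AlgHom.snd ℂ _ _).comp (fbS φ ψ).val

theorem fb12 {φ : AH P R} {ψ : AH Q R} (z : Fb φ ψ) : φ (fb1 φ ψ z) = ψ (fb2 φ ψ z) :=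
  Subtype.property (p := fun z => z ∈ fbS φ ψ) z

theorem fb_ext {φ : AH P R} {ψ : AH Q R} {z z' : Fb φ ψ} (h1 : fb1 φ ψ z = fb1 φ ψ z')
    (h2 : fb2 φ ψ z = fb2 φ ψ z') : z = z' :=
  Subtype.ext (p := fun z => z ∈ fbS φ ψ) (Prod.ext h1 h2)

/-- maps into a fibre product -/
def fbHom (φ : AH P R) (ψ : AH Q R) (a : AH T P) (b : AH T Q) (h : ∀ t, φ (a t) = ψ (b t)) :
    AH T (Fb φ ψ) := (a.prod b).codRestrict (fbS φ ψ) h

theorem fb1_hom (φ : AH P R) (ψ : AH Q R) (a : AH T P) (b : AH T Q) (h) (t : T) :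
    fb1 φ ψ (fbHom φ ψ a b h t) = a t := rfl
theorem fb2_hom (φ : AH P R) (ψ : AH Q R) (a : AH T P) (b : AH T Q) (h) (t : T) :
    fb2 φ ψ (fbHom φ ψ a b h t) = b t := rfl

theorem fb_ex {φ : AH P R} {ψ : AH Q R} (u : P) (v : Q) (h : φ u = ψ v) :
    ∃ z : Fb φ ψ, fb1 φ ψ z = u ∧ fb2 φ ψ z = v := ⟨(⟨(u, v), h⟩ : fbS φ ψ), rfl, rfl⟩

theorem fb1_surj {φ : AH P R} {ψ : AH Q R} (h : Function.Surjective ψ) :
    Function.Surjective (fb1 φ ψ) := fun u => by
  obtain ⟨v, hv⟩ := h (φ u)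
  obtain ⟨z, hz, -⟩ := fb_ex u v hv.symm
  exact ⟨z, hz⟩

end fb

variable {X : Type} [TopologicalSpace X] {A B S S' : Ex X}

/-- functions on the double cone `CA ∪ B ∪ CB` -/
abbrev Dc (F : H1 A B) : Type := Fb (rs F) (rs (idH B))

/-- first component -/
def d1 (F : H1 A B) : AH (Dc F) (Cn F) := fb1 _ _
/-- second component -/
def d2 (F : H1 A B) : AH (Dc F) (Cn (idH B)) := fb2 _ _

theorem d12 {F : H1 A B} (z : Dc F) (b : B.E) : (d1 F z).1.2 b = (d2 F z).1.2 b :=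
  DFunLike.congr_fun (fb12 z) b

theorem d1_surj (F : H1 A B) : Function.Surjective (d1 F) := fb1_surj (res_surj _)

/-- collapse `CA ∪ B` -/
def dk (F : H1 A B) (D' : SD B S') : AH C(S'.E, ℂ) (Dc F) :=
  fbHom _ _ ((bs F).comp (cp S'.s)) (ic (idH B) D') fun _ => ContinuousMap.ext fun _ => rfl

/-- collapse `CB` -/
def dj (F : H1 A B) (D : SD A S) : AH C(S.E, ℂ) (Dc F) :=
  fbHom _ _ (ic F D) ((bs (idH B)).comp (cp S.s)) fun _ => ContinuousMap.ext fun _ => rfl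

/-- the suspension of the target as a pull-back -/
def sqD (F : H1 A B) (D' : SD B S') : SQ C(S'.E, ℂ) (Dc F) C(X, ℂ) (Cn F) where
  p1 := (dk F D').toRingHom
  p2 := (cp S'.s).toRingHom
  al := (d1 F).toRingHom
  be := (bs F).toRingHom
  comm _ := rfl
  lift z c h := by
    have h' : d1 F z = bs F c := h
    obtain ⟨g, h1, h2⟩ := (sqS (idH B) D').lift (d2 F z) c (ContinuousMap.ext fun b => by
      change (d2 F z).1.2 b = c (B.p b)
      rw [← d12, h']; rfl)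
    have h1' : ic (idH B) D' g = d2 F z := h1
    have h2' : cp S'.s g = c := h2
    refine ⟨g, fb_ext ?_ h1', h2⟩
    change bs F (cp S'.s g) = d1 F z
    rw [h2', h']
  inj g g' h1 h2 := (sqS (idH B) D').inj g g' (congrArg (d2 F) h1) h2

/-- the flip of a suspension -/
theorem exists_flip (D : SD A S) : ∃ G : H1 S S, ∀ e t, G.f (D.c (e, t)) = D.c (e, σ t) := by
  obtain ⟨g, hg⟩ := sd_desc D (fun z => D.c (z.1, σ z.2)) (by fun_prop) S.s
    (bd_ind (fun e => by simp only [symm_zero, c_1]) (fun e => by simp only [symm_one, c_0])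
      fun x t => by simp only [c_s, A.ps])
  refine ⟨⟨g, fun y => ?_, fun x => ?_⟩, fun e t => hg (e, t)⟩
  · obtain ⟨z, rfl⟩ := D.surj y
    rw [hg, D.hp]; exact (D.hp z).symm
  · rw [← c_s D x 0, hg, c_s]; rfl

theorem rd_pull (G : H1 A B) {y : KX B.E} (hy : B.Rd y) : A.Rd (pull G.f y) :=
  (pull_pull A.s G.f B.s G.hs y).trans hy

/-- exactness at `K(S)` -/
theorem un2 (F : H1 A B) (D : SD A S) (D' : SD B S') (G : H1 S S')
    (hG : ∀ e t, G.f (D.c (e, t)) = D'.c (F.f e, t)) {x : KX S.E} (_hx : S.Rd x)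
    (h : ki F D x = 0) : ∃ y, S'.Rd y ∧ x = pull G.f y := by
  obtain ⟨y, h1, h2⟩ := (sqD F D').K0_mid (d1_surj F) (a := ka (dj F D) x) (b := 0)
    (((ka_comp (dj F D) (d1 F) (ic F D) (fun _ => rfl) x).trans h).trans (map_zero _).symm)
  have h1' : ka (dk F D') y = ka (dj F D) x := h1
  have h2' : S'.Rd y := h2
  obtain ⟨T, hT⟩ := exists_flip D'
  obtain ⟨r, hr⟩ := sd_hom (R := Dc F) D
    (fun z => if (z.2 : ℝ) ≤ 1 / 2 then (e1 (idH B) (F.f z.1, σ (sc 1 z.2))).comp (d2 F)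
      else (e1 F (z.1, σ (sd 1 z.2))).comp (d1 F))
    (fun a => by
      have := cont_glue (Z := A.E × I) continuous_snd
        (u := fun z => (d2 F a).1.1 (F.f z.1, σ (sc 1 z.2)))
        (v := fun z => (d1 F a).1.1 (z.1, σ (sd 1 z.2))) (by fun_prop) (by fun_prop)
        (fun z hz => by
          rw [sc_half hz.ge, sd_half hz.le, symm_one, cn0, cn0, d12]; rfl)
      refine this.congr fun z => ?_
      split_ifs <;> rfl)
    (fun x => (e2 F (B.s x)).comp (d1 F))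
    (bd_ind (fun e => by
        rw [if_pos (by simp)]
        refine AlgHom.ext fun a => ?_
        change (d2 F a).1.1 (F.f e, σ (sc 1 0)) = (d1 F a).1.2 (B.s (A.p e))
        rw [sc_zero, symm_zero, cn1, d12, hp1])
      (fun e => by
        rw [if_neg (by norm_num)]
        refine AlgHom.ext fun a => ?_
        change (d1 F a).1.1 (e, σ (sd 1 1)) = (d1 F a).1.2 (B.s (A.p e))
        rw [sd_one, symm_zero, cn1])
      fun x t => by
        refine AlgHom.ext fun a => ?_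
        split_ifs
        · change (d2 F a).1.1 (F.f (A.s x), _) = (d1 F a).1.2 (B.s (A.p (A.s x)))
          rw [hs1, cns, d12, A.ps]
        · change (d1 F a).1.1 (A.s x, _) = (d1 F a).1.2 (B.s (A.p (A.s x)))
          rw [cns, A.ps])
  have ej : ka r (ka (dj F D) x) = x := by
    rw [ka_comp (dj F D) r (r.comp (dj F D)) (fun _ => rfl)]
    refine (sd_htp D (fun τ z => ev (D.c (z.1, σ (sd τ z.2))))
      (fun a => a.continuous.comp (by fun_prop)) (fun _ x => ev (S.s x))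
      (fun τ => bd_ind (fun e => by simp [c_0]) (fun e => by simp [c_1])
        fun x t => by simp [c_s, A.ps]) (AlgHom.id ℂ _) _ (fun a z => by simp) (fun a z => ?_)
        x).symm.trans (ka_id _ (fun _ => rfl) x)
    change r (dj F D a) (D.c z) = a (D.c (z.1, σ (sd 1 z.2)))
    rw [hr]
    split_ifs with hz
    · rw [sd_half hz, symm_one, c_0, ← hp1 F]; rfl
    · rfl
  have ek : ka r (ka (dk F D') y) = pull G.f (pull T.f y) := by
    rw [ka_comp (dk F D') r (r.comp (dk F D')) (fun _ => rfl),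
      pull_pull G.f T.f (T.f.comp G.f) (fun _ => rfl)]
    refine (sd_htp D (fun τ z => ev (D'.c (F.f z.1, σ (sc τ z.2))))
      (fun a => a.continuous.comp (by fun_prop)) (fun _ x => ev (S'.s x))
      (fun τ => bd_ind (fun e => by simp [c_1, hp1]) (fun e => by simp [c_0, hp1])
        fun x t => by simp [c_s, hs1, A.ps]) (cp (T.f.comp G.f)) _ (fun a z => ?_) (fun a z => ?_)
        y).symm
    · change a (T.f (G.f (D.c (z.1, z.2)))) = _
      rw [hG, hT, sc_zero_left]; rfl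
    · change r (dk F D' a) (D.c z) = a (D'.c (F.f z.1, σ (sc 1 z.2)))
      rw [hr]
      split_ifs with hz
      · rfl
      · rw [sc_half (not_le.1 hz).le, symm_one, c_0, hp1 F]; rfl
  exact ⟨pull T.f y, rd_pull T h2', by rw [← ek, h1', ej]⟩

/-! ### the defect classes -/

theorem rd_ps {x : KX A.E} (h : A.Rd x) : A.Rd (ps _ x) := by
  change pull A.s _ = 0
  rw [← pull_ps, show pull A.s x = 0 from h, map_zero]

theorem rd_sm (a : KX X) {x : KX A.E} (h : A.Rd x) : A.Rd (A.sm a x) := by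
  change pull A.s (_ * _) = 0
  rw [map_mul, show pull A.s x = 0 from h, mul_zero]

theorem rd_sub {x y : KX A.E} (h : A.Rd x) (h' : A.Rd y) : A.Rd (x - y) := by
  change pull A.s _ = 0
  rw [map_sub, show pull A.s x = 0 from h, show pull A.s y = 0 from h', sub_zero]

theorem rd_add {x y : KX A.E} (h : A.Rd x) (h' : A.Rd y) : A.Rd (x + y) := by
  change pull A.s _ = 0
  rw [map_add, show pull A.s x = 0 from h, show pull A.s y = 0 from h', add_zero]

theorem pull_sm (G : H1 A B) (a : KX X) (y : KX B.E) :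
    pull G.f (B.sm a y) = A.sm a (pull G.f y) := by
  rw [Ex.sm, Ex.sm, map_mul, pull_pull G.f B.p A.p G.hp]

theorem ps_kr (F : H1 A B) (μ : KC (Cn F)) : ps _ (kr F μ) = kr F (ps _ μ) := ka_ps (rs F) μ
theorem ps_ki (F : H1 A B) (D : SD A S) (x : KX S.E) : ps _ (ki F D x) = ki F D (ps _ x) :=
  ka_ps (ic F D) x
theorem ps_kb (F : H1 A B) (a : KX X) : ps _ (kb F a) = kb F (ps _ a) := ka_ps (bs F) a

/-- existence of a defect class -/
theorem ecl_ex (F : H1 A B) (D : SD A S) {l : KX B.E} {ρ : KX X} (hl : B.Rd l)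
    (h : pull F.f l = 0) (hρ : ps _ l = B.sm ρ l) : ∃ x, Ecl F D l ρ x := by
  obtain ⟨μ, hμ⟩ := ex F hl h
  obtain ⟨x, hx, e⟩ := un1 F D (μ := ps _ μ - kb F ρ * μ) (by
    rw [map_sub, map_mul, res_bas, ← ps_kr, hμ, hρ]; exact sub_self _)
  exact ⟨x, (ecl_iff F D l ρ x).2 ⟨hx, μ, hμ, e.symm⟩⟩

/-- changing the lift -/
theorem ecl_add (F : H1 A B) (D : SD A S) {l : KX B.E} {ρ : KX X} {x w : KX S.E}
    (h : Ecl F D l ρ x) (hw : S.Rd w) : Ecl F D l ρ (x + (ps _ w - S.sm ρ w)) := by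
  obtain ⟨hx, μ, h1, h2⟩ := (ecl_iff F D l ρ x).1 h
  refine (ecl_iff F D l ρ _).2 ⟨rd_add hx (rd_sub (rd_ps hw) (rd_sm ρ hw)), μ + ki F D w, ?_, ?_⟩
  · rw [map_add, h1, res_inc F D hw, add_zero]
  · rw [map_add, map_add, map_sub, ← h2, inc_sm, ps_ki]; ring

/-- adding a class from the suspension of the target -/
theorem ecl_add' (F : H1 A B) (D : SD A S) (D' : SD B S') (G : H1 S S')
    (hG : ∀ e t, G.f (D.c (e, t)) = D'.c (F.f e, t)) {l : KX B.E} {ρ : KX X} {x : KX S.E}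
    {y : KX S'.E} (h : Ecl F D l ρ x) (hy : S'.Rd y) : Ecl F D l ρ (x + pull G.f y) := by
  obtain ⟨hx, μ, h1, h2⟩ := (ecl_iff F D l ρ x).1 h
  refine (ecl_iff F D l ρ _).2 ⟨rd_add hx (rd_pull G hy), μ, h1, ?_⟩
  rw [map_add, inc_sus F D D' G hG hy, add_zero, h2]

/-- indeterminacy of the defect class -/
theorem ecl_un (F : H1 A B) (D : SD A S) (D' : SD B S') (G : H1 S S')
    (hG : ∀ e t, G.f (D.c (e, t)) = D'.c (F.f e, t)) {l : KX B.E} {ρ : KX X} {x x' : KX S.E}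
    (h : Ecl F D l ρ x) (h' : Ecl F D l ρ x') :
    ∃ w y, S.Rd w ∧ S'.Rd y ∧ x' = x + (ps _ w - S.sm ρ w) + pull G.f y := by
  obtain ⟨hx, μ, h1, h2⟩ := (ecl_iff F D l ρ x).1 h
  obtain ⟨hx', μ', h1', h2'⟩ := (ecl_iff F D l ρ x').1 h'
  obtain ⟨w, hw, e⟩ := un1 F D (μ := μ' - μ) (by rw [map_sub, h1, h1', sub_self])
  obtain ⟨y, hy, e'⟩ := un2 F D D' G hG (x := x' - (x + (ps _ w - S.sm ρ w)))
    (rd_sub hx' (rd_add hx (rd_sub (rd_ps hw) (rd_sm ρ hw)))) (by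
      rw [map_sub, map_add, map_sub, ← h2, ← h2', inc_sm, ← ps_ki, e, map_sub]; ring)
  exact ⟨w, y, hw, hy, by rw [← e']; ring⟩

/-- sums of lifts -/
theorem ecl_sum (F : H1 A B) (D : SD A S) {l l' : KX B.E} {ρ : KX X} {x x' : KX S.E}
    (h : Ecl F D l ρ x) (h' : Ecl F D l' ρ x') : Ecl F D (l + l') ρ (x + x') := by
  obtain ⟨hx, μ, h1, h2⟩ := (ecl_iff F D l ρ x).1 h
  obtain ⟨hx', μ', h1', h2'⟩ := (ecl_iff F D l' ρ x').1 h'
  refine (ecl_iff F D _ ρ _).2 ⟨rd_add hx hx', μ + μ', by rw [map_add, h1, h1'], ?_⟩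
  rw [map_add, map_add, ← h2, ← h2']; ring

/-- multiplication by a class from the base: if `ψ a · ρ = ρ' · a`. -/
theorem ecl_sm (F : H1 A B) (D : SD A S) {l : KX B.E} {ρ ρ' : KX X} {x : KX S.E} (a : KX X)
    (ha : ps _ a * ρ = ρ' * a) (h : Ecl F D l ρ x) :
    Ecl F D (B.sm a l) ρ' (S.sm (ps _ a) x) := by
  obtain ⟨hx, μ, h1, h2⟩ := (ecl_iff F D l ρ x).1 h
  refine (ecl_iff F D _ ρ' _).2 ⟨rd_sm _ hx, kb F a * μ, by rw [map_mul, res_bas, h1]; rfl, ?_⟩
  rw [inc_sm, ← h2, map_mul, ps_kb, ← mul_assoc, ← map_mul, ← ha, map_mul]; ring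

end Crest.Agent.N218.K.Pup
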