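import Crest.Agent.N218.K.Defs

/-!
# Row 218, block D1 (helper34): problems and bordisms (FROZEN definitions)
-/

set_option autoImplicit false
set_option linter.unusedVariables false

open unitInterval Topology Filter Set

noncomputable section

namespace Crest.Agent.N218.K

variable {Γ Γ' : Type} [Group Γ] [TopologicalSpace Γ] [Group Γ'] [TopologicalSpace Γ']

/-- the free part -/
def LS.fr (X : LS Γ) : Set X.Z := {x | ∀ g, X.act g x = x → g = 1}

/-- the cylinder -/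
abbrev LS.cy (X : LS Γ) : LS Γ := X.prod (LS.triv Γ I)

/-- one more trivial real coordinate -/
abbrev LS.xr (X : LS Γ) : LS Γ := X.prod (LS.triv Γ ℝ)

/-- equivariant homeomorphisms -/
structure LS.Iso (X X' : LS Γ) where
  e : X.Z ≃ₜ X'.Z
  eq : ∀ g x, e (X.act g x) = X'.act g (e x)

/-- equivariant linear isomorphisms -/
structure Rep.Iso (V V' : Rep Γ) where
  e : V.W ≃L[ℝ] V'.W
  eq : ∀ g x, e (V.ρ g x) = V'.ρ g (e x)

/-- the underlying homeomorphism -/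
def Rep.Iso.ls {V V' : Rep Γ} (A : V.Iso V') : V.ls.Iso V'.ls := ⟨A.e.toHomeomorph, A.eq⟩

/-- problems -/
structure PB (X : LS Γ) (V : Rep Γ) where
  O : Set X.Z
  f : X.Z → V.W

namespace PB
variable {X X' : LS Γ} {V V' : Rep Γ} (P : PB X V)

/-- the zeros -/
def Z : Set X.Z := {x ∈ P.O | P.f x = 0}

/-- admissible problems with zeros in `S` -/
structure Ok (S : Set X.Z) : Prop where
  op : IsOpen P.O
  inv : ∀ g, ∀ x ∈ P.O, X.act g x ∈ P.O
  ct : ContinuousOn P.f P.O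
  eq : ∀ g, ∀ x ∈ P.O, P.f (X.act g x) = V.ρ g (P.f x)
  cp : IsCompact P.Z
  fr : P.Z ⊆ S

/-- `P` is a shrinking of `Q` -/
structure Le (P Q : PB X V) : Prop where
  sub : P.O ⊆ Q.O
  eq : ∀ x ∈ P.O, P.f x = Q.f x
  z : Q.Z ⊆ P.O

/-- slices of a family -/
def sl {T : Type} [TopologicalSpace T] [LocallyCompactSpace T] [T2Space T]
    (H : PB (X.prod (LS.triv Γ T)) V) (t : T) : PB X V := ⟨{x | (x, t) ∈ H.O}, fun x => H.f (x, t)⟩

/-- **bordism** (homotopy and excision in one step), zeros in `S` -/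
def Hb (S : Set X.Z) (P Q : PB X V) : Prop :=
  P.Ok S ∧ Q.Ok S ∧ ∃ H : PB X.cy V, H.Ok (Prod.fst ⁻¹' S) ∧ (H.sl 0).Le P ∧ (H.sl 1).Le Q

/-- free admissible problems -/
abbrev Fr : Prop := P.Ok X.fr
/-- bordism of free problems -/
abbrev Bd (P Q : PB X V) : Prop := Hb X.fr P Q

/-- restriction to a subset -/
def on (U : Set X.Z) : PB X V := ⟨P.O ∩ U, P.f⟩
/-- products -/
def prod (Q : PB X' V') : PB (X.prod X') (V.prod V') :=
  ⟨P.O ×ˢ Q.O, fun z => (P.f z.1, Q.f z.2)⟩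
/-- the identity -/
def id (V : Rep Γ) : PB V.ls V := ⟨univ, fun x => x⟩
/-- change of coordinates -/
def iso (A : X'.Iso X) (B : V.Iso V') : PB X' V' := ⟨A.e ⁻¹' P.O, fun x => B.e (P.f (A.e x))⟩
/-- pull-back along a map of the sources -/
def comap (j : X'.Z → X.Z) : PB X' V := ⟨j ⁻¹' P.O, fun x => P.f (j x)⟩
/-- restriction of the group -/
def res (φ : Γ' →* Γ) (hφ : Continuous φ) : PB (X.res φ hφ) (V.res φ hφ) := ⟨P.O, P.f⟩
end PB

/-- fibrewise problems are problems on the product -/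
def FP.tp {Y : GS Γ} {M : LS Γ} {W : Rep Γ} (P : FP Y M W) : PB (Y.ls.prod M) W := ⟨P.O, P.f⟩

theorem FP.ok_iff {Y : GS Γ} {M : LS Γ} {W : Rep Γ} (P : FP Y M W) : P.Ok ↔ P.tp.Ok univ :=
  ⟨fun h => ⟨h.op, h.inv, h.ct, h.eq, h.cp, subset_univ _⟩, fun h => ⟨h.op, h.inv, h.ct, h.eq, h.cp⟩⟩

/-- the representation `r χ` -/
abbrev UU (χ : Γ →* Circle) (hχ : Continuous χ) (r : ℕ) : Rep Γ :=
  Rep.wt (fun _ : Fin r => χ) fun _ => hχ

/-- `k` is a cycle structure on `P` -/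
structure PB.Lift {X : LS Γ} {V : Rep Γ} (P : PB X V) (U : Rep Γ) (k : X.Z → U.W) : Prop where
  ct : ContinuousOn k P.O
  eq : ∀ g, ∀ x ∈ P.O, k (X.act g x) = U.ρ g (k x)
  nz : ∀ x ∈ P.Z, k x ≠ 0

/-- the dual problem `(h x, k x - e^t u)` over `Y`, where `j : Y → U` is the unit sphere -/
def PB.Th {X : LS Γ} {V : Rep Γ} (P : PB X V) (U : Rep Γ) (k : X.Z → U.W) (Y : GS Γ)
    (j : Y.Z → U.W) : FP Y X.xr (V.prod U) :=
  ⟨{z | z.2.1 ∈ P.O}, fun z => (P.f z.2.1, k z.2.1 - Real.exp z.2.2 • j z.1)⟩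

end Crest.Agent.N218.K

end
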