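import Crest.Agent.N218.K.Wdg
import Crest.Agent.N218.K.Clu

/-!
# N218/K/Sum2: additivity of the primary and of the secondary class (helper94)
-/

set_option autoImplicit false
set_option linter.unusedVariables false
set_option linter.unusedSectionVars false

open unitInterval Topology Set OnePoint Module

noncomputable section

namespace Crest.Agent.N218.K.Pup

section
variable {Γ : Type} [Group Γ] [TopologicalSpace Γ]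

theorem ok_split {X : LS Γ} {V : Rep Γ} {Q : PB X V} {S A B : Set X.Z} (h : Q.Ok S)
    (a : IsOpen (Q.O ∩ A)) (b : IsOpen (Q.O ∩ B)) (d : Disjoint A B) (c : Q.O ⊆ A ∪ B)
    (i : ∀ g, ∀ x ∈ Q.O ∩ A, X.act g x ∈ A) : (Q.on A).Ok S := by
  refine ⟨a, fun g x m => ⟨h.inv g x m.1, i g x m⟩, h.ct.mono inter_subset_left,
    fun g x m => h.eq g x m.1, ?_, fun x m => h.fr ⟨m.1.1, m.2⟩⟩
  have : (Q.on A).Z = Q.Z \ (Q.O ∩ B) := by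
    ext x
    exact ⟨fun m => ⟨⟨m.1.1, m.2⟩, fun n => disjoint_left.1 d m.1.2 n.2⟩,
      fun m => ⟨⟨m.1.1, (c m.1.1).resolve_right fun n => m.2 ⟨m.1.1, n⟩⟩, m.1.2⟩⟩
  rw [this]; exact h.cp.diff b

variable [CompactSpace Γ]

theorem cut_add {Y : GS Γ} {M : LS Γ} {W : Rep Γ} {P P₁ P₂ : FP Y M W} {c₁ c₂ : Y.Z × M.Z → ℝ}
    (h₁ : P₁.Cut c₁) (h₂ : P₂.Cut c₂) (s₁ : P₁.O ⊆ P.O) (s₂ : P₂.O ⊆ P.O) (c : P.O ⊆ P₁.O ∪ P₂.O)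
    (e₁ : P₁.f = P.f) (e₂ : P₂.f = P.f) : P.Cut (c₁ + c₂) := by
  have t : tsupport (c₁ + c₂) ⊆ tsupport c₁ ∪ tsupport c₂ := tsupport_add _ _
  refine ⟨h₁.ct.add h₂.ct, fun x => add_nonneg (h₁.nn x) (h₂.nn x),
    (h₁.cp.union h₂.cp).of_isClosed_subset (isClosed_tsupport _) t,
    t.trans (union_subset (h₁.sub.trans s₁) (h₂.sub.trans s₂)), fun x o z => ?_,
    fun g x => by rw [Pi.add_apply, Pi.add_apply, h₁.inv, h₂.inv]⟩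
  rcases c o with m | m
  · exact add_pos_of_pos_of_nonneg (h₁.pos x m (e₁ ▸ z)) (h₂.nn x)
  · exact add_pos_of_nonneg_of_pos (h₁.nn x) (h₂.pos x m (e₂ ▸ z))

theorem dj_of {Y : GS Γ} {M : LS Γ} {W : Rep Γ} {P P₁ P₂ : FP Y M W} {c₁ c₂ : Y.Z × M.Z → ℝ}
    (h₁ : P₁.Cut c₁) (h₂ : P₂.Cut c₂) (d : Disjoint P₁.O P₂.O) (e₁ : P₁.f = P.f)
    (e₂ : P₂.f = P.f) {F₁ F₂ F : H1 (Sb Y M) (Sb Y W.ls)} (r₁ : Rg F₁ (P₁.col c₁))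
    (r₂ : Rg F₂ (P₂.col c₂)) (r : Rg F (P.col (c₁ + c₂))) : Dj F₁ F₂ F := by
  refine sb_ind (fun y => .inl ⟨Hm.f_inf _ _, (Hm.f_inf _ _).trans (Hm.f_inf _ _).symm⟩)
    fun y w => ?_
  rw [r, r₁, r₂, FP.col_eq, FP.col_eq, FP.col_eq, e₁, e₂, Pi.add_apply]
  by_cases z : c₂ (y, w) = 0
  · exact .inl ⟨by rw [z, sc_zero]; rfl, by rw [z, add_zero]⟩
  · have z' : c₁ (y, w) = 0 := by
      by_contra n
      exact disjoint_left.1 d (h₁.mem n) (h₂.mem z)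
    exact .inr ⟨by rw [z', sc_zero]; rfl, by rw [z', zero_add]⟩
end

/-- classifying maps with disjoint supports -/
theorem cl_dj {Γ : Type} [Group Γ] [Fintype Γ] [TopologicalSpace Γ] [DiscreteTopology Γ]
    (χ : Γ →* Circle) (r : ℕ) (X V : Rep Γ) (hd : finrank ℝ X.W < finrank ℝ V.W + 2 * r)
    (P : PB X.ls V) (U U' : Set X.ls.Z) (h : P.Fr) (h1 : (P.on U).Fr) (h2 : (P.on U').Fr)
    (d : Disjoint U U') (c : P.Z ⊆ U ∪ U') : ∃ F₁ F₂ F, Cl χ (cc χ) r (P.on U) F₁ ∧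
      Cl χ (cc χ) r (P.on U') F₂ ∧ Cl χ (cc χ) r P F ∧ Dj F₁ F₂ F := by
  have o : IsOpen (P.O ∩ (U ∪ U')) := by rw [inter_union_distrib_left]; exact h1.op.union h2.op
  have h0 : (P.on (U ∪ U')).Fr :=
    ⟨o, fun g x m => ⟨h.inv g x m.1, m.2.imp (fun u => (h1.inv g x ⟨m.1, u⟩).2)
      fun u => (h2.inv g x ⟨m.1, u⟩).2⟩, h.ct.mono inter_subset_left, fun g x m => h.eq g x m.1,
      (show (P.on (U ∪ U')).Z = P.Z from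
        Set.ext fun x => ⟨fun m => ⟨m.1.1, m.2⟩, fun m => ⟨⟨m.1, c m⟩, m.2⟩⟩) ▸ h.cp,
      fun x m => h.fr ⟨m.1.1, m.2⟩⟩
  obtain ⟨P', k, H, p, eO, eH, hH, l0, l1, hk⟩ := cle χ r X V hd _ h0
  have key : ∀ {A B : Set X.ls.Z}, (P.on A).Fr → (P.on B).Fr → Disjoint A B → A ∪ B = U ∪ U' →
      (P.on A).Bd (P'.on A) := fun {A B} a b d e => by
    have s : ∀ {C : Set X.ls.Z}, C ⊆ U ∪ U' → P.O ∩ (U ∪ U') ∩ C = P.O ∩ C := fun m =>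
      by rw [inter_assoc, inter_eq_self_of_subset_right m]
    have sA := s (e ▸ subset_union_left : A ⊆ U ∪ U')
    have sB := s (e ▸ subset_union_right : B ⊆ U ∪ U')
    have oA : IsOpen (P.O ∩ (U ∪ U') ∩ A) := by rw [sA]; exact a.op
    have oB : IsOpen (P.O ∩ (U ∪ U') ∩ B) := by rw [sB]; exact b.op
    refine ⟨a, ok_split p (by rw [eO]; exact oA) (by rw [eO]; exact oB) d
      (by rw [eO, e]; exact inter_subset_right)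
      (fun g x m => (a.inv g x ⟨(eO ▸ m.1 : x ∈ (P.on (U ∪ U')).O).1, m.2⟩).2),
      H.on (Prod.fst ⁻¹' A), ok_split (B := Prod.fst ⁻¹' B) hH ?_ ?_ (d.preimage _) ?_ ?_, ?_, ?_⟩
    · rw [eH]; exact oA.preimage (f := (Prod.fst : X.ls.Z × I → X.ls.Z)) continuous_fst
    · rw [eH]; exact oB.preimage (f := (Prod.fst : X.ls.Z × I → X.ls.Z)) continuous_fst
    · rw [eH]; exact fun x m => (e ▸ m.2 : x.1 ∈ A ∪ B)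
    · exact fun g x m => (a.inv g x.1 ⟨(eH ▸ m.1 : x ∈ Prod.fst ⁻¹' (P.on (U ∪ U')).O).1, m.2⟩).2
    · exact ⟨fun x m => ⟨(l0.sub m.1).1, m.2⟩, fun x m => l0.eq x m.1,
        fun x m => ⟨l0.z ⟨⟨m.1.1, e ▸ .inl m.1.2⟩, m.2⟩, m.1.2⟩⟩
    · exact ⟨fun x m => ⟨l1.sub m.1, m.2⟩, fun x m => l1.eq x m.1,
        fun x m => ⟨l1.z ⟨m.1.1, m.2⟩, m.1.2⟩⟩
  have b1 := key h1 h2 d rfl
  have b2 := key h2 h1 d.symm (union_comm _ _)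
  have b : P.Bd P' := ⟨h, p, H, hH, ⟨fun x m => (l0.sub m).1, l0.eq,
    fun x m => l0.z ⟨⟨m.1, c m⟩, m.2⟩⟩, l1⟩
  have lf : ∀ A, (P'.on A).Lift (UU χ (cc χ) r) k := fun A =>
    ⟨hk.ct.mono inter_subset_left, fun g x m => hk.eq g x m.1, fun x m => hk.nz x ⟨m.1.1, m.2⟩⟩
  have t1 := Tc_ok χ (cc χ) r b1.2.1 (lf U)
  have t2 := Tc_ok χ (cc χ) r b2.2.1 (lf U')
  obtain ⟨c₁, k₁⟩ := t1.exists_cut
  obtain ⟨c₂, k₂⟩ := t2.exists_cut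
  have k₀ : (Tc χ (cc χ) r P' k).Cut (c₁ + c₂) := cut_add k₁ k₂ (fun _ m => m.1) (fun _ m => m.1)
    (fun z m => (eO ▸ m : z.2.1 ∈ (P.on (U ∪ U')).O).2.imp (fun u => ⟨m, u⟩) fun u => ⟨m, u⟩) rfl rfl
  obtain ⟨F₁, r₁, q₁⟩ := k₁.rp t1
  obtain ⟨F₂, r₂, q₂⟩ := k₂.rp t2
  obtain ⟨F, r₀, q₀⟩ := k₀.rp (Tc_ok χ (cc χ) r p hk)
  exact ⟨F₁, F₂, F, ⟨_, k, b1, lf U, q₁⟩, ⟨_, k, b2, lf U', q₂⟩, ⟨_, k, b, hk, q₀⟩,
    dj_of k₁ k₂ (disjoint_left.2 fun _ m n => disjoint_left.1 d m.2 n.2) rfl rfl r₁ r₂ r₀⟩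

end Crest.Agent.N218.K.Pup

namespace Crest.Agent.N218.K

theorem dsum' : DSUM := fun χ r X V hd P U U' h h1 h2 d c l hl =>
  let ⟨F₁, F₂, F, a₁, a₂, a, j⟩ := Pup.cl_dj χ r X V hd P U U' h h1 h2 d c
  ⟨_, _, ⟨F₁, a₁, rfl⟩, ⟨F₂, a₂, rfl⟩, F, a, j.pull hl⟩

theorem esum' : ESUM := by
  intro Γ _ _ _ _ χ r X V hd P U U' h h1 h2 d c l ρ hl hρ h0
  obtain ⟨F₁, F₂, F, a₁, a₂, a, j⟩ := Pup.cl_dj χ r X V hd P U U' h h1 h2 d c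
  obtain ⟨x₁, e₁⟩ := Pup.ecl_ex F₁ (sd _ _) hl (h0 _) hρ
  obtain ⟨x₂, e₂⟩ := Pup.ecl_ex F₂ (sd _ _) hl (h0 _) hρ
  obtain ⟨x, e⟩ := Pup.ecl_ex F (sd _ _) hl (h0 _) hρ
  obtain ⟨y₁, y₂, f₁, f₂, rfl⟩ := j.ecl (sd _ _) (sd _ _) hl e₁ e₂ e
  exact ⟨y₁, y₂, ⟨F₁, a₁, f₁⟩, ⟨F₂, a₂, f₂⟩, F, a, e⟩

end Crest.Agent.N218.K
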