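import Crest.Agent.N218.K.Clu

/-!
# Row 218, block D1 (helper34): from value systems to abstract invariants
-/

set_option autoImplicit false
set_option linter.unusedVariables false
set_option linter.unusedSectionVars false

open unitInterval Topology Filter Set Module

noncomputable section

namespace Crest.Agent.N218.K

set_option hygiene false in
/-- quantify over finite groups with a character -/
local macro "∀G " χ:ident ", " t:term : term =>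
  `(∀ {Γ : Type} [Group Γ] [Fintype Γ] [TopologicalSpace Γ] [DiscreteTopology Γ]
    ($χ : Γ →* Circle), $t)
set_option hygiene false in
/-- quantify over a second finite group -/
local macro "∀H " φ:ident ", " t:term : term =>
  `(∀ {Γ' : Type} [Group Γ'] [Fintype Γ'] [TopologicalSpace Γ'] [DiscreteTopology Γ']
    ($φ : Γ' →* Γ), $t)

/-- values that depend on an orientation -/
structure VS (m : ℕ) where
  O : ∀G χ, Rep Γ → Rep Γ → Type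
  R : ∀G χ, ∀ X V : Rep Γ, O χ X V → PB X.ls V → QQ → Prop
  oex : ∀G χ, ∀ X V : Rep Γ, Gq χ → Adm m X V → Cx V.ls → Nonempty (O χ X V)
  fr : ∀G χ, ∀ (X V : Rep Γ) o P a, R χ X V o P a → P.Fr
  ex : ∀G χ, ∀ X V : Rep Γ, Gq χ → Adm m X V → Cx V.ls → ∀ o P, P.Fr → ∃ a, R χ X V o P a
  un : ∀G χ, ∀ X V : Rep Γ, Gq χ → Adm m X V → Cx V.ls → ∀ o P a a', R χ X V o P a →
    R χ X V o P a' → a = a'
  ch : ∀G χ, ∀ X V : Rep Γ, Gq χ → Adm m X V → Cx V.ls → ∀ o o', ∃ s : ℤˣ, ∀ P a a',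
    R χ X V o P a → R χ X V o' P a' → a' = s • a
  bd : ∀G χ, ∀ (X V : Rep Γ) o P Q a, P.Bd Q → R χ X V o Q a → R χ X V o P a
  emp : ∀G χ, ∀ (X V : Rep Γ) o P, P.Fr → P.Z = ∅ → R χ X V o P 0
  sum : ∀G χ, ∀ X V : Rep Γ, Gq χ → Adm m X V → Cx V.ls → ∀ o (P : PB X.ls V) (U U' : Set X.W),
    P.Fr → (P.on U).Fr → (P.on U').Fr → Disjoint U U' → P.Z ⊆ U ∪ U' →
    ∃ a a', R χ X V o (P.on U) a ∧ R χ X V o (P.on U') a' ∧ R χ X V o P (a + a')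
  iso : ∀G χ, ∀ (X V X' V' : Rep Γ) (A : X'.ls.Iso X.ls) (B : V.Iso V') o,
    ∃ o', ∀ P a, R χ X V o P a → R χ X' V' o' (P.iso A B) a
  stb : ∀G χ, ∀ X V W : Rep Γ, Gq χ → Adm m X V → Cx V.ls → Cx W.ls → ∀ o,
    ∃ o', ∀ P a, R χ X V o P a → R χ (X.prod W) (V.prod W) o' (P.st W) a
  res : ∀G χ, ∀H φ, ∀ X V : Rep Γ, Gq χ → Gq (χ.comp φ) → Adm m X V → Cx V.ls → ∀ o,
    ∃ o', ∀ P a, R χ X V o P a →
      R (χ.comp φ) (X.res φ (cc φ)) (V.res φ (cc φ)) o' (P.res φ (cc φ)) a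
  den : ∀G χ, ∀ (X V : Rep Γ) o P a, R χ X V o P a → 32 • a = 0

namespace Ai
section
variable {Γ Γ' : Type} [Group Γ] [TopologicalSpace Γ] [Group Γ'] [TopologicalSpace Γ']
  {X X' V V' : Rep Γ} {m : ℕ}

theorem pb_ext {M : LS Γ} {P Q : PB M V} (h : P.O = Q.O) (h' : P.f = Q.f) : P = Q := by
  cases P; cases Q; cases h; cases h'; rfl

theorem ok_id {M : LS Γ} {P : PB M V} {S : Set M.Z} (h : P.Ok S) (W : Rep Γ) :
    (P.prod (PB.id W)).Ok (Prod.fst ⁻¹' S) where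
  op := h.op.prod isOpen_univ
  inv g x a := ⟨h.inv g _ a.1, trivial⟩
  ct := (h.ct.comp continuousOn_fst fun _ a => a.1).prodMk continuousOn_snd
  eq g x a := Prod.ext (h.eq g _ a.1) rfl
  cp := by
    have : (P.prod (PB.id W)).Z = P.Z ×ˢ {(0 : W.W)} := Set.ext fun x =>
      ⟨fun a => ⟨⟨a.1.1, congrArg Prod.fst a.2⟩, congrArg Prod.snd a.2⟩,
        fun a => ⟨⟨a.1.1, trivial⟩, Prod.ext a.1.2 a.2⟩⟩
    rw [this]; exact h.cp.prod isCompact_singleton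
  fr x a := h.fr ⟨a.1.1, congrArg Prod.fst a.2⟩

theorem fr_sub (W : Rep Γ) : Prod.fst ⁻¹' X.ls.fr ⊆ (X.prod W).ls.fr :=
  fun x a g e => a g (congrArg Prod.fst e)

theorem fr_st {P : PB X.ls V} (h : P.Fr) (W : Rep Γ) : (P.st W).Fr := (ok_id h W).mono (fr_sub W)

theorem le_st {P Q : PB X.ls V} (h : P.Le Q) (W : Rep Γ) : (P.st W).Le (Q.st W) :=
  ⟨fun x a => ⟨h.sub a.1, trivial⟩, fun x a => Prod.ext (h.eq _ a.1) rfl,
    fun x a => ⟨h.z ⟨a.1.1, congrArg Prod.fst a.2⟩, trivial⟩⟩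

theorem bd_st {P Q : PB X.ls V} (h : P.Bd Q) (W : Rep Γ) : (P.st W).Bd (Q.st W) := by
  obtain ⟨p, q, H, c, d, e⟩ := h
  have k := ok_id c W
  let j : (X.W × W.W) × I ≃ₜ (X.W × I) × W.W :=
    (Homeomorph.prodAssoc _ _ _).trans (((Homeomorph.refl _).prodCongr (.prodComm _ _)).trans
      (Homeomorph.prodAssoc _ _ _).symm)
  refine ⟨fr_st p W, fr_st q W, ⟨j ⁻¹' (H.prod (PB.id W)).O, fun z => (H.prod (PB.id W)).f (j z)⟩,
    ⟨k.op.preimage j.continuous, fun g x a => k.inv g (j x) a,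
      k.ct.comp j.continuous.continuousOn fun _ a => a, fun g x a => k.eq g (j x) a,
      j.isCompact_preimage.2 k.cp, fun x a => fr_sub W (k.fr a)⟩, le_st d W, le_st e W⟩

theorem adm_st (h : Adm m X V) (W : Rep Γ) : Adm m (X.prod W) (V.prod W) :=
  let ⟨A⟩ := h
  ⟨⟨(A.e.prodCongr (.refl ℝ W.W)).trans (.prodAssoc ℝ _ _ _), fun g x => by
    exact congrArg (fun z : (Fin m → ℝ) × V.W => (z.1, z.2, W.ρ g x.2)) (A.eq g x.1)⟩⟩

theorem adm_res (h : Adm m X V) (φ : Γ' →* Γ) (hφ : Continuous φ) :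
    Adm m (X.res φ hφ) (V.res φ hφ) := let ⟨A⟩ := h; ⟨⟨A.e, fun g => A.eq (φ g)⟩⟩

theorem adm_rank (h : Adm m X V) : finrank ℝ X.W = m + finrank ℝ V.W := by
  obtain ⟨A⟩ := h
  rw [A.e.toLinearEquiv.finrank_eq]
  change finrank ℝ ((Fin m → ℝ) × V.W) = _
  rw [finrank_prod, finrank_fin_fun]

/-- the shuffle -/
def shf (X W V U : Rep Γ) : ((X.prod W).prod (V.prod U)).Iso ((X.prod V).prod (W.prod U)) :=
  ⟨.prodProdProdComm ℝ _ _ _ _, fun _ _ => rfl⟩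
end

variable {m : ℕ} (T : VS m) {Γ : Type} [Group Γ] [Fintype Γ] [TopologicalSpace Γ]
  [DiscreteTopology Γ] (χ : Γ →* Circle)

open Classical in
/-- the value for a chosen orientation -/
def n0 (X V : Rep Γ) (P : PB X.ls V) : QQ :=
  if h : Nonempty (T.O χ X V) then
    if h' : ∃ a, T.R χ X V h.some P a then h'.choose else 0 else 0

variable {χ} {X V : Rep Γ}

theorem n0_den (P : PB X.ls V) : 32 • n0 T χ X V P = 0 := by
  unfold n0
  split_ifs with h h'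
  exacts [T.den χ X V _ P _ h'.choose_spec, smul_zero _, smul_zero _]

theorem n0_ex (g : Gq χ) (a : Adm m X V) (c : Cx V.ls) : ∃ o, (∀ P, P.Fr →
    T.R χ X V o P (n0 T χ X V P)) ∧ ∀ P b, T.R χ X V o P b → n0 T χ X V P = b := by
  have h := T.oex χ X V g a c
  have k : ∀ P : PB X.ls V, P.Fr → T.R χ X V h.some P (n0 T χ X V P) := fun P p => by
    have h' := T.ex χ X V g a c h.some P p
    rw [n0, dif_pos h, dif_pos h']; exact h'.choose_spec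
  exact ⟨h.some, k, fun P b r => T.un χ X V g a c _ P _ _ (k P (T.fr χ X V _ P b r)) r⟩

theorem n0_spec (g : Gq χ) (a : Adm m X V) (c : Cx V.ls) (o : T.O χ X V) :
    ∃ s : ℤˣ, ∀ P b, T.R χ X V o P b → n0 T χ X V P = s • b := by
  obtain ⟨o', k, -⟩ := n0_ex T g a c
  obtain ⟨s, e⟩ := T.ch χ X V g a c o o'
  exact ⟨s, fun P b r => e P _ _ r (k P (T.fr χ X V _ P b r))⟩

theorem n0_iso {X' V' : Rep Γ} (g : Gq χ) (a : Adm m X V) (c : Cx V.ls) (a' : Adm m X' V')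
    (c' : Cx V'.ls) (A : X'.ls.Iso X.ls) (B : V.Iso V') :
    ∃ s : ℤˣ, ∀ P, P.Fr → n0 T χ X' V' (P.iso A B) = s • n0 T χ X V P := by
  obtain ⟨o, k, -⟩ := n0_ex T g a c
  obtain ⟨o', e⟩ := T.iso χ X V X' V' A B o
  obtain ⟨s, f⟩ := n0_spec T g a' c' o'
  exact ⟨s, fun P p => f _ _ (e P _ (k P p))⟩

theorem n0_stb (g : Gq χ) (a : Adm m X V) (c : Cx V.ls) {W : Rep Γ} (w : Cx W.ls)
    (c' : Cx (V.prod W).ls) :
    ∃ s : ℤˣ, ∀ P, P.Fr → n0 T χ (X.prod W) (V.prod W) (P.st W) = s • n0 T χ X V P := by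
  obtain ⟨o, k, -⟩ := n0_ex T g a c
  obtain ⟨o', e⟩ := T.stb χ X V W g a c w o
  obtain ⟨s, f⟩ := n0_spec T g (adm_st a W) c' o'
  exact ⟨s, fun P p => f _ _ (e P _ (k P p))⟩

theorem cx_iso {M N : LS Γ} (A : M.Iso N) (h : Cx N) : Cx M :=
  let ⟨n, χ, c, ⟨B⟩⟩ := h
  ⟨n, χ, c, ⟨⟨A.e.trans B.e, fun g x => (congrArg B.e (A.eq g x)).trans (B.eq g _)⟩⟩⟩

end Ai

open Ai in
/-- **the abstract invariant of a value system** -/
theorem VS.ai {m : ℕ} (T : VS m) (c2 : CX2) : ∃ J : AI m, ∀G χ, ∀ X V : Rep Γ, Gq χ → Adm m X V →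
    Cx V.ls → ∀ o : T.O χ X V, ∃ s : ℤˣ, ∀ P φ, T.R χ X V o P φ → J.ν χ X V P = s • φ := by
  refine ⟨⟨fun χ X V P => n0 T χ (X.prod V) (V.prod V) (P.st V), ?_, ?_, ?_, ?_, ?_, ?_,
    fun χ X V P => n0_den T _⟩, ?_⟩
  · intro Γ _ _ _ _ χ X V g a P Q b
    obtain ⟨o, k, e⟩ := n0_ex T g (adm_st a V) (c2 χ g.inj V)
    exact e _ _ (T.bd χ _ _ o _ _ _ (bd_st b V) (k _ (fr_st b.2.1 V)))
  · intro Γ _ _ _ _ χ X V g a P p z
    obtain ⟨o, k, e⟩ := n0_ex T g (adm_st a V) (c2 χ g.inj V)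
    refine e _ _ (T.emp χ _ _ o _ (fr_st p V) (eq_empty_of_forall_notMem fun x i => ?_))
    have : x.1 ∈ P.Z := ⟨i.1.1, congrArg Prod.fst i.2⟩
    rwa [z] at this
  · intro Γ _ _ _ _ χ X V g a P U U' p u u' d z
    obtain ⟨o, k, e⟩ := n0_ex T g (adm_st a V) (c2 χ g.inj V)
    have h : ∀ U : Set X.W, (P.on U).st V = (P.st V).on (Prod.fst ⁻¹' U) := fun U =>
      pb_ext (Set.ext fun x => ⟨fun i => ⟨⟨i.1.1, trivial⟩, i.1.2⟩,
        fun i => ⟨⟨i.1.1, i.2⟩, trivial⟩⟩) rfl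
    obtain ⟨b, b', r, r', r''⟩ := T.sum χ _ _ g (adm_st a V) (c2 χ g.inj V) o (P.st V)
      (Prod.fst ⁻¹' U) (Prod.fst ⁻¹' U') (fr_st p V) (h U ▸ fr_st u V) (h U' ▸ fr_st u' V)
      (d.preimage _) fun x i => z ⟨i.1.1, congrArg Prod.fst i.2⟩
    exact (e _ _ r'').trans (congrArg₂ (· + ·) (e _ _ (h U ▸ r)).symm (e _ _ (h U' ▸ r')).symm)
  · intro Γ _ _ _ _ χ X V X' V' g a a' A B
    obtain ⟨s, e⟩ := n0_iso T g (adm_st a V) (c2 χ g.inj V) (adm_st a' V') (c2 χ g.inj V')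
      ⟨A.e.prodCongr B.e.symm.toHomeomorph, fun g x => Prod.ext (A.eq g x.1) (B.e.injective (by
        change B.e (B.e.symm (V'.ρ g x.2)) = B.e (V.ρ g (B.e.symm x.2))
        rw [B.eq, B.e.apply_symm_apply, B.e.apply_symm_apply]))⟩
      ⟨B.e.prodCongr B.e, fun g x => Prod.ext (B.eq g x.1) (B.eq g x.2)⟩
    refine ⟨s, fun P p => Eq.trans (congrArg _ (pb_ext ?_ (funext fun x => ?_))) (e _ (fr_st p V))⟩
    · exact Set.ext fun x => Iff.rfl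
    · exact Prod.ext rfl (B.e.apply_symm_apply x.2).symm
  · intro Γ _ _ _ _ χ X V W g a
    have c := cx_iso (shf V V W W).ls (c2 χ g.inj (V.prod W))
    obtain ⟨s, e⟩ := n0_stb T g (adm_st a V) (c2 χ g.inj V) (c2 χ g.inj W) c
    obtain ⟨s', e'⟩ := n0_iso T g (adm_st (adm_st a V) (W.prod W)) c
      (adm_st (adm_st a W) (V.prod W)) (c2 χ g.inj (V.prod W)) (shf X W V W).ls (shf V V W W)
    refine ⟨s' * s, fun P p => ?_⟩
    rw [mul_smul, ← e _ (fr_st p V), ← e' _ (fr_st (fr_st p V) _)]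
    exact congrArg _ (pb_ext (Set.ext fun x => Iff.rfl) rfl)
  · intro Γ _ _ _ _ χ Γ' _ _ _ _ φ X V g g' a
    obtain ⟨o, k, -⟩ := n0_ex T g (adm_st a V) (c2 χ g.inj V)
    obtain ⟨o', e⟩ := T.res χ φ _ _ g g' (adm_st a V) (c2 χ g.inj V) o
    obtain ⟨s, f⟩ := n0_spec T g' (adm_st (adm_res a φ (cc φ)) (V.res φ (cc φ)))
      (c2 _ g'.inj _) o'
    exact ⟨s, fun P p => f _ _ (e _ _ (k _ (fr_st p V)))⟩
  · intro Γ _ _ _ _ χ X V g a c o
    obtain ⟨o', e⟩ := T.stb χ X V V g a c c o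
    obtain ⟨s, f⟩ := n0_spec T g (adm_st a V) (c2 χ g.inj V) o'
    exact ⟨s, fun P b r => f _ _ (e P b r)⟩

end Crest.Agent.N218.K

end
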