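import Crest.Agent.N218.K.Rel
import Crest.Agent.N218.K.Lam1

/-!
# Row 218, block D0 (helper56): geometry of `S((r+1)χ)` versus the sphere bundle over `S(rχ)`
-/

set_option autoImplicit false
set_option linter.unusedVariables false

open Crest.Agent.R204.K357 Crest.Agent.R204.Ex837 Topology Set OnePoint ComplexConjugate

noncomputable section

namespace Crest.Agent.N218.K.Cp

variable {Γ : Type} [Group Γ] [TopologicalSpace Γ]

/-- the closed unit disc -/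
abbrev UD : Type := Metric.closedBall (0 : ℂ) 1

theorem UD.le (w : UD) : ‖(w : ℂ)‖ ≤ 1 := mem_closedBall_zero_iff.1 w.2

/-- the unit disc of a character -/
def Dk (χ : Γ →* Circle) (hχ : Continuous χ) : GS Γ where
  Z := UD
  act g w := ⟨χ g * w.1, mem_closedBall_zero_iff.2 (by simpa using UD.le w)⟩
  one z := by ext; simp
  mul g h z := by ext; simp [mul_assoc]
  cont := Continuous.subtype_mk ((continuous_subtype_val.comp (hχ.comp continuous_fst)).mul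
    (continuous_subtype_val.comp continuous_snd)) _

/-- `√(1-|w|²)` -/
def cw (w : ℂ) : ℝ := √(1 - ‖w‖ ^ 2)

theorem cw_cont : Continuous cw := by unfold cw; fun_prop
theorem cw_nn (w : ℂ) : 0 ≤ cw w := Real.sqrt_nonneg _
theorem cw_circ (z : Circle) (w : ℂ) : cw (z * w) = cw w := by simp [cw]
theorem cw_sq (w : UD) : cw w ^ 2 = 1 - ‖(w : ℂ)‖ ^ 2 :=
  Real.sq_sqrt (by nlinarith [w.le, norm_nonneg (w : ℂ)])
theorem cw_zero {w : UD} : cw w = 0 ↔ ‖(w : ℂ)‖ = 1 := by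
  have := cw_sq w
  constructor
  · intro h; rw [h] at this; nlinarith [w.le, norm_nonneg (w : ℂ)]
  · intro h; simp [cw, h]

theorem conj_mul_self (w : ℂ) : conj w * w = (‖w‖ ^ 2 : ℝ) := by
  rw [mul_comm, Complex.mul_conj, Complex.normSq_eq_norm_sq]

/-- the open disc blown up to the plane -/
def thD : C(UD, OnePoint ℂ) :=
  ⟨fun w => sc (cw w, ((w : ℂ) : OnePoint ℂ)), continuous_iff_continuousAt.2 fun w =>
    ContinuousAt.comp (f := fun w : UD => (cw w, ((w : ℂ) : OnePoint ℂ))) (sc_at fun h e => by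
      have h1 := cw_zero.1 h
      rw [coe_injective e] at h1; simp at h1)
      ((cw_cont.comp continuous_subtype_val).prodMk
        (continuous_coe.comp continuous_subtype_val)).continuousAt⟩

theorem thD_bd {w : UD} (h : cw w = 0) : thD w = ∞ := by
  change sc (cw w, _) = _
  rw [h, sc_zero]

theorem thD_in {w : UD} (h : cw w ≠ 0) : thD w = (((cw w : ℂ)⁻¹ * w : ℂ) : OnePoint ℂ) := by
  change sc (cw w, _) = _
  rw [sc_coe h]; simp

theorem thD_inf {w : UD} : thD w = ∞ ↔ cw w = 0 :=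
  ⟨fun h => by_contra fun a => coe_ne_infty _ ((thD_in a).symm.trans h), thD_bd⟩

theorem thD_surj (v : OnePoint ℂ) : ∃ w, thD w = v := by
  induction v using OnePoint.rec with
  | infty => exact ⟨⟨1, by simp⟩, thD_bd (by simp [cw])⟩
  | coe v =>
    have p : 0 < √(1 + ‖v‖ ^ 2) := Real.sqrt_pos.2 (by positivity)
    have s : √(1 + ‖v‖ ^ 2) ^ 2 = 1 + ‖v‖ ^ 2 := Real.sq_sqrt (by positivity)
    generalize √(1 + ‖v‖ ^ 2) = t at p s
    have n : ‖(t : ℂ)⁻¹ * v‖ ^ 2 = 1 - (t⁻¹) ^ 2 := by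
      rw [norm_mul, norm_inv, Complex.norm_real, Real.norm_of_nonneg p.le]
      field_simp; linarith
    have c : cw ((t : ℂ)⁻¹ * v) = t⁻¹ := by
      rw [cw, n, sub_sub_cancel, Real.sqrt_sq (by positivity)]
    refine ⟨⟨(t : ℂ)⁻¹ * v, mem_closedBall_zero_iff.2 (by
      nlinarith [norm_nonneg ((t : ℂ)⁻¹ * v), sq_nonneg t⁻¹])⟩, ?_⟩
    have t0 : (t : ℂ) ≠ 0 := by exact_mod_cast p.ne'
    rw [thD_in (by rw [c]; positivity), c]
    congr 1; push_cast; field_simp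

theorem thD_inj {w w' : UD} (h : thD w = thD w') (h0 : cw w ≠ 0) : w = w' := by
  have h0' : cw w' ≠ 0 := fun a => h0 (thD_inf.1 (h.trans (thD_bd a)))
  rw [thD_in h0, thD_in h0'] at h
  have e := coe_injective h
  have n := congrArg (fun z : ℂ => ‖z‖ ^ 2) e
  simp only [norm_mul, norm_inv, Complex.norm_real, Real.norm_eq_abs, mul_pow, inv_pow,
    sq_abs] at n
  have a := cw_sq w
  have a' := cw_sq w'
  have c : cw w = cw w' := by
    refine (sq_eq_sq₀ (cw_nn _) (cw_nn _)).1 ?_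
    field_simp at n
    nlinarith
  rw [c] at e
  exact Subtype.ext (mul_left_cancel₀ (inv_ne_zero (by exact_mod_cast h0')) e)

variable [CompactSpace Γ] (Y : GS Γ) (χ : Γ →* Circle) (hχ : Continuous χ) (r : ℕ)

theorem thD_act (g : Γ) (w : UD) :
    thD ((Dk χ hχ).act g w) = (ch χ hχ).sph.act g (thD w) := by
  have e : cw (χ g * w) = cw w := cw_circ (χ g) w
  by_cases h : cw w = 0
  · exact (thD_bd (w := (Dk χ hχ).act g w) (e.trans h)).trans (by rw [thD_bd h]; rfl)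
  · refine (thD_in (w := (Dk χ hχ).act g w) (e.trans_ne h)).trans ?_
    rw [thD_in h]
    change (((cw (χ g * w) : ℂ)⁻¹ * (χ g * w) : ℂ) : OnePoint ℂ) =
      ((χ g * ((cw w : ℂ)⁻¹ * w) : ℂ) : OnePoint ℂ)
    rw [e, mul_left_comm]

/-- the base -/
abbrev YS : GS Γ := Y.prod (Sp χ hχ r)
/-- the disc bundle -/
abbrev YD : GS Γ := (YS Y χ hχ r).prod (Dk χ hχ)
/-- the sphere bundle -/
abbrev YP : Ex (YS Y χ hχ r).Q := Sb (YS Y χ hχ r) (ch χ hχ)

/-- the join map -/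
def jn (r : ℕ) : C(US r × UD, US (r + 1)) :=
  ⟨fun z => ⟨Fin.cons (z.2 : ℂ) fun i => (cw z.2 : ℂ) * z.1.1 i, by
    have h : ∑ i, conj (z.1.1 i) * z.1.1 i = 1 := z.1.2
    have c : ((cw z.2 : ℝ) : ℂ) ^ 2 = 1 - (‖(z.2 : ℂ)‖ ^ 2 : ℝ) := by exact_mod_cast cw_sq z.2
    simp only [Un1, Fin.sum_univ_succ, Fin.cons_zero, Fin.cons_succ, map_mul, Complex.conj_ofReal]
    rw [Finset.sum_congr rfl (g := fun i => (cw z.2 : ℂ) ^ 2 * (conj (z.1.1 i) * z.1.1 i))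
      fun i _ => by ring, ← Finset.mul_sum, h, c, conj_mul_self]; ring⟩, by
    refine Continuous.subtype_mk (continuous_pi fun i => ?_) _
    have := cw_cont
    refine Fin.cases ?_ (fun i => ?_) i
    · simp only [Fin.cons_zero]; fun_prop
    · simp only [Fin.cons_succ]
      exact (Complex.continuous_ofReal.comp (cw_cont.comp (by fun_prop))).mul
        ((continuous_apply i).comp (continuous_subtype_val.comp continuous_fst))⟩

theorem jn_zero (u : US r) (w : UD) : (jn r (u, w)).1 0 = w := rfl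
theorem jn_succ (u : US r) (w : UD) (i : Fin r) : (jn r (u, w)).1 i.succ = cw w * u.1 i := rfl

theorem jn_act (g : Γ) (u : US r) (w : UD) : jn r ((Sp χ hχ r).act g u, (Dk χ hχ).act g w) =
    (Sp χ hχ (r + 1)).act g (jn r (u, w)) := by
  refine Subtype.ext (funext fun i => Fin.cases rfl (fun i => ?_) i)
  change (cw (χ g * w) : ℂ) * (χ g * u.1 i) = χ g * (cw w * u.1 i)
  rw [cw_circ]; ring

theorem jn_inj {u u' : US r} {w w' : UD} (h : jn r (u, w) = jn r (u', w')) (h0 : cw w ≠ 0) :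
    u = u' ∧ w = w' := by
  obtain rfl : w = w' := Subtype.ext (congrArg (fun z : US (r + 1) => z.1 0) h)
  refine ⟨Subtype.ext (funext fun i => ?_), rfl⟩
  exact mul_left_cancel₀ (by exact_mod_cast h0) (congrArg (fun z : US (r + 1) => z.1 i.succ) h)

/-- points on the axis -/
def Ax (u : US (r + 1)) : Prop := ∀ i : Fin r, u.1 i.succ = 0

theorem ax_jn {u : US r} {w : UD} : Ax r (jn r (u, w)) ↔ cw w = 0 := by
  refine ⟨fun h => by_contra fun a => ?_, fun h i => by rw [jn_succ, h]; simp⟩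
  have h1 : ∑ i, conj (u.1 i) * u.1 i = 1 := u.2
  have h2 : ∀ i, u.1 i = 0 := fun i => (mul_eq_zero.1 (h i)).resolve_left (by exact_mod_cast a)
  simp [h2] at h1

theorem jn_surj (u : US (r + 1)) : Ax r u ∨ ∃ z, jn r z = u := by
  let w : UD := ⟨u.1 0, mem_closedBall_zero_iff.2 (u.2.norm_le 0)⟩
  have h : conj (u.1 0) * u.1 0 + ∑ i : Fin r, conj (u.1 i.succ) * u.1 i.succ = 1 := by
    have := u.2
    rwa [Un1, Fin.sum_univ_succ] at this
  have c : ((cw w : ℝ) : ℂ) ^ 2 = 1 - (‖u.1 0‖ ^ 2 : ℝ) := by exact_mod_cast cw_sq w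
  rw [conj_mul_self] at h
  by_cases a : cw w = 0
  · refine .inl fun i => ?_
    have h1 : ∑ i : Fin r, ‖u.1 i.succ‖ ^ 2 = 0 := by
      have : ∑ i : Fin r, conj (u.1 i.succ) * u.1 i.succ = 0 := by
        rw [a, Complex.ofReal_zero] at c; linear_combination h - c
      simp only [conj_mul_self] at this
      exact_mod_cast this
    simpa using (Finset.sum_eq_zero_iff_of_nonneg fun _ _ => sq_nonneg _).1 h1 i (Finset.mem_univ _)
  · have a' : (cw w : ℂ) ≠ 0 := by exact_mod_cast a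
    refine .inr ⟨(⟨fun i => (cw w : ℂ)⁻¹ * u.1 i.succ, ?_⟩, w),
      Subtype.ext (funext fun i => Fin.cases rfl (fun i => mul_inv_cancel_left₀ a' _) i)⟩
    simp only [Un1, map_mul, map_inv₀, Complex.conj_ofReal]
    rw [Finset.sum_congr rfl
      (g := fun i => ((cw w : ℂ) ^ 2)⁻¹ * (conj (u.1 i.succ) * u.1 i.succ)) fun i _ => by ring,
      ← Finset.mul_sum, inv_mul_eq_one₀ (pow_ne_zero 2 a')]
    linear_combination c - h

/-- disc bundle to the next sphere -/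
def f1 : C((YD Y χ hχ r).Q, (YS Y χ hχ (r + 1)).Q) :=
  GS.qmap _ _ ⟨fun z : (Y.Z × US r) × UD => (z.1.1, jn r (z.1.2, z.2)), by fun_prop⟩
    fun g z => ⟨g, Prod.ext rfl (jn_act χ hχ r g z.1.2 z.2).symm⟩

/-- disc bundle to the sphere bundle -/
def f2 : C((YD Y χ hχ r).Q, (YP Y χ hχ r).E) :=
  GS.qmap _ _ ⟨fun z : (Y.Z × US r) × UD => (z.1, thD z.2), by fun_prop⟩
    fun g z => ⟨g, Prod.ext rfl (thD_act χ hχ g z.2).symm⟩

/-- points of the disc bundle -/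
def pd (y : Y.Z) (u : US r) (w : UD) : (YD Y χ hχ r).Q := (YD Y χ hχ r).pr ((y, u), w)
/-- points of the base -/
def pb (y : Y.Z) (u : US r) : (YS Y χ hχ r).Q := (YS Y χ hχ r).pr (y, u)

theorem pd_surj (z : (YD Y χ hχ r).Q) : ∃ y u w, pd Y χ hχ r y u w = z :=
  let ⟨a, h⟩ := (YD Y χ hχ r).pr_surj z; ⟨a.1.1, a.1.2, a.2, h⟩
theorem pb_surj (z : (YS Y χ hχ r).Q) : ∃ y u, pb Y χ hχ r y u = z :=
  let ⟨a, h⟩ := (YS Y χ hχ r).pr_surj z; ⟨a.1, a.2, h⟩
theorem pb_eq {y y' : Y.Z} {u u' : US r} : pb Y χ hχ r y u = pb Y χ hχ r y' u' ↔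
    ∃ g, Y.act g y = y' ∧ (Sp χ hχ r).act g u = u' :=
  (YS Y χ hχ r).pr_eq.trans (exists_congr fun _ => Prod.ext_iff)
theorem f1_pd (y : Y.Z) (u : US r) (w : UD) :
    f1 Y χ hχ r (pd Y χ hχ r y u w) = pb Y χ hχ (r + 1) y (jn r (u, w)) := rfl
theorem f2_pd (y : Y.Z) (u : US r) (w : UD) :
    f2 Y χ hχ r (pd Y χ hχ r y u w) = pt (YS Y χ hχ r) (ch χ hχ) (y, u) (thD w) := rfl

/-- the boundary of the disc bundle -/
def bdD : Set (YD Y χ hχ r).Q := {z | ∃ y u w, cw (w : UD) = 0 ∧ pd Y χ hχ r y u w = z}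

theorem pd_bd {y : Y.Z} {u : US r} {w : UD} : pd Y χ hχ r y u w ∈ bdD Y χ hχ r ↔ cw w = 0 := by
  refine ⟨fun ⟨y', u', w', a, e⟩ => ?_, fun h => ⟨y, u, w, h, rfl⟩⟩
  obtain ⟨g, e⟩ := (YD Y χ hχ r).pr_eq.1 e
  rw [← show (Dk χ hχ).act g w' = w from congrArg Prod.snd e]
  exact (cw_circ (χ g) w').trans a

/-- the inclusion of the boundary -/
def iD : C(bdD Y χ hχ r, (YD Y χ hχ r).Q) := ⟨Subtype.val, continuous_subtype_val⟩

theorem f2_surj : Function.Surjective (f2 Y χ hχ r) := fun e => by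
  obtain ⟨y, v, rfl⟩ := pt_surj e
  obtain ⟨w, rfl⟩ := thD_surj v
  exact ⟨pd Y χ hχ r y.1 y.2 w, rfl⟩

theorem f2_inj {z z' : (YD Y χ hχ r).Q} (h : f2 Y χ hχ r z = f2 Y χ hχ r z') :
    z = z' ∨ z ∈ bdD Y χ hχ r := by
  obtain ⟨y, u, w, rfl⟩ := pd_surj _ _ _ _ z
  obtain ⟨y', u', w', rfl⟩ := pd_surj _ _ _ _ z'
  refine or_iff_not_imp_right.2 fun a => ?_
  obtain ⟨g, e, e'⟩ := pt_iff.1 h
  refine (YD Y χ hχ r).pr_eq.2 ⟨g, Prod.ext e (thD_inj ((thD_act χ hχ g w).trans e') ?_)⟩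
  exact (cw_circ (χ g) w).trans_ne fun b => a ((pd_bd ..).2 b)

theorem f2_s {z : (YD Y χ hχ r).Q} :
    f2 Y χ hχ r z ∈ range (YP Y χ hχ r).s ↔ z ∈ bdD Y χ hχ r := by
  obtain ⟨y, u, w, rfl⟩ := pd_surj _ _ _ _ z
  rw [pd_bd, f2_pd, ← thD_inf]
  refine ⟨fun ⟨b, e⟩ => ?_, fun h => ⟨pb Y χ hχ r y u, by rw [h]; rfl⟩⟩
  obtain ⟨y', u', rfl⟩ := pb_surj _ _ _ _ b
  obtain ⟨g, -, e'⟩ := pt_iff.1 e
  exact e'.symm

theorem exc2 : Exc (cr (YP Y χ hχ r).s) (cr (iD Y χ hχ r)) (cr (f2 Y χ hχ r)) :=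
  exc_of _ _ _ (fun x => .inl (f2_surj _ _ _ _ x))
    (fun z => (f2_s ..).trans (by simp [iD])) fun z z' h => by simpa [iD] using f2_inj _ _ _ _ h

theorem f1_inj {z z' : (YD Y χ hχ r).Q} (h : f1 Y χ hχ r z = f1 Y χ hχ r z') :
    z = z' ∨ z ∈ bdD Y χ hχ r := by
  obtain ⟨y, u, w, rfl⟩ := pd_surj _ _ _ _ z
  obtain ⟨y', u', w', rfl⟩ := pd_surj _ _ _ _ z'
  refine or_iff_not_imp_right.2 fun a => ?_
  obtain ⟨g, e, e'⟩ := (pb_eq ..).1 h
  rw [← jn_act] at e'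
  obtain ⟨e1, e2⟩ := jn_inj r e' ((cw_circ (χ g) w).trans_ne fun b => a ((pd_bd ..).2 b))
  exact (YD Y χ hχ r).pr_eq.2 ⟨g, Prod.ext (Prod.ext e e1) e2⟩

/-- excision for any parametrisation `i` of the axis -/
theorem exc1 {A : Type} [TopologicalSpace A] [CompactSpace A] (i : C(A, (YS Y χ hχ (r + 1)).Q))
    (hi : ∀ y u, pb Y χ hχ (r + 1) y u ∈ range i ↔ Ax r u) :
    Exc (cr i) (cr (iD Y χ hχ r)) (cr (f1 Y χ hχ r)) :=
  exc_of _ _ _ (fun x => by
      obtain ⟨y, u, rfl⟩ := pb_surj _ _ _ _ x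
      rcases jn_surj r u with h | ⟨z, rfl⟩
      exacts [.inr ((hi y u).2 h), .inl ⟨pd Y χ hχ r y z.1 z.2, rfl⟩])
    (fun z => by
      obtain ⟨y, u, w, rfl⟩ := pd_surj _ _ _ _ z
      rw [f1_pd, hi, ax_jn, ← pd_bd Y χ hχ r (y := y) (u := u)]; simp [iD])
    fun z z' h => by simpa [iD] using f1_inj _ _ _ _ h

end Crest.Agent.N218.K.Cp

end
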