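import Crest.Agent.N218.K.Cp0

/-!
# Row 218, block D0 (helper56): K-theory of projective bundles, from Thom classes
-/

set_option autoImplicit false
set_option linter.unusedVariables false

open Crest.Agent.R204.K357 Crest.Agent.R204.Ex837 Topology Set OnePoint ComplexConjugate Polynomial

noncomputable section

namespace Crest.Agent.N218.K.Cp

variable {Γ : Type} [Group Γ] [TopologicalSpace Γ] [CompactSpace Γ]

/-- all stabilisers surject onto the circle -/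
def StS (Y : GS Γ) (χ : Γ →* Circle) : Prop := ∀ y z, ∃ g, Y.act g y = y ∧ χ g = z

variable (Y : GS Γ) (χ : Γ →* Circle) (hχ : Continuous χ) (r : ℕ)

/-- projection to the base -/
def piB : C((YS Y χ hχ r).Q, Y.Q) := GS.qmap _ _ ContinuousMap.fst fun g _ => ⟨g, rfl⟩

/-- the first basis vector -/
def e0 (r : ℕ) : US (r + 1) := ⟨Fin.cons 1 0, by simp [Un1, Fin.sum_univ_succ]⟩

theorem ax_e0 : Ax r (e0 r) := fun _ => rfl

theorem Ax.circ {u : US (r + 1)} (h : Ax r u) : ∃ z : Circle, u.1 0 = z := by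
  have h1 : conj (u.1 0) * u.1 0 = 1 := by
    have := u.2
    rw [Un1, Fin.sum_univ_succ] at this
    simpa [h _] using this
  rw [conj_mul_self] at h1
  have h2 : ‖u.1 0‖ ^ 2 = 1 := by exact_mod_cast h1
  exact ⟨⟨u.1 0, mem_sphere_zero_iff_norm.2 (by nlinarith [norm_nonneg (u.1 0)])⟩, rfl⟩

omit [CompactSpace Γ] in
theorem ax_act (g : Γ) {u : US (r + 1)} : Ax r ((Sp χ hχ (r + 1)).act g u) ↔ Ax r u :=
  forall_congr' fun i => (mul_eq_zero_iff_left (Circle.coe_ne_zero (χ g)))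

variable {Y χ}

theorem ax_eq (H : StS Y χ) (y : Y.Z) {u : US (r + 1)} (h : Ax r u) :
    pb Y χ hχ (r + 1) y (e0 r) = pb Y χ hχ (r + 1) y u := by
  obtain ⟨z, e⟩ := h.circ
  obtain ⟨g, a, b⟩ := H y z
  refine (pb_eq ..).2 ⟨g, a, Subtype.ext (funext fun i => Fin.cases ?_ (fun i => ?_) i)⟩
  · change (χ g : ℂ) * 1 = _
    rw [b, e, mul_one]
  · exact (mul_zero _).trans (h i).symm

/-- the section given by the axis -/
def jB (H : StS Y χ) : C(Y.Q, (YS Y χ hχ (r + 1)).Q) :=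
  Y.lift ((YS Y χ hχ (r + 1)).pr.comp ⟨fun y => (y, e0 r), by fun_prop⟩) fun g y =>
    (ax_eq hχ r H _ ((ax_act χ hχ r g).2 (ax_e0 r))).trans ((pb_eq ..).2 ⟨g, rfl, rfl⟩).symm

theorem jB_pr (H : StS Y χ) (y : Y.Z) : jB hχ r H (Y.pr y) = pb Y χ hχ (r + 1) y (e0 r) := rfl

theorem jB_range (H : StS Y χ) (y : Y.Z) (u : US (r + 1)) :
    pb Y χ hχ (r + 1) y u ∈ range (jB hχ r H) ↔ Ax r u := by
  refine ⟨fun ⟨b, e⟩ => ?_, fun h => ⟨Y.pr y, ax_eq hχ r H y h⟩⟩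
  obtain ⟨y', rfl⟩ := Y.pr_surj b
  obtain ⟨g, -, rfl⟩ := (pb_eq ..).1 e
  exact (ax_act χ hχ r g).2 (ax_e0 r)

theorem piB_jB (H : StS Y χ) (b : Y.Q) : piB Y χ hχ (r + 1) (jB hχ r H b) = b := by
  obtain ⟨y, rfl⟩ := Y.pr_surj b; rfl

theorem f1_bd (H : StS Y χ) {z : (YD Y χ hχ r).Q} (h : z ∈ bdD Y χ hχ r) :
    f1 Y χ hχ r z = jB hχ r H (piB Y χ hχ r ((YP Y χ hχ r).p (f2 Y χ hχ r z))) := by
  obtain ⟨y, u, w, a, rfl⟩ := h
  exact (ax_eq hχ r H y ((ax_jn r).2 a)).symm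

omit [CompactSpace Γ] in
theorem qm_of {A B : Type} [TopologicalSpace A] [CompactSpace A] [TopologicalSpace B] [T2Space B]
    (f : C(A, B)) (h : Function.Surjective f) : IsQuotientMap f :=
  f.continuous.isClosedMap.isQuotientMap f.continuous h

theorem f1_fac (H : StS Y χ) : Function.FactorsThrough (f1 Y χ hχ r) (f2 Y χ hχ r) :=
  fun z z' e => by
    rcases f2_inj _ _ _ _ e with rfl | h
    · rfl
    · rw [f1_bd hχ r H h, f1_bd hχ r H ((f2_s ..).1 (e ▸ (f2_s ..).2 h)), e]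

/-- the collapse of the section at infinity -/
def cP (H : StS Y χ) : C((YP Y χ hχ r).E, (YS Y χ hχ (r + 1)).Q) :=
  (qm_of _ (f2_surj Y χ hχ r)).lift (f1 Y χ hχ r) (f1_fac hχ r H)

theorem cP_f2 (H : StS Y χ) (z : (YD Y χ hχ r).Q) : cP hχ r H (f2 Y χ hχ r z) = f1 Y χ hχ r z :=
  DFunLike.congr_fun ((qm_of _ (f2_surj Y χ hχ r)).lift_comp (f1 Y χ hχ r) (f1_fac hχ r H)) z

theorem piB_cP (H : StS Y χ) (e : (YP Y χ hχ r).E) :
    piB Y χ hχ (r + 1) (cP hχ r H e) = piB Y χ hχ r ((YP Y χ hχ r).p e) := by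
  obtain ⟨z, rfl⟩ := f2_surj Y χ hχ r e
  obtain ⟨y, u, w, rfl⟩ := pd_surj _ _ _ _ z
  rw [cP_f2]; rfl

theorem cP_s (H : StS Y χ) (b : (YS Y χ hχ r).Q) :
    cP hχ r H ((YP Y χ hχ r).s b) = jB hχ r H (piB Y χ hχ r b) := by
  obtain ⟨z, e⟩ := f2_surj Y χ hχ r ((YP Y χ hχ r).s b)
  rw [← e, cP_f2, f1_bd hχ r H ((f2_s ..).1 ⟨b, e.symm⟩), e, Ex.ps]

theorem cP_inj (H : StS Y χ) {x : KX (YS Y χ hχ (r + 1)).Q} (h1 : pull (jB hχ r H) x = 0)
    (h2 : pull (cP hχ r H) x = 0) : x = 0 := by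
  obtain ⟨z, rfl, z2⟩ := Db.lift (ρ := cr (jB hχ r H))
    (cr_surj (Function.LeftInverse.injective (piB_jB hχ r H))) h1
  have E := exc1 Y χ hχ r (jB hχ r H) (jB_range hχ r H)
  have m : ∀ a, cr (jB hχ r H) a = 0 → cr (YP Y χ hχ r).s (cr (cP hχ r H) a) = 0 := fun a ha =>
    ContinuousMap.ext fun b => (congrArg a (cP_s hχ r H b)).trans (DFunLike.congr_fun ha _)
  have e1 : KR (Db.mp (cr (cP hχ r H)) m) z = 0 :=
    Db.inj (stLift_of_section _ (cr (YP Y χ hχ r).p) fun a =>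
      ContinuousMap.ext fun b => congrArg a ((YP Y χ hχ r).ps b))
      ((Db.f_mp _ m z).trans h2) (by rw [Db.s_mp, z2, map_zero])
  have e2 : z = 0 := E.kinj (by
    rw [← kr_kr (Db.mp _ (exc2 Y χ hχ r).mp) (Db.mp (cr (cP hχ r H)) m) (Db.mp _ E.mp) fun a =>
      Subtype.ext (Prod.ext (ContinuousMap.ext fun w => congrArg a.1.1 (cP_f2 hχ r H w))
        (ContinuousMap.ext fun w => congrArg a.1.2 (cP_f2 hχ r H w))), e1, map_zero]) z2
  rw [e2, map_zero]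

theorem kx_empty {X : Type} [TopologicalSpace X] [IsEmpty X] (x : KX X) : x = 0 := by
  rw [← mul_one x, ← kc_one, Subsingleton.elim (1 : Matrix Unit Unit C(X, ℂ)) 0]
  exact mul_eq_zero_of_right _ K0.cls_zero

instance : IsEmpty (US 0) := ⟨fun u => by simpa [Un1] using u.2⟩

omit [CompactSpace Γ] in
instance : IsEmpty (YS Y χ hχ 0).Q :=
  ⟨fun z => let ⟨a, _⟩ := (YS Y χ hχ 0).pr_surj z; isEmptyElim (α := US 0) a.2⟩

theorem ev_hom {R K K' : Type} [CommRing R] [CommRing K] [CommRing K'] (i : R →+* K) (l : K)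
    (f : K →+* K') (i' : R →+* K') (h : ∀ a, f (i a) = i' a) (p : R[X]) :
    f (eval₂ i l p) = eval₂ i' (f l) p := by
  rw [hom_eval₂, RingHom.ext (f := f.comp i) h]

theorem ev_mul {R K : Type} [CommRing R] [CommRing K] (i : R →+* K) {l l' t : K}
    (h : l * t = l' * t) (p : R[X]) : eval₂ i l p * t = eval₂ i l' p * t := by
  have := sub_dvd_eval_sub l l' (p.map i)
  obtain ⟨c, hc⟩ := this
  rw [eval_map, eval_map] at hc
  linear_combination hc * t + c * h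

/-- **the projective bundle theorem** -/
theorem cp_of (H : StS Y χ) (L : ∀ r, KX (YS Y χ hχ r).Q) (lam : ∀ r, KX (YP Y χ hχ r).E)
    (th : ∀ r, (YP Y χ hχ r).Th (lam r))
    (hc : ∀ r, lam r = 1 - pull (cP hχ r H) (L (r + 1)))
    (hm : ∀ r, pull (cP hχ r H) (L (r + 1)) * lam r = pull (YP Y χ hχ r).p (L r) * lam r)
    (hj : ∀ r, pull (jB hχ r H) (L (r + 1)) = 1) (r : ℕ) :
    (∀ x, ∃ p, eval₂ (pull (piB Y χ hχ r)) (L r) p = x) ∧
      ∀ p, eval₂ (pull (piB Y χ hχ r)) (L r) p = 0 ↔ (1 - X) ^ r ∣ p := by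
  induction r with
  | zero => exact ⟨fun x => ⟨0, (kx_empty _).trans (kx_empty _).symm⟩, fun p => by simp [kx_empty]⟩
  | succ r ih =>
    have K2 : ∀ a, pull (cP hχ r H) (eval₂ (pull (piB Y χ hχ (r + 1))) (L (r + 1)) ((1 - X) * a))
        = (YP Y χ hχ r).sm (eval₂ (pull (piB Y χ hχ r)) (L r) a) (lam r) := fun a => by
      rw [Ex.sm, ev_hom _ _ (pull (YP Y χ hχ r).p)
          ((pull (YP Y χ hχ r).p).comp (pull (piB Y χ hχ r))) (fun _ => rfl), ← ev_mul _ (hm r),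
        ev_hom _ _ (pull (cP hχ r H)) ((pull (YP Y χ hχ r).p).comp (pull (piB Y χ hχ r)))
          fun k => (pull_pull _ _ _ (piB_cP hχ r H) k).trans (pull_comp _ _ k),
        eval₂_mul, eval₂_sub, eval₂_one, eval₂_X, ← hc, mul_comm]
    have K3 : ∀ a, pull (jB hχ r H) (eval₂ (pull (piB Y χ hχ (r + 1))) (L (r + 1)) a) =
        a.eval 1 := fun a => by
      rw [ev_hom _ _ _ (RingHom.id _) (pull_pull_id _ _ (piB_jB hχ r H)), hj]; rfl
    refine ⟨fun x => ?_, fun p => ⟨fun h => ?_, ?_⟩⟩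
    · set y := x - pull (piB Y χ hχ (r + 1)) (pull (jB hχ r H) x) with hy
      have y0 : pull (jB hχ r H) y = 0 := by
        rw [hy, map_sub, pull_pull_id _ _ (piB_jB hχ r H), sub_self]
      obtain ⟨b, hb, -⟩ := (th r).2 (pull (cP hχ r H) y) (by
        rw [Ex.Rd, pull_pull _ _ ((jB hχ r H).comp (piB Y χ hχ r)) (cP_s hχ r H), pull_comp, y0,
          map_zero])
      obtain ⟨a, rfl⟩ := ih.1 b
      refine ⟨C (pull (jB hχ r H) x) + (1 - X) * a, ?_⟩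
      have := cP_inj hχ r H
        (x := y - eval₂ (pull (piB Y χ hχ (r + 1))) (L (r + 1)) ((1 - X) * a))
        (by rw [map_sub, y0, K3]; simp) (by rw [map_sub, K2, hb, sub_self])
      rw [eval₂_add, eval₂_C]
      linear_combination -this
    · have h1 : p.IsRoot 1 := by rw [IsRoot, ← K3, h, map_zero]
      obtain ⟨a, rfl⟩ : (1 - X) ∣ p := by
        have := dvd_iff_isRoot.2 h1
        rwa [C_1, ← neg_sub, neg_dvd] at this
      have h2 := K2 a
      rw [h, map_zero] at h2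
      obtain ⟨b, -, hb⟩ := (th r).2 0 (map_zero _)
      rw [pow_succ']
      exact mul_dvd_mul_left _ ((ih.2 a).1 ((hb _ h2).trans (hb 0 (by simp [Ex.sm])).symm))
    · rintro ⟨a, rfl⟩
      rw [pow_succ', mul_assoc]
      exact cP_inj hχ r H (by rw [K3]; simp)
        (by rw [K2, (ih.2 _).2 (dvd_mul_right _ _)]; simp [Ex.sm])

end Crest.Agent.N218.K.Cp

end
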