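import Crest.Agent.N218.K.Cp2
import Crest.Agent.N218.K.Dcm

/-!
# Row 218 (helper86): the Gysin formula along `S(rχ) ⊆ S((r+1)χ)`
-/

set_option autoImplicit false
set_option linter.unusedVariables false

open unitInterval Topology Filter Set OnePoint ComplexConjugate

noncomputable section

namespace Crest.Agent.N218.K.En

open Cp

section
variable {A A1 C C1 B U S P : Type} [CommRing A] [CommRing A1] [CommRing C] [CommRing C1]
  [CommRing B] [CommRing U] [CommRing S] [CommRing P]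

/-- a pair of maps that agree modulo `ρ` -/
def dbOf (ρ : A →+* C) (f g : S →+* A) (h : ∀ u, ρ (f u) = ρ (g u)) : S →+* Db ρ :=
  (f.prod g).codRestrict _ h

theorem gys0 {ρ : A →+* C} {ρ1 : A1 →+* C1} {φ : A →+* A1} (E : Exc ρ ρ1 φ) (F F0 : S →+* A)
    (τ τ0 : U →+* A) (G1 G2 : P →+* A1) (c : S →+* P) (q : B →+* P) (p : U →+* P) (G : B →+* A1)
    (a1 : ∀ u, ρ (F u) = ρ (F0 u)) (a2 : ∀ u, ρ (τ u) = ρ (τ0 u))
    (h0 : ∀ u, ρ1 (G1 u) = ρ1 (G2 u)) (h1 : ∀ u, φ (F u) = G1 (c u))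
    (h2 : ∀ u, φ (F0 u) = G2 (c u)) (h3 : ∀ u, G u = G1 (q u)) (h4 : ∀ u, G u = G2 (q u))
    (h5 : ∀ u, φ (τ u) = G1 (p u)) (h6 : ∀ u, φ (τ0 u) = G2 (p u)) {m : KC S} {l : KC B}
    {t : KC U} (hm : KR c m = KR q l * KR p t) (m0 : KR F0 m = 0) (t0 : KR τ0 t = 0)
    {y : KC A} (hy : KR φ y = KR G l) : KR F m = y * KR τ t := by
  have e : KR (dbOf ρ F F0 a1) m = KR (Db.dg ρ) y * KR (dbOf ρ τ τ0 a2) t := by
    refine sub_eq_zero.1 (E.kinj ?_ ?_)
    · rw [map_sub, map_mul, Db.mp_dg, hy,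
        kr_sq (Db.mp _ E.mp) (dbOf ρ F F0 a1) (dbOf ρ1 G1 G2 h0) c fun u => Subtype.ext
          (Prod.ext (h1 u) (h2 u)),
        kr_sq (Db.mp _ E.mp) (dbOf ρ τ τ0 a2) (dbOf ρ1 G1 G2 h0) p fun u => Subtype.ext
          (Prod.ext (h5 u) (h6 u)),
        kr_sq (Db.dg ρ1) G (dbOf ρ1 G1 G2 h0) q fun u => Subtype.ext (Prod.ext (h3 u) (h4 u)),
        ← map_mul, hm, sub_self]
    · rw [map_sub, map_mul, kr_kr (Db.s ρ) (dbOf ρ F F0 a1) F0 fun _ => rfl,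
        kr_kr (Db.s ρ) (dbOf ρ τ τ0 a2) τ0 fun _ => rfl, m0, t0, mul_zero, sub_self]
  have := congrArg (KR (Db.f ρ)) e
  rwa [map_mul, Db.f_dg, kr_kr (Db.f ρ) (dbOf ρ F F0 a1) F fun _ => rfl,
    kr_kr (Db.f ρ) (dbOf ρ τ τ0 a2) τ fun _ => rfl] at this
end

section
variable {X X1 K B U S P : Type} [TopologicalSpace X] [TopologicalSpace X1] [TopologicalSpace K]
  [TopologicalSpace B] [TopologicalSpace U] [TopologicalSpace S] [TopologicalSpace P]

/-- products of relative classes can be computed after excision -/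
theorem gys (i : C(K, X1)) (φ : C(X1, X)) (E : Exc (cr (φ.comp i)) (cr i) (cr φ))
    (F F0 : C(X, S)) (τ τ0 : C(X, U)) (G1 G2 : C(X1, P)) (c : C(P, S)) (q : C(P, B)) (p : C(P, U))
    (G : C(X1, B)) (h0 : ∀ a, G1 (i a) = G2 (i a)) (h1 : ∀ z, c (G1 z) = F (φ z))
    (h2 : ∀ z, c (G2 z) = F0 (φ z)) (h3 : ∀ z, q (G1 z) = G z) (h4 : ∀ z, q (G2 z) = G z)
    (h5 : ∀ z, p (G1 z) = τ (φ z)) (h6 : ∀ z, p (G2 z) = τ0 (φ z)) {m : KX S} {l : KX B}
    {t : KX U} (hm : pull c m = pull q l * pull p t) (m0 : pull F0 m = 0) (t0 : pull τ0 t = 0)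
    {y : KX X} (hy : pull φ y = pull G l) : pull F m = y * pull τ t :=
  gys0 E (cr F) (cr F0) (cr τ) (cr τ0) (cr G1) (cr G2) (cr c) (cr q) (cr p) (cr G)
    (fun u => ContinuousMap.ext fun a => congrArg u
      ((h1 _).symm.trans ((congrArg c (h0 a)).trans (h2 _))))
    (fun u => ContinuousMap.ext fun a => congrArg u
      ((h5 _).symm.trans ((congrArg p (h0 a)).trans (h6 _))))
    (fun u => ContinuousMap.ext fun a => congrArg u (h0 a))
    (fun u => ContinuousMap.ext fun a => congrArg u (h1 a).symm)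
    (fun u => ContinuousMap.ext fun a => congrArg u (h2 a).symm)
    (fun u => ContinuousMap.ext fun a => congrArg u (h3 a).symm)
    (fun u => ContinuousMap.ext fun a => congrArg u (h4 a).symm)
    (fun u => ContinuousMap.ext fun a => congrArg u (h5 a).symm)
    (fun u => ContinuousMap.ext fun a => congrArg u (h6 a).symm) hm m0 t0 hy
end

variable {Γ : Type} [Group Γ] [TopologicalSpace Γ] [CompactSpace Γ] (χ : Γ →* Circle)
  (hχ : Continuous χ) (r : ℕ) (M T : LS Γ)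

/-- the disc bundle -/
abbrev DD : GS Γ := (Sp χ hχ r).prod (Dk χ hχ)

/-- the centre of the disc -/
def o : UD := ⟨0, by simp⟩

theorem cw_o : cw o.1 = 1 := by simp [cw, o]

/-- the join map on sphere bundles -/
def jM : C((Sb (DD χ hχ r) M).E, (Sb (Sp χ hχ (r + 1)) M).E) :=
  GS.qmap _ _ ⟨fun z : (US r × UD) × OnePoint M.Z => (jn r z.1, z.2), by fun_prop⟩
    fun g z => ⟨g, Prod.ext (jn_act χ hχ r g z.1.1 z.1.2).symm rfl⟩

/-- the zero section of the disc bundle -/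
def i0 : C((Sb (Sp χ hχ r) M).E, (Sb (DD χ hχ r) M).E) :=
  GS.qmap _ _ ⟨fun z : US r × OnePoint M.Z => ((z.1, o), z.2), by fun_prop⟩
    fun g z => ⟨g, Prod.ext (Prod.ext rfl (Subtype.ext (mul_zero _))) rfl⟩

theorem i0_inj : Function.Injective (pull (i0 χ hχ r M)) := by
  let π : C((Sb (DD χ hχ r) M).E, (Sb (Sp χ hχ r) M).E) :=
    GS.qmap _ _ ⟨fun z : (US r × UD) × OnePoint M.Z => (z.1.1, z.2), by fun_prop⟩
      fun g z => ⟨g, rfl⟩
  let s : I × UD → UD := fun z => ⟨(z.1 : ℝ) * z.2.1, mem_closedBall_zero_iff.2 (by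
    rw [norm_mul, Complex.norm_real, Real.norm_of_nonneg z.1.2.1]
    exact mul_le_one₀ z.1.2.2 (norm_nonneg _) z.2.le)⟩
  have cs : Continuous s := Continuous.subtype_mk (by fun_prop) _
  obtain ⟨H, e⟩ := sb_lift (Y := DD χ hχ r) (M := M) (T := I)
    (fun z => pt (DD χ hχ r) M (z.2.1.1, s (z.1, z.2.1.2)) z.2.2)
    ((cont_pt (Y := DD χ hχ r) (M := M)).comp ((continuous_snd.fst.fst.prodMk
      (cs.comp (continuous_fst.prodMk continuous_snd.fst.snd))).prodMk continuous_snd.snd))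
    fun t g y w => Eq.trans (congrArg (fun c => pt (DD χ hχ r) M (_, c) _)
      (Subtype.ext (mul_left_comm _ _ _))) (pt_act (Y := DD χ hχ r) g (y.1, s (t, y.2)) w)
  have k : pull ((i0 χ hχ r M).comp π) = pull (.id _) := pull_htpy ⟨H, fun x => by
      obtain ⟨y, w, rfl⟩ := pt_surj x
      exact (e 0 y w).trans (congrArg (fun c => pt (DD χ hχ r) M (_, c) _)
        (Subtype.ext (by simp [s, o]))), fun x => by
      obtain ⟨y, w, rfl⟩ := pt_surj x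
      exact (e 1 y w).trans (congrArg (fun c => pt (DD χ hχ r) M (_, c) _)
        (Subtype.ext (by simp [s])))⟩
  exact Function.LeftInverse.injective (g := pull π) fun x => by rw [← pull_comp, k, pull_id]

/-- the boundary, before the quotient -/
abbrev KB : Type := {z : (US r × UD) × OnePoint M.Z // cw z.1.2 = 0}

instance : CompactSpace (KB r M) := isCompact_iff_compactSpace.1
  (isClosed_eq (cw_cont.comp (by fun_prop)) continuous_const).isCompact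

/-- the boundary -/
def iB : C(KB r M, (Sb (DD χ hχ r) M).E) :=
  ⟨fun z => pt (DD χ hχ r) M z.1.1 z.1.2, cont_pt.comp continuous_subtype_val⟩

theorem mem_iB {y : US r × UD} {w : OnePoint M.Z} :
    pt (DD χ hχ r) M y w ∈ range (iB χ hχ r M) ↔ cw y.2 = 0 := by
  refine ⟨fun ⟨z, e⟩ => ?_, fun h => ⟨⟨(y, w), h⟩, rfl⟩⟩
  obtain ⟨g, a, -⟩ := pt_iff.1 e
  rw [← a]; exact (cw_circ (χ g) _).trans z.2

variable {r} in
theorem jn_onto (hr : 0 < r) : Function.Surjective (jn r) := fun u => by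
  refine (jn_surj r u).elim (fun h => ?_) id
  let w : UD := ⟨u.1 0, mem_closedBall_zero_iff.2 (u.2.norm_le 0)⟩
  have a : cw w = 0 := by
    have k := u.2
    have c := cw_rel w
    rw [Un1, Fin.sum_univ_succ] at k
    simp only [h _, mul_zero, Finset.sum_const_zero, add_zero] at k
    have : (cw w : ℂ) * cw w = 0 := by linear_combination c - k
    exact_mod_cast mul_self_eq_zero.1 this
  obtain ⟨r, rfl⟩ : ∃ n, r = n + 1 := ⟨r - 1, by omega⟩
  refine ⟨(e0 r, w), Subtype.ext (funext fun i => Fin.cases rfl (fun i => ?_) i)⟩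
  rw [jn_succ, a, h i]; simp

variable {r} in
theorem exc (hr : 0 < r) :
    Exc (cr ((jM χ hχ r M).comp (iB χ hχ r M))) (cr (iB χ hχ r M)) (cr (jM χ hχ r M)) := by
  refine exc_of _ _ _ (fun x => .inl ?_) (fun z => ⟨fun ⟨a, e⟩ => ?_, fun ⟨a, e⟩ => ⟨a, e ▸ rfl⟩⟩)
    fun z z' e => ?_
  · obtain ⟨y, w, rfl⟩ := pt_surj x
    obtain ⟨y, rfl⟩ := jn_onto hr y
    exact ⟨pt (DD χ hχ r) M y w, rfl⟩
  · obtain ⟨y, w, rfl⟩ := pt_surj z
    obtain ⟨g, b, -⟩ := (pt_iff (Y := Sp χ hχ (r + 1))).1 e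
    have c : (χ g : ℂ) * a.1.1.2.1 = y.2.1 := congrArg (fun z : US (r + 1) => z.1 0) b
    exact (mem_iB ..).2 (c ▸ (cw_circ (χ g) _).trans a.2)
  · obtain ⟨y, w, rfl⟩ := pt_surj z
    obtain ⟨y', w', rfl⟩ := pt_surj z'
    refine or_iff_not_imp_right.2 fun a => ?_
    obtain ⟨g, b, c⟩ := (pt_iff (Y := Sp χ hχ (r + 1))).1 e
    obtain ⟨e1, e2⟩ := jn_inj r ((jn_act χ hχ r g y.1 y.2).trans b)
      ((cw_circ (χ g) _).trans_ne fun b => a ((mem_iB ..).2 b))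
    exact pt_iff.2 ⟨g, Prod.ext e1 e2, c⟩

/-- the section of the line bundle given by the new coordinate -/
def sg : C((Sp χ hχ (r + 1)).Q, (Sb (Sp χ hχ (r + 1)) (ch χ hχ)).E) :=
  GS.qmap _ _ ⟨fun u : US (r + 1) =>
    (u, thD ⟨u.1 0, mem_closedBall_zero_iff.2 (u.2.norm_le 0)⟩), continuous_id.prodMk
      (thD.continuous.comp (Continuous.subtype_mk
        ((continuous_apply 0).comp continuous_subtype_val) _))⟩
    fun g u => ⟨g, Prod.ext rfl (thD_act χ hχ g _).symm⟩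

theorem sg_lam : pull (sg χ hχ r) (lam1 _ χ hχ) = 1 - LL χ hχ (r + 1) := by
  rw [lam1_eq hχ (spS0 χ hχ (r + 1)), map_sub, map_one, Sec.H, pull_kc _ (Sec.ln_H hχ _).idem]
  congr 1
  let S := spS0 χ hχ (r + 1)
  let c : C((Sp χ hχ (r + 1)).Q, ℂ) := (Sp χ hχ (r + 1)).lift
    ⟨fun u : US (r + 1) => cw (u.1 0), Complex.continuous_ofReal.comp (cw_cont.comp
      ((continuous_apply 0).comp continuous_subtype_val))⟩ fun g u =>
        congrArg ((↑) : ℝ → ℂ) (cw_circ (χ g) _)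
  refine kc_ln (Matrix.of fun a j => Sum.elim (fun i => c * S.out S i j)
    (fun _ => S.out S (0 : Fin (r + 1)) j) a) fun x => ?_
  obtain ⟨u, rfl⟩ := GS.pr_surj _ x
  let w : UD := ⟨u.1 0, mem_closedBall_zero_iff.2 (u.2.norm_le 0)⟩
  refine ⟨S.wv u (cw w) w, u.1, Sec.un_wv _ _ (by rw [Complex.conj_ofReal, cw_rel]), u.2,
    Sec.op_H2 hχ S S u (Complex.conj_ofReal (cw w)) (al_thD w) (be_thD w) (cw_rel w),
    fun _ _ => rfl, ?_⟩
  rintro (i | i) j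
  · exact (mul_assoc _ _ _).symm
  · rfl

variable {M T r} in
/-- **the Gysin formula** -/
theorem gysin (hr : 0 < r) (f : C(US r × OnePoint M.Z, OnePoint T.Z))
    (hf : ∀ g u w, f ((Sp χ hχ r).act g u, M.sph.act g w) = T.sph.act g (f (u, w)))
    (F : C((Sb (Sp χ hχ r) M).E, (Sb (Sp χ hχ (r + 1)) T).E))
    (hF : ∀ u w, F (pt _ M u w) = pt (Sp χ hχ (r + 1)) T (jn r (u, o)) (f (u, w)))
    (F' : C((Sb (Sp χ hχ (r + 1)) M).E, (Sb (Sp χ hχ (r + 1)) (T.prod (ch χ hχ))).E))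
    (hF' : ∀ u c w, F' (pt (Sp χ hχ (r + 1)) M (jn r (u, c)) w) =
      pt (Sp χ hχ (r + 1)) _ (jn r (u, c)) (wdg (f (u, w), thD c)))
    {l : KS (Sp χ hχ (r + 1)) T} (hl : (Sb _ _).Rd l) {y : KS (Sp χ hχ (r + 1)) M}
    (hy : pull ((jM χ hχ r M).comp (i0 χ hχ r M)) y = pull F l) :
    pull F' (xm l (lam1 _ χ hχ)) = (Sb _ _).sm (1 - LL χ hχ (r + 1)) y := by
  let D := smd (Sp χ hχ (r + 1)) T (ch χ hχ)
  let G : C((Sb (DD χ hχ r) M).E, (Sb (Sp χ hχ (r + 1)) T).E) :=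
    GS.qmap _ _ ⟨fun z : (US r × UD) × OnePoint M.Z => (jn r z.1, f (z.1.1, z.2)), by fun_prop⟩
      fun g z => ⟨g, Prod.ext (jn_act χ hχ r g z.1.1 z.1.2).symm (hf g _ _).symm⟩
  let G1 : C((Sb (DD χ hχ r) M).E, D.P.E) :=
    GS.qmap _ (((Sp χ hχ (r + 1)).prod (ch χ hχ).sph).prod T.sph)
      ⟨fun z : (US r × UD) × OnePoint M.Z => ((jn r z.1, thD z.1.2), f (z.1.1, z.2)), by fun_prop⟩
      fun g z => ⟨g, Prod.ext (Prod.ext (jn_act χ hχ r g z.1.1 z.1.2).symm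
        (thD_act χ hχ g z.1.2).symm) (hf g _ _).symm⟩
  let G2 : C((Sb (DD χ hχ r) M).E, D.P.E) :=
    GS.qmap _ (((Sp χ hχ (r + 1)).prod (ch χ hχ).sph).prod T.sph)
      ⟨fun z : (US r × UD) × OnePoint M.Z => ((jn r z.1, ∞), f (z.1.1, z.2)), by fun_prop⟩
      fun g z => ⟨g, Prod.ext (Prod.ext (jn_act χ hχ r g z.1.1 z.1.2).symm rfl) (hf g _ _).symm⟩
  have key := gys (iB χ hχ r M) (jM χ hχ r M) (exc χ hχ M hr) F'
    ((Sb _ _).s.comp (Sb _ M).p) ((sg χ hχ r).comp (Sb _ M).p) ((Sb _ _).s.comp (Sb _ M).p)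
    G1 G2 D.c D.q D.P.p G
    (fun a => congrArg (fun v => pt ((Sp χ hχ (r + 1)).prod (ch χ hχ).sph) T (jn r a.1.1, v)
      (f (a.1.1.1, a.1.2))) (thD_bd a.2))
    (fun z => by obtain ⟨y, w, rfl⟩ := pt_surj z; exact (hF' y.1 y.2 w).symm)
    (fun z => by
      obtain ⟨y, w, rfl⟩ := pt_surj z
      exact congrArg (pt (Sp χ hχ (r + 1)) _ (jn r y)) (wdg_r _))
    (fun z => by obtain ⟨y, w, rfl⟩ := pt_surj z; rfl)
    (fun z => by obtain ⟨y, w, rfl⟩ := pt_surj z; rfl)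
    (fun z => by obtain ⟨y, w, rfl⟩ := pt_surj z; rfl)
    (fun z => by obtain ⟨y, w, rfl⟩ := pt_surj z; rfl)
    (D.c_mul hl (rd_lam1 hχ)) (by rw [pull_comp, D.rd_mul, map_zero])
    (by rw [pull_comp, rd_lam1 hχ, map_zero]) (y := y) (i0_inj χ hχ r M (by
      rw [← pull_comp, hy, pull_pull _ G F fun z => by
        obtain ⟨y, w, rfl⟩ := pt_surj z; exact (hF y w).symm]))
  rw [pull_comp, sg_lam, mul_comm] at key
  exact key

end Crest.Agent.N218.K.En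

end
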