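import Crest.Agent.N218.K.Denl0
import Crest.Agent.N218.K.Cx0

/-!
# Row 218 (helper86): the classifying map after enlarging `U`
-/

set_option autoImplicit false
set_option linter.unusedVariables false

open unitInterval Topology Filter Set OnePoint ComplexConjugate

noncomputable section

namespace Crest.Agent.N218.K.En

open Cp

variable {Γ : Type} [Group Γ] [TopologicalSpace Γ] [CompactSpace Γ]

/-- a pointed map whose finite values never point against the problem represents it -/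
theorem ht_of_pm {Y : GS Γ} {M : LS Γ} {W : Rep Γ} {P : FP Y M W} (h : P.Ok)
    {g : Y.Z × M.Z → OnePoint W.W} (m : Pm Y M W.ls g) (sub : ∀ z, g z ≠ ∞ → z ∈ P.O)
    (z1 : ∀ z ∈ P.O, P.f z = 0 → g z ≠ ∞)
    (z2 : ∀ z (v : W.W) (s : ℝ), 0 ≤ s → s ≤ 1 → g z = v → (1 - s) • P.f z + s • v = 0 → P.f z = 0)
    {F : H1 (Sb Y M) (Sb Y W.ls)} (r : Rg F g) : P.hm.Ht F := by
  let Q : FP Y M W := ⟨{z | g z ≠ ∞}, fun z => OnePoint.rec 0 id (g z)⟩
  have e : ∀ z ∈ Q.O, g z = Q.f z := fun z a => by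
    obtain ⟨v, b⟩ := ne_infty_iff_exists.1 a
    simp only [Q, ← b]; rfl
  have op : IsOpen Q.O := isClosed_infty.isOpen_compl.preimage m.ct
  have ct : ContinuousOn Q.f Q.O :=
    isOpenEmbedding_coe.isInducing.continuousOn_iff.2 (m.ct.continuousOn.congr fun z a => (e z a).symm)
  have ac : ∀ γ, ∀ z ∈ Q.O, g (Y.act γ z.1, M.act γ z.2) = (W.ρ γ (Q.f z) : OnePoint W.W) :=
    fun γ z a => (m.eq γ z.1 z.2).trans (congrArg (W.ls.sph.act γ) (e z a))
  have inv : ∀ γ, ∀ z ∈ Q.O, (Y.act γ z.1, M.act γ z.2) ∈ Q.O := fun γ z a =>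
    (ac γ z a).trans_ne (coe_ne_infty _)
  have cs : Continuous fun z : I × (Y.Z × M.Z) => (z.1 : ℝ) := by fun_prop
  have c2 : ContinuousOn (fun z : I × (Y.Z × M.Z) => (1 - (z.1 : ℝ)) • P.f z.2 + (z.1 : ℝ) • Q.f z.2)
      (Prod.snd ⁻¹' Q.O) :=
    ((continuous_const.sub cs).continuousOn.smul
      (h.ct.comp continuousOn_snd fun z a => sub _ a)).add
      (cs.continuousOn.smul (ct.comp continuousOn_snd fun z a => a))
  obtain ⟨a, b, c⟩ := FP.ht_of (⟨Q.O, P.f⟩ : FP Y M W) Q (Prod.snd ⁻¹' Q.O) _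
    (op.preimage continuous_snd) (fun γ t x => inv γ x) c2 (fun γ t x a => by
      simp only [map_add, _root_.map_smul]
      rw [h.eq γ x (sub _ a), coe_injective ((e _ (inv γ x a)).symm.trans (ac γ x a))])
    (cp_of_sub (isCompact_univ.prod h.cp) (fun z a => z1 _ a.2.1 a.2.2) c2 fun z a k =>
      ⟨trivial, sub _ a, z2 _ _ _ z.1.2.1 z.1.2.2 (e _ a) k⟩)
    (fun _ => Iff.rfl) (fun x _ => by simp) (fun _ => Iff.rfl) fun x _ => by simp
  exact ((h.exc a sub (fun _ _ => rfl) z1).tr c).tr (b.proper m e (fun x => not_not.1) r)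

variable (χ : Γ →* Circle) (hχ : Continuous χ) (r : ℕ) {X : LS Γ} (V : Rep Γ)

/-- splitting off the new coordinate -/
def spl : ((TT χ hχ r V).prod (ch χ hχ)).Iso (TT χ hχ (r + 1) V) where
  e :=
    { toFun := fun z : (V.W × (Fin r → ℂ)) × ℂ =>
        ((z.1.1, Fin.cons (-z.2) z.1.2) : V.W × (Fin (r + 1) → ℂ))
      invFun := fun z : V.W × (Fin (r + 1) → ℂ) => ((z.1, fun i => z.2 i.succ), -z.2 0)
      left_inv := fun z : (V.W × (Fin r → ℂ)) × ℂ => Prod.ext rfl (neg_neg z.2)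
      right_inv := fun z => Prod.ext rfl (funext fun i => Fin.cases (neg_neg _) (fun _ => rfl) i)
      continuous_toFun := continuous_fst.fst.prodMk (continuous_pi fun i =>
        Fin.cases continuous_snd.neg (fun i => (continuous_apply i).comp continuous_fst.snd) i)
      continuous_invFun := by fun_prop }
  eq g z := Prod.ext rfl (funext fun i => Fin.cases (mul_neg _ _).symm (fun _ => rfl) i)

variable {V r} in
theorem cl_enl (hr : 0 < r) {P : PB X V} {F} (h : Cl χ hχ r P F) :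
    ∃ (f : C(US r × OnePoint X.xr.Z, OnePoint (TT χ hχ r V).Z))
      (F3 : C((Sb (Sp χ hχ (r + 1)) X.xr).E,
        (Sb (Sp χ hχ (r + 1)) ((TT χ hχ r V).prod (ch χ hχ))).E)) (F' : H1 _ _),
      (∀ g u w, f ((Sp χ hχ r).act g u, X.xr.sph.act g w) = (TT χ hχ r V).sph.act g (f (u, w))) ∧
      (∀ u w, F.f (pt _ _ u w) = pt _ _ u (f (u, w))) ∧
      (∀ u c w, F3 (pt (Sp χ hχ (r + 1)) _ (jn r (u, c)) w) =
        pt (Sp χ hχ (r + 1)) _ (jn r (u, c)) (wdg (f (u, w), thD c))) ∧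
      Cl χ hχ (r + 1) P F' ∧ pull F'.f = pull (((spl χ hχ r V).h1 _).f.comp F3) := by
  obtain ⟨P', k, b, l, c, u, v⟩ := h
  change X.Z → Fin r → ℂ at k
  have pm := u.pm (Dc.tc_ok χ hχ r b.2.1 l)
  let f : C(US r × OnePoint X.xr.Z, OnePoint (TT χ hχ r V).Z) :=
    ⟨opx ((Tc χ hχ r P' k).col c), continuous_opx pm.ct pm.pr⟩
  have hf : ∀ g u w, f ((Sp χ hχ r).act g u, X.xr.sph.act g w) =
      (TT χ hχ r V).sph.act g (f (u, w)) := fun g u w => by
    induction w using OnePoint.rec with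
    | infty => rfl
    | coe w => exact pm.eq g u w
  obtain ⟨G, hG⟩ := exists_desc ((jn r).prodMap (.id (OnePoint X.xr.Z)))
    ((jn_onto hr).prodMap Function.surjective_id)
    (⟨fun z => wdg (f (z.1.1, z.2), thD z.1.2), continuous_wdg.comp (by fun_prop)⟩ :
      C((US r × UD) × OnePoint X.xr.Z, OnePoint ((TT χ hχ r V).prod (ch χ hχ)).Z)) (by
      rintro ⟨⟨u, a⟩, w⟩ ⟨⟨u', a'⟩, w'⟩ e
      obtain ⟨e1, e2⟩ := Prod.ext_iff.1 e
      obtain rfl : w = w' := e2
      obtain rfl : a = a' := Subtype.ext (congrArg (fun z : US (r + 1) => z.1 0) e1)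
      by_cases h0 : cw a = 0
      · exact ((congrArg (fun t => wdg (_, t)) (thD_bd h0)).trans (wdg_r _)).trans
          ((congrArg (fun t => wdg (_, t)) (thD_bd h0)).trans (wdg_r _)).symm
      · rw [(jn_inj r e1 h0).1])
  have hG : ∀ u a w, G (jn r (u, a), w) = wdg (f (u, w), thD a) := fun u a w => hG ((u, a), w)
  let E : EqM (Sp χ hχ (r + 1)) X.xr (Sp χ hχ (r + 1)) ((TT χ hχ r V).prod (ch χ hχ)) id (.id _) :=
    { f := G
      hg := fun _ _ => rfl
      hf := fun γ y w => by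
        obtain ⟨⟨u, a⟩, rfl⟩ := jn_onto hr y
        rw [← jn_act]
        refine (hG _ _ _).trans (Eq.trans ?_ (congrArg _ (hG u a w).symm))
        rw [hf, thD_act]
        exact (wdg_act2 (TT χ hχ r V) (ch χ hχ) γ _ _).symm
      hi := fun y => by
        obtain ⟨⟨u, a⟩, rfl⟩ := jn_onto hr y
        exact hG u a ∞ }
  let B := spl χ hχ r V
  have fe : ∀ (u : US r) (w : X.xr.Z), f (u, w) = sc (E := (V.prod (UU χ hχ r)).W)
      (c (u, w), OnePoint.some ((Tc χ hχ r P' k).f (u, w))) := fun _ _ => rfl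
  have fin : ∀ u a (w : X.xr.Z), OnePoint.map B.e (G (jn r (u, a), w)) ≠ ∞ → c (u, w) ≠ 0 ∧
      cw a ≠ 0 ∧ OnePoint.map B.e (G (jn r (u, a), w)) = OnePoint.some ((((c (u, w))⁻¹ • P'.f w.1,
        Fin.cons (-((cw a : ℂ)⁻¹ * a)) ((c (u, w))⁻¹ • (k w.1 - Real.exp w.2 • u.1))) :
          V.W × (Fin (r + 1) → ℂ))) := fun u a w n => by
    rw [hG] at n ⊢
    have e := fe u w
    have h1 : c (u, w) ≠ 0 := fun h => n (by rw [e, h, sc_zero]; rfl)
    have h2 : cw a ≠ 0 := fun h => n (by rw [thD_bd h, wdg_r]; rfl)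
    exact ⟨h1, h2, by rw [e, sc_coe h1, thD_in h2]; rfl⟩
  have m : Pm (Sp χ hχ (r + 1)) X.xr (TT χ hχ (r + 1) V)
      fun z => OnePoint.map B.e (G (z.1, z.2)) := by
    refine ⟨B.e.onePointCongr.continuous.comp (G.continuous.comp
      (continuous_fst.prodMk (continuous_coe.comp continuous_snd))), fun K' _ =>
      ⟨Prod.snd '' tsupport c, u.cp.image continuous_snd, fun y w w' n e => ?_⟩, fun γ y w => ?_⟩
    · obtain ⟨⟨u, a⟩, rfl⟩ := jn_onto hr y
      exact absurd ⟨(u, w), subset_tsupport _ (fin u a w (e.trans_ne (coe_ne_infty _))).1, rfl⟩ n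
    · exact (congrArg (OnePoint.map B.e) (E.hf γ y (OnePoint.some w))).trans ((B.eqm (Sp χ hχ (r + 1))).hf γ y _)
  obtain ⟨F2, r2⟩ := m.exists_rg
  have l' : P'.Lift (UU χ hχ (r + 1)) fun x => Fin.cons 0 (k x) :=
    ⟨continuousOn_pi.2 fun i => Fin.cases continuousOn_const (continuousOn_pi.1 l.ct) i,
      fun g x a => funext fun i => Fin.cases (mul_zero _).symm (congrFun (l.eq g x a)) i,
      fun x a e => l.nz x a (funext fun i => congrFun e i.succ)⟩
  have ok := Dc.tc_ok χ hχ (r + 1) b.2.1 l'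
  have tl : ∀ (u : US r) (a : UD) (w : X.xr.Z), (a : ℂ) = 0 → ∀ i : Fin r,
      ((Tc χ hχ (r + 1) P' fun x => Fin.cons 0 (k x)).f (jn r (u, a), w)).2 i.succ =
        (k w.1 - Real.exp w.2 • u.1) i := fun u a w h i => by
    change k w.1 i - Real.exp w.2 • ((cw a : ℂ) * u.1 i) = _
    simp [h, cw]
  have ht := ht_of_pm ok m (fun z n => ?_) (fun z a e => ?_) (fun z v s s0 s1 e n => ?_) r2
  · refine ⟨f, E.hm.f, _, hf, Rg.opx v, fun u a w => congrArg (pt (Sp χ hχ (r + 1)) _ (jn r (u, a))) (hG u a w),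
      ⟨P', _, b, l', ok.rp_hm⟩, ht.pull_eq.trans (congrArg pull (ContinuousMap.ext
        (sb_ind (fun y => (F2.f_inf y).trans ?_) fun y w => r2 y w)))⟩
    exact congrArg (fun t => pt _ _ y (OnePoint.map B.e t)) (E.hi y).symm
  · obtain ⟨y, w⟩ := z
    obtain ⟨⟨u', a⟩, rfl⟩ := jn_onto hr y
    exact u.mem (fin u' a w n).1
  · obtain ⟨y, w⟩ := z
    obtain ⟨⟨u', d⟩, rfl⟩ := jn_onto hr y
    have d0 : (d : ℂ) = 0 := by
      have : (0 : ℂ) - Real.exp w.2 • (d : ℂ) = 0 := congrFun (congrArg Prod.snd e) 0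
      simpa using this
    have p := u.pos (u', w) a (Prod.ext (congrArg Prod.fst e :) (funext fun i =>
      (tl u' d w d0 i).symm.trans (congrFun (congrArg Prod.snd e) i.succ)))
    change OnePoint.map B.e (G (jn r (u', d), w)) ≠ ∞
    rw [hG, fe, sc_coe p.ne', thD_in (by simp [d0, cw])]
    exact coe_ne_infty _
  · obtain ⟨y, w⟩ := z
    obtain ⟨⟨u', d⟩, rfl⟩ := jn_onto hr y
    obtain ⟨h1, h2, h3⟩ := fin u' d w (e.trans_ne (coe_ne_infty _))
    obtain rfl := coe_injective (e.symm.trans h3)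
    have c0 : 0 < (c (u', w))⁻¹ := inv_pos.2 ((u.nn _).lt_of_ne' h1)
    have c1 : 0 < (cw d)⁻¹ := inv_pos.2 ((cw_nn _).lt_of_ne' h2)
    have c2 := Real.exp_pos w.2
    have pos : ∀ a b : ℝ, 0 < a → 0 < b → (1 - s) * a + s * b ≠ 0 := fun a b i j => by
      rcases s0.eq_or_lt with t | t
      · rw [← t]; simpa using i.ne'
      · exact (add_pos_of_nonneg_of_pos (mul_nonneg (sub_nonneg.2 s1) i.le) (mul_pos t j)).ne'
    have d0 : (d : ℂ) = 0 := by
      have : (1 - s) • ((0 : ℂ) - Real.exp w.2 • (d : ℂ)) + s • -((cw d : ℂ)⁻¹ * d) = 0 :=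
        congrFun (congrArg Prod.snd n) 0
      refine (smul_eq_zero.1 (show ((1 - s) * Real.exp w.2 + s * (cw d)⁻¹) • (d : ℂ) = 0 from ?_)
        ).resolve_left (pos _ _ c2 c1)
      simp only [Complex.real_smul] at this ⊢
      push_cast at this ⊢
      linear_combination -this
    have k1 : ∀ {E : Type} [AddCommGroup E] [Module ℝ E] (x : E),
        (1 - s) • x + s • (c (u', w))⁻¹ • x = 0 → x = 0 := fun x h =>
      (smul_eq_zero.1 (by rw [add_smul, mul_one, mul_smul, h])).resolve_left (pos 1 _ one_pos c0)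
    refine Prod.ext (k1 _ (congrArg Prod.fst n)) (funext fun i => Fin.cases ?_ (fun i => ?_) i)
    · change (0 : ℂ) - Real.exp w.2 • (d : ℂ) = 0
      simp [d0]
    · refine (tl u' d w d0 i).trans (k1 _ ?_)
      rw [← tl u' d w d0 i]
      refine Eq.trans ?_ (congrFun (congrArg Prod.snd n) i.succ)
      rw [tl u' d w d0 i]
      conv_lhs => rw [← tl u' d w d0 i]
      rw [tl u' d w d0 i]
      exact congrArg (fun t => (1 - s) • t + _) (tl u' d w d0 i).symm

end Crest.Agent.N218.K.En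

end
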