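import Crest.Agent.N218.K.Clu
import Crest.Agent.N218.K.Rel

/-!
# Row 218, block D1 (helper28): additivity of the primary class
-/

set_option autoImplicit false
set_option linter.unusedVariables false
set_option maxHeartbeats 400000

open Crest.Agent.R204.K357 Crest.Agent.R204.Ex837 unitInterval Topology Filter Set OnePoint Module

noncomputable section

namespace Crest.Agent.N218.K

/-- **wedge lemma** -/
theorem pull_add {B E : Type} [TopologicalSpace B] [TopologicalSpace E] {T : Ex B}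
    (f f1 f2 : C(E, T.E)) (h : ∀ e, (f e = f1 e ∧ f2 e = T.s (T.p (f e))) ∨
      (f e = f2 e ∧ f1 e = T.s (T.p (f e)))) {l : KX T.E} (hl : T.Rd l) :
    pull f l = pull f1 l + pull f2 l := by
  let n : C(T.E, T.E) := T.s.comp T.p
  have ns : ∀ b, n (T.s b) = T.s b := fun b => congrArg T.s (T.ps b)
  have zz : ∀ (z : Db (cr T.s)) b, z.1.1 (T.s b) = z.1.2 (T.s b) := fun z b =>
    DFunLike.congr_fun z.2 b
  let G : Db (cr T.s) →+* C(E, ℂ) :=
    { toFun := fun z => z.1.1.comp f1 + z.1.2.comp f2 - z.1.1.comp (n.comp f)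
      map_one' := by ext e; simp
      map_zero' := by ext e; simp
      map_add' := fun z z' => by ext e; simp; ring
      map_mul' := fun z z' => by
        ext e
        change z.1.1 (f1 e) * z'.1.1 (f1 e) + z.1.2 (f2 e) * z'.1.2 (f2 e) -
          z.1.1 (T.s (T.p (f e))) * z'.1.1 (T.s (T.p (f e))) =
          (z.1.1 (f1 e) + z.1.2 (f2 e) - z.1.1 (T.s (T.p (f e)))) *
            (z'.1.1 (f1 e) + z'.1.2 (f2 e) - z'.1.1 (T.s (T.p (f e))))
        rcases h e with ⟨a, b⟩ | ⟨a, b⟩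
        · rw [b, ← zz z, ← zz z']; ring
        · rw [b]; ring }
  let j1 : C(T.E, ℂ) →+* Db (cr T.s) := ((RingHom.id _).prod (cr n)).codRestrict _ fun a =>
    ContinuousMap.ext fun b => congrArg a (ns b).symm
  let j2 : C(T.E, ℂ) →+* Db (cr T.s) := ((cr n).prod (RingHom.id _)).codRestrict _ fun a =>
    ContinuousMap.ext fun b => congrArg a (ns b)
  have nl : KR (cr n) l = 0 := by
    have := pull_comp T.p T.s l
    rw [show pull T.s l = 0 from hl, map_zero] at this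
    exact this
  have key : KR (Db.dg (cr T.s)) l - KR j1 l - KR j2 l = 0 := by
    refine Db.inj (stLift_of_section _ (cr T.p) fun c => ContinuousMap.ext fun b =>
      congrArg c (T.ps b)) ?_ ?_
    · rw [map_sub, map_sub, Db.f_dg, kr_id _ j1 fun _ => rfl, kr_kr _ j2 (cr n) fun _ => rfl, nl]
      simp
    · rw [map_sub, map_sub, Db.s_dg, kr_id _ j2 fun _ => rfl, kr_kr _ j1 (cr n) fun _ => rfl, nl]
      simp
  have := congrArg (KR G) key
  rw [map_sub, map_sub, map_zero, kr_kr G _ (cr f), kr_kr G j1 (cr f1), kr_kr G j2 (cr f2)] at this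
  · change KR (cr f) l = KR (cr f1) l + KR (cr f2) l
    linear_combination this
  · intro a; ext e
    change a (n (f1 e)) + a (f2 e) - a (n (n (f e))) = a (f2 e)
    rcases h e with ⟨u, v⟩ | ⟨u, v⟩
    · rw [← u, show n (n (f e)) = n (f e) from ns _]; ring
    · rw [v]; change a (n (n (f e))) + _ - _ = _; ring
  · intro a; ext e
    change a (f1 e) + a (n (f2 e)) - a (n (f e)) = a (f1 e)
    rcases h e with ⟨u, v⟩ | ⟨u, v⟩
    · rw [v, ns]; change _ + a (n (f e)) - _ = _; ring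
    · rw [← u]; ring
  · intro a; ext e
    change a (f1 e) + a (f2 e) - a (n (f e)) = a (f e)
    rcases h e with ⟨u, v⟩ | ⟨u, v⟩
    · rw [v, ← u]; change _ + a (n (f e)) - _ = _; ring
    · rw [v, ← u]; change a (n (f e)) + _ - _ = _; ring

variable {Γ : Type} [Group Γ] [TopologicalSpace Γ]

/-- the extra real coordinate -/
def tco {Y : GS Γ} {X : LS Γ} (z : Y.Z × X.xr.Z) : ℝ := z.2.2

theorem tco_ct {Y : GS Γ} {X : LS Γ} : Continuous (tco : Y.Z × X.xr.Z → ℝ) := continuous_snd.snd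

namespace PB
variable {X : LS Γ} {V U : Rep Γ} {P Q : PB X V} {S : Set X.Z}

open Classical in
/-- union of two problems -/
def un (P Q : PB X V) : PB X V := ⟨P.O ∪ Q.O, P.O.piecewise P.f Q.f⟩

theorem pw_ct {W : Type} [TopologicalSpace W] {A B : Set X.Z} [∀ x, Decidable (x ∈ A)]
    {f g : X.Z → W} (hA : IsOpen A) (hB : IsOpen B) (d : Disjoint A B) (hf : ContinuousOn f A)
    (hg : ContinuousOn g B) : ContinuousOn (A.piecewise f g) (A ∪ B) := by
  rintro x (a | a)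
  · exact ((hf.congr fun y hy => piecewise_eq_of_mem _ _ _ hy).continuousAt
      (hA.mem_nhds a)).continuousWithinAt
  · exact ((hg.congr fun y hy => piecewise_eq_of_notMem _ _ _
      (disjoint_right.1 d hy)).continuousAt (hB.mem_nhds a)).continuousWithinAt

theorem pw_eq (hP : P.Ok S) (hQ : Q.Ok S) (d : Disjoint P.O Q.O) [∀ x, Decidable (x ∈ P.O)]
    {f g : X.Z → U.W} (hf : ∀ γ, ∀ x ∈ P.O, f (X.act γ x) = U.ρ γ (f x))
    (hg : ∀ γ, ∀ x ∈ Q.O, g (X.act γ x) = U.ρ γ (g x)) (γ : Γ) (x : X.Z) (hx : x ∈ P.O ∪ Q.O) :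
    P.O.piecewise f g (X.act γ x) = U.ρ γ (P.O.piecewise f g x) := by
  rcases hx with a | a
  · rw [piecewise_eq_of_mem _ _ _ a, piecewise_eq_of_mem _ _ _ (hP.inv γ x a), hf γ x a]
  · rw [piecewise_eq_of_notMem _ _ _ (disjoint_right.1 d a),
      piecewise_eq_of_notMem _ _ _ (disjoint_right.1 d (hQ.inv γ x a)), hg γ x a]

theorem un_l {x : X.Z} (a : x ∈ P.O) : (P.un Q).f x = P.f x := by
  classical exact piecewise_eq_of_mem _ _ _ a
theorem un_r {x : X.Z} (a : x ∉ P.O) : (P.un Q).f x = Q.f x := by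
  classical exact piecewise_eq_of_notMem _ _ _ a

theorem un_Z (d : Disjoint P.O Q.O) : (P.un Q).Z = P.Z ∪ Q.Z := by
  ext x
  constructor
  · rintro ⟨a | a, z⟩
    · exact .inl ⟨a, (un_l a).symm.trans z⟩
    · exact .inr ⟨a, (un_r (disjoint_right.1 d a)).symm.trans z⟩
  · rintro (⟨a, z⟩ | ⟨a, z⟩)
    · exact ⟨.inl a, (un_l a).trans z⟩
    · exact ⟨.inr a, (un_r (disjoint_right.1 d a)).trans z⟩

theorem Ok.un (hP : P.Ok S) (hQ : Q.Ok S) (d : Disjoint P.O Q.O) : (P.un Q).Ok S := by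
  classical
  exact ⟨hP.op.union hQ.op, fun g x a => a.imp (hP.inv g x) (hQ.inv g x),
    pw_ct hP.op hQ.op d hP.ct hQ.ct, pw_eq hP hQ d hP.eq hQ.eq, un_Z d ▸ hP.cp.union hQ.cp,
    un_Z d ▸ union_subset hP.fr hQ.fr⟩

theorem Lift.un (hP : P.Ok S) (hQ : Q.Ok S) (d : Disjoint P.O Q.O) [∀ x, Decidable (x ∈ P.O)]
    {k k' : X.Z → U.W} (l : P.Lift U k) (l' : Q.Lift U k') :
    (P.un Q).Lift U (P.O.piecewise k k') :=
  ⟨pw_ct hP.op hQ.op d l.ct l'.ct, pw_eq hP hQ d l.eq l'.eq, fun x a => by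
    rcases un_Z d ▸ a with b | b
    · rw [piecewise_eq_of_mem _ _ _ b.1]; exact l.nz x b
    · rw [piecewise_eq_of_notMem _ _ _ (disjoint_right.1 d b.1)]; exact l'.nz x b⟩

theorem Lift.smul {k : X.Z → U.W} (l : P.Lift U k) {c : ℝ} (hc : c ≠ 0) :
    P.Lift U fun x => c • k x :=
  ⟨l.ct.const_smul c, fun g x a => by rw [l.eq g x a, _root_.map_smul],
    fun x a => smul_ne_zero hc (l.nz x a)⟩

variable [CompactSpace Γ] {Y : GS Γ} {j : Y.Z → U.W}

/-- the support of the cut-off can be pushed to either end -/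
theorem Th_shift (h : P.Ok S) {k : X.Z → U.W} (l : P.Lift U k) (cj : Continuous j)
    (ej : ∀ g y, j (Y.act g y) = U.ρ g (j y)) (nj : ∀ y, j y ≠ 0) {ε : ℝ} (hε : ε * ε = 1) :
    ∃ k' χ, P.Lift U k' ∧ (P.Th U k' Y j).Cut χ ∧ ∀ z, χ z ≠ 0 → 1 ≤ ε * tco z := by
  obtain ⟨R, hR⟩ := (Th_ok h l cj ej nj).cp.exists_bound_of_continuousOn
    (f := tco) tco_ct.continuousOn
  have l' := l.smul (Real.exp_pos (ε * (R + 2))).ne'
  set k' := fun x => Real.exp (ε * (R + 2)) • k x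
  have T := Th_ok h l' cj ej nj
  have z : ∀ x ∈ (P.Th U k' Y j).O, (P.Th U k' Y j).f x = 0 → 1 < ε * tco x := by
    rintro ⟨y, x, t : ℝ⟩ o e
    have e2 : Real.exp (ε * (R + 2)) • k x - Real.exp t • j y = 0 := congrArg Prod.snd e
    have h0 : ‖t - ε * (R + 2)‖ ≤ R := hR (y, x, t - ε * (R + 2)) ⟨o, Prod.ext (show P.f x = 0 from congrArg Prod.fst e) (by
      change k x - Real.exp (t - ε * (R + 2)) • j y = 0
      have e3 := congrArg (Real.exp (-(ε * (R + 2))) • ·) e2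
      simp only [smul_sub, smul_smul, ← Real.exp_add, neg_add_cancel, Real.exp_zero, one_smul,
        smul_zero] at e3
      rwa [sub_eq_neg_add t])⟩
    have h1 : |ε * (t - ε * (R + 2))| ≤ R := by
      have : |ε| = 1 := by
        rw [← sq_eq_sq₀ (abs_nonneg _) zero_le_one, sq_abs]; linarith
      rw [abs_mul, this, one_mul]; exact h0
    have h2 := (abs_le.1 h1).1
    change 1 < ε * t
    have h3 : ε * (t - ε * (R + 2)) = ε * t - (R + 2) := by linear_combination (-(R + 2)) * hε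
    linarith
  let Q' : FP Y X.xr (V.prod U) :=
    ⟨(P.Th U k' Y j).O ∩ {x | 1 < ε * tco x}, (P.Th U k' Y j).f⟩
  obtain ⟨χ, c⟩ := (T.shrink (P' := Q') (T.op.inter (isOpen_lt continuous_const
    (continuous_const.mul tco_ct))) (fun g x a => ⟨T.inv g x a.1, a.2⟩)
    inter_subset_left (fun _ _ => rfl) fun x o e => ⟨o, z x o e⟩).exists_cut
  exact ⟨k', χ, l', ⟨c.ct, c.nn, c.cp, c.sub.trans inter_subset_left,
    fun x o e => c.pos x ⟨o, z x o e⟩ e, c.inv⟩, fun x a => (c.mem a).2.le⟩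

end PB

/-- separated representatives of the two parts and of the union -/
theorem sum_data (hC : CLE) [Fintype Γ] [DiscreteTopology Γ] (χ : Γ →* Circle) (r : ℕ)
    (X V : Rep Γ) (hd : finrank ℝ X.W < finrank ℝ V.W + 2 * r) (P : PB X.ls V) (U U' : Set X.W)
    (hP : P.Fr) (h1 : (P.on U).Fr) (h2 : (P.on U').Fr) (d : Disjoint U U') (z : P.Z ⊆ U ∪ U') :
    ∃ (g1 g2 g : (Sp χ (cc χ) r).Z × X.ls.xr.Z → OnePoint (TT χ (cc χ) r V).Z)
      (F1 F2 F : H1 (Sb (Sp χ (cc χ) r) X.ls.xr) (Sb (Sp χ (cc χ) r) (TT χ (cc χ) r V))),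
      Pm _ _ _ g1 ∧ Pm _ _ _ g2 ∧ Rg F1 g1 ∧ Rg F2 g2 ∧ Rg F g ∧ Cl χ (cc χ) r (P.on U) F1 ∧
      Cl χ (cc χ) r (P.on U') F2 ∧ Cl χ (cc χ) r P F ∧ (∀ z, g1 z ≠ ∞ → 1 ≤ 1 * tco z) ∧
      (∀ z, g2 z ≠ ∞ → 1 ≤ -1 * tco z) ∧
      ∀ z, (g z = g1 z ∧ g2 z = ∞) ∨ (g z = g2 z ∧ g1 z = ∞) := by
  classical
  obtain ⟨P1, k1, H1, p1, o1, q1, a1, b1, c1, l1⟩ := hC χ r X V hd _ h1
  obtain ⟨P2, k2, H2, p2, o2, q2, a2, b2, c2, l2⟩ := hC χ r X V hd _ h2
  have cj : Continuous fun u : US r => u.1 := continuous_subtype_val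
  have ej : ∀ g (y : (Sp χ (cc χ) r).Z), (fun u : US r => u.1) ((Sp χ (cc χ) r).act g y) =
    (UU χ (cc χ) r).ρ g ((fun u : US r => u.1) y) := fun _ _ => rfl
  obtain ⟨k1, χ1, l1, u1, s1⟩ := PB.Th_shift (Y := Sp χ (cc χ) r) p1 l1 cj ej (us_ne r) (one_mul 1)
  obtain ⟨k2, χ2, l2, u2, s2⟩ := PB.Th_shift (Y := Sp χ (cc χ) r) p2 l2 cj ej (us_ne r)
    (ε := -1) (by norm_num)
  have d0 : Disjoint (P.on U).O (P.on U').O := d.mono inter_subset_right inter_subset_right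
  have d1 : Disjoint P1.O P2.O := by rwa [o1, o2]
  have d2 : Disjoint H1.O H2.O := by rw [q1, q2]; exact d0.preimage _
  have p0 := p1.un p2 d1
  have l0 := PB.Lift.un p1 p2 d1 l1 l2
  have T1 := PB.Th_ok (Y := Sp χ (cc χ) r) p1 l1 cj ej (us_ne r)
  have T2 := PB.Th_ok (Y := Sp χ (cc χ) r) p2 l2 cj ej (us_ne r)
  have T0 := PB.Th_ok (Y := Sp χ (cc χ) r) p0 l0 cj ej (us_ne r)
  have e1 : ∀ x : (Sp χ (cc χ) r).Z × X.ls.xr.Z, x.2.1 ∈ P1.O →
      (Tc χ (cc χ) r (P1.un P2) (P1.O.piecewise k1 k2)).f x = (Tc χ (cc χ) r P1 k1).f x :=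
    fun x a => Prod.ext (PB.un_l a) (congrArg (· - _) (piecewise_eq_of_mem _ _ _ a))
  have e2 : ∀ x : (Sp χ (cc χ) r).Z × X.ls.xr.Z, x.2.1 ∉ P1.O →
      (Tc χ (cc χ) r (P1.un P2) (P1.O.piecewise k1 k2)).f x = (Tc χ (cc χ) r P2 k2).f x :=
    fun x a => Prod.ext (PB.un_r a) (congrArg (· - _) (piecewise_eq_of_notMem _ _ _ a))
  have u0 : (Tc χ (cc χ) r (P1.un P2) (P1.O.piecewise k1 k2)).Cut (χ1 + χ2) := by
    have ts : tsupport (χ1 + χ2) ⊆ tsupport χ1 ∪ tsupport χ2 := tsupport_add _ _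
    refine ⟨u1.ct.add u2.ct, fun x => add_nonneg (u1.nn x) (u2.nn x),
      (u1.cp.union u2.cp).of_isClosed_subset isClosed_closure ts,
      ts.trans (union_subset_union u1.sub u2.sub), fun x o e => ?_,
      fun g x => congrArg₂ (· + ·) (u1.inv g x) (u2.inv g x)⟩
    by_cases a : x.2.1 ∈ P1.O
    · exact add_pos_of_pos_of_nonneg (u1.pos x a ((e1 x a).symm.trans e)) (u2.nn x)
    · exact add_pos_of_nonneg_of_pos (u1.nn x)
        (u2.pos x (o.resolve_left a) ((e2 x a).symm.trans e))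
  obtain ⟨F1, r1, t1⟩ := u1.rp T1
  obtain ⟨F2, r2, t2⟩ := u2.rp T2
  obtain ⟨F0, r0, t0⟩ := u0.rp T0
  refine ⟨_, _, _, F1, F2, F0, u1.pm T1, u2.pm T2, r1, r2, r0,
    ⟨P1, k1, ⟨h1, p1, H1, a1, b1, c1⟩, l1, t1⟩, ⟨P2, k2, ⟨h2, p2, H2, a2, b2, c2⟩, l2, t2⟩,
    ⟨_, _, ⟨hP, p0, H1.un H2, a1.un a2 d2, ⟨?_, ?_, ?_⟩, ⟨?_, ?_, ?_⟩⟩, l0, t0⟩,
    fun x a => s1 x fun e => a (if_pos e),
    fun x a => s2 x fun e => a (if_pos e), fun x => ?_⟩
  · rintro x (a | a)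
    · exact (b1.sub a).1
    · exact (b2.sub a).1
  · rintro x (a | a)
    · exact (PB.un_l a).trans (b1.eq x a)
    · exact (PB.un_r (disjoint_right.1 d2 a)).trans (b2.eq x a)
  · intro x a
    rcases z a with b | b
    · exact .inl (b1.z ⟨⟨a.1, b⟩, a.2⟩)
    · exact .inr (b2.z ⟨⟨a.1, b⟩, a.2⟩)
  · rintro x (a | a)
    · exact .inl (c1.sub a)
    · exact .inr (c2.sub a)
  · rintro x (a | a)
    · exact (PB.un_l a).trans ((c1.eq x a).trans (PB.un_l (c1.sub a)).symm)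
    · exact (PB.un_r (disjoint_right.1 d2 a)).trans ((c2.eq x a).trans
        (PB.un_r (disjoint_right.1 d1 (c2.sub a))).symm)
  · intro x a
    rcases PB.un_Z d1 ▸ a with b | b
    · exact .inl (c1.z b)
    · exact .inr (c2.z b)
  · by_cases a : x.2.1 ∈ P1.O
    · have z2 : χ2 x = 0 := by_contra fun n => disjoint_left.1 d1 a (u2.mem n)
      refine .inl ⟨?_, if_pos z2⟩
      exact congrArg₂ (fun c (w : (V.prod (UU χ (cc χ) r)).W) => sc (c, OnePoint.some w))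
        (show χ1 x + χ2 x = χ1 x by rw [z2, add_zero]) (e1 x a)
    · have z1 : χ1 x = 0 := by_contra fun n => a (u1.mem n)
      refine .inr ⟨?_, if_pos z1⟩
      exact congrArg₂ (fun c (w : (V.prod (UU χ (cc χ) r)).W) => sc (c, OnePoint.some w))
        (show χ1 x + χ2 x = χ2 x by rw [z1, zero_add]) (e2 x a)

/-- the wedge lemma for sphere bundles -/
theorem rg_add [CompactSpace Γ] {Y : GS Γ} {M N : LS Γ} {g1 g2 g : Y.Z × M.Z → OnePoint N.Z}
    {F1 F2 F : H1 (Sb Y M) (Sb Y N)} (r1 : Rg F1 g1) (r2 : Rg F2 g2) (r0 : Rg F g)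
    (h : ∀ z, (g z = g1 z ∧ g2 z = ∞) ∨ (g z = g2 z ∧ g1 z = ∞)) {l : KS Y N}
    (hl : (Sb Y N).Rd l) : pull F.f l = pull F1.f l + pull F2.f l := by
  refine pull_add _ _ _ (sb_ind (fun y => .inl ?_) fun y w => ?_) hl
  · rw [F.f_inf, F1.f_inf, F2.f_inf]; exact ⟨rfl, rfl⟩
  · rw [r0, r1, r2]
    rcases h (y, w) with ⟨a, b⟩ | ⟨a, b⟩
    · exact .inl ⟨by rw [a], by rw [b]; rfl⟩
    · exact .inr ⟨by rw [a], by rw [b]; rfl⟩

theorem dsum (hC : CLE) : DSUM := by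
  intro Γ _ _ _ _ χ r X V hd P U U' hP h1 h2 d z l hl
  obtain ⟨g1, g2, g, F1, F2, F, -, -, r1, r2, r0, c1, c2, c0, -, -, h⟩ :=
    sum_data hC χ r X V hd P U U' hP h1 h2 d z
  exact ⟨_, _, ⟨F1, c1, rfl⟩, ⟨F2, c2, rfl⟩, F, c0, rg_add r1 r2 r0 h hl⟩

end Crest.Agent.N218.K

end
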