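import Crest.Agent.N218.Tr.Ind
import Crest.Agent.N218.K.Clu

/-!
# Row 218, block D1 (helper37): the transfer axiom for the primary class
-/

set_option autoImplicit false
set_option linter.unusedVariables false

open Set Crest.Agent.N218.Tr unitInterval

noncomputable section

namespace Crest.Agent.N218.K

/-- the tautological section of the unit sphere -/
def spSec {Γ : Type} [Group Γ] [TopologicalSpace Γ] (χ : Γ →* Circle) (hχ : Continuous χ) (r : ℕ) :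
    Sec (Sp χ hχ r) χ := ⟨Fin r, ⟨fun u : US r => u.1, continuous_subtype_val⟩, fun u => u.2,
      fun _ _ _ => rfl⟩

theorem LL_spSec {Γ : Type} [Group Γ] [TopologicalSpace Γ] [CompactSpace Γ] (χ : Γ →* Circle)
    (hχ : Continuous χ) (r : ℕ) : LL χ hχ r = Lc (Sp χ hχ r) χ := (Lc_eq (spSec χ hχ r)).symm

theorem dtrf : DTRF := by
  intro Γ _ _ _ _ χ Γ' _ _ _ _ φ r m X V hχ hφ hm hd P U hP hQ dis cov G G' hG hG' l y hl hy
  obtain ⟨F', cF', eF'⟩ := hy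
  obtain ⟨Q', k, H, q1, qO, HO, h1, l0, l1, lk⟩ := cle (χ.comp φ) r (X.res φ (cc φ))
    (V.res φ (cc φ)) (Nat.lt_of_succ_lt hd) _ hQ
  have d : Dj φ X.ls ((P.res φ (cc φ)).on U).O := fun g x a b => dis g x a.2 b.2
  have d' : Dj φ X.ls Q'.O := qO ▸ d
  have dH : Dj φ X.ls.cy H.O := fun g x a b => d g x.1 (HO.le a) (HO.le b)
  have d0 : ∀ t : I, Dj φ X.ls (H.sl t).O := fun t g x a b => dH g (x, t) a b
  have p1 : (indP (hφ := cc φ) (X := X.ls) (V := V) Q').Fr :=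
    ind_ok d' q1 fun g x b => d'.fr b.1 (q1.fr b) g rfl
  have bd : P.Bd (indP (hφ := cc φ) (X := X.ls) (V := V) Q') :=
    ⟨hP, p1, indP (hφ := cc φ) (X := X.ls.cy) (V := V) H,
      ind_ok (S' := Prod.fst ⁻¹' (X.ls.res φ (cc φ)).fr) dH h1 fun g x b =>
        d.fr (HO.le b.1) (h1.fr b) g rfl,
      ind_le' hP (d0 0) (h1.sl 0) (fun x a => ⟨(l0.sub a).1, l0.eq x a⟩) fun x a =>
        (cov x a).imp fun g b => l0.z ⟨⟨(hP.z_act g a).1, b⟩, (hP.z_act g a).2⟩,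
      ind_le d' (h1.sl 1) q1 l1⟩
  have lk' := ind_lift (W := UU χ (cc χ) r) d' q1 lk
  have t1 := Tc_ok χ (cc χ) r p1 lk'
  have t2 := Tc_ok (χ.comp φ) (cc _) r q1 lk
  obtain ⟨C, hC⟩ := exists_cs hχ hφ hm
  have hI : Ind (hφ := cc φ) (Tc χ (cc χ) r (indP (hφ := cc φ) (X := X.ls) (V := V) Q')
      (ind X.ls (UU χ (cc χ) r) Q'.O k))
      (Tc (χ.comp φ) (cc _) r Q' k) :=
    { op := t2.op
      inv := t2.inv
      sub := fun x a => ⟨1, (X.ls.one x.2.1).symm ▸ a⟩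
      eq := fun x a => Prod.ext (ind_one (W := V) d' q1.eq a).symm
        (congrArg (· - _) (ind_one (W := UU χ (cc χ) r) d' lk.eq a).symm)
      dis := fun g x a b => d' g _ a b
      cov := fun x a _ => a }
  have e := (clu (χ.comp φ) r (X.res φ (cc φ)) (V.res φ (cc φ)) hd _ F' _ cF'
    ⟨Q', k, ⟨hQ, q1, H, h1, l0, l1⟩, lk, t2.rp_hm⟩).pull_eq
  refine ⟨_, ⟨_, _, bd, lk', t1.rp_hm⟩, ?_⟩
  refine (hI.trf' t1 C (fun j => hC j ▸ sec_pow ⟨spSec χ _ r⟩ _) G hG G' hG' hl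
    ((DFunLike.congr_fun e _).symm.trans eF')).trans ?_
  rw [Finset.sum_range fun j => LL χ (cc χ) r ^ (Fintype.card Γ' * j)]
  congr 1
  exact Finset.sum_congr rfl fun j _ => by rw [hC, Lc_pow ⟨spSec χ _ r⟩, LL_spSec]

end Crest.Agent.N218.K
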