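import Crest.Agent.N218.K.Pu2
import Crest.Agent.N218.K.Rel
import Crest.Agent.N218.K.Prod
import Crest.Agent.R204.Ex6_837

/-!
# N218/K/Wdg: wedges of ex-spaces and additivity of pull-backs and defect classes (helper94)
-/

set_option autoImplicit false

open Crest.Agent.R204 Crest.Agent.R204.K357 unitInterval Topology Set

noncomputable section

namespace Crest.Agent.N218.K.Pup

variable {X : Type} [TopologicalSpace X] {A T S S' W : Ex X}

/-- post-composition -/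
theorem ecl_post {G : H1 A W} {F : H1 A T} (b : H1 W T) (h : ∀ e, b.f (G.f e) = F.f e)
    (D : SD A S) {l : KX T.E} {ρ : KX X} {x : KX S.E} (k : Ecl F D l ρ x) :
    Ecl G D (pull b.f l) ρ x := by
  obtain ⟨hx, μ, k1, k2⟩ := (ecl_iff F D l ρ x).1 k
  let φ : AH (Cn F) (Cn G) := cnHom G (cy F) ((cp b.f).comp (rs F))
    (fun e a => (cn0 a e).trans (congrArg a.1.2 (h e).symm))
    (fun e a => (cn1 a e).trans (congrArg a.1.2 (hs1 b _).symm))
    (fun x t a => (cns a x t).trans (congrArg a.1.2 (hs1 b _).symm))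
  refine (ecl_iff G D _ ρ x).2 ⟨hx, ka φ μ, ?_, ?_⟩
  · rw [← k1]
    exact ka_sq φ (rs G) (rs F) (cp b.f) (fun _ => ContinuousMap.ext fun _ => rfl) μ
  · rw [ka_ps, ← ka_comp (bs F) φ (bs G) (fun a => cn_ext (fun _ => rfl)
      fun z => congrArg a (hp1 b z)), ← map_mul, ← map_sub, k2]
    exact ka_comp (ic F D) φ (ic G D) (fun a => cn_ext (fun _ => rfl)
      fun z => congrArg (fun y => a (S.s y)) (hp1 b z)) x

/-- the underlying set of the wedge -/
def wS (T : Ex X) : Set (T.E × T.E) := {z | z.1 = T.s (T.p z.2) ∨ z.2 = T.s (T.p z.1)}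

theorem wS_closed (T : Ex X) : IsClosed (wS T) :=
  (isClosed_eq continuous_fst (by fun_prop)).union (isClosed_eq continuous_snd (by fun_prop))

theorem wS_p {z : T.E × T.E} (h : z ∈ wS T) : T.p z.2 = T.p z.1 := by
  rcases h with h | h
  · rw [h, T.ps]
  · rw [h, T.ps]

/-- the fibrewise wedge `T ∨ T` -/
def wg (T : Ex X) : Ex X where
  E := wS T
  cpt := isCompact_iff_compactSpace.1 (wS_closed T).isCompact
  p := ⟨fun z => T.p z.1.1, by fun_prop⟩
  s := ⟨fun x => ⟨(T.s x, T.s x), .inl (by rw [T.ps])⟩, by fun_prop⟩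
  ps x := T.ps x

theorem wg_ext {z z' : (wg T).E} (h1 : z.1.1 = z'.1.1) (h2 : z.1.2 = z'.1.2) : z = z' :=
  Subtype.ext (Prod.ext h1 h2)

/-- first projection -/
def wq1 (T : Ex X) : H1 (wg T) T := ⟨⟨fun z => z.1.1, by fun_prop⟩, fun _ => rfl, fun _ => rfl⟩
/-- second projection -/
def wq2 (T : Ex X) : H1 (wg T) T :=
  ⟨⟨fun z => z.1.2, by fun_prop⟩, fun z => wS_p z.2, fun _ => rfl⟩
/-- first inclusion -/
def wi1 (T : Ex X) : H1 T (wg T) :=
  ⟨⟨fun a => ⟨(a, T.s (T.p a)), .inr rfl⟩, by fun_prop⟩, fun _ => rfl,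
    fun x => wg_ext rfl (congrArg T.s (T.ps x))⟩
/-- second inclusion -/
def wi2 (T : Ex X) : H1 T (wg T) :=
  ⟨⟨fun a => ⟨(T.s (T.p a), a), .inl rfl⟩, by fun_prop⟩, fun a => T.ps _,
    fun x => wg_ext (congrArg T.s (T.ps x)) rfl⟩

theorem wg_cov (z : (wg T).E) : z ∈ range (wi1 T).f ∨ z ∈ range (wi2 T).f := by
  rcases z.2 with h | h
  · exact .inr ⟨z.1.2, wg_ext h.symm rfl⟩
  · exact .inl ⟨z.1.1, wg_ext rfl h.symm⟩

theorem wi12 {a b : T.E} (h : (wi1 T).f a = (wi2 T).f b) : ∃ x, T.s x = a ∧ T.s x = b := by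
  have h1 : a = T.s (T.p b) := congrArg (fun z : (wg T).E => z.1.1) h
  have h2 : T.s (T.p a) = b := congrArg (fun z : (wg T).E => z.1.2) h
  exact ⟨T.p b, h1.symm, by rw [← h2, T.ps]⟩

/-- a class on the wedge is determined by its two restrictions -/
theorem wg_inj [CompactSpace X] {y : KX (wg T).E} (h1 : pull (wi1 T).f y = 0)
    (h2 : pull (wi2 T).f y = 0) : y = 0 :=
  (sqCov (wi1 T).f (wi2 T).f T.s T.s (fun _ _ e => congrArg (fun z : (wg T).E => z.1.1) e)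
    (fun _ _ e => congrArg (fun z : (wg T).E => z.1.2) e) wg_cov
    (fun c => (hs1 (wi1 T) c).trans (hs1 (wi2 T) c).symm) fun _ _ e => wi12 e).K0_inj
    (Ex837.stLift_of_section _ (cr T.p) fun c => ContinuousMap.ext fun x => congrArg c (T.ps x))
    h1 h2

theorem pull_sp (f : C(A.E, T.E)) (h : ∀ e, f e = T.s (A.p e)) {l : KX T.E} (hl : T.Rd l) :
    pull f l = 0 := by
  rw [← pull_pull A.p T.s f (fun e => (h e).symm), show pull T.s l = 0 from hl, map_zero]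

theorem wg_split [CompactSpace X] {y : KX (wg T).E} (hy : (wg T).Rd y) :
    y = pull (wq1 T).f (pull (wi1 T).f y) + pull (wq2 T).f (pull (wi2 T).f y) := by
  have r1 := rd_pull (wi1 T) hy
  have r2 := rd_pull (wi2 T) hy
  rw [← sub_eq_zero]
  refine wg_inj ?_ ?_
  · rw [map_sub, map_add, pull_pull (wi1 T).f (wq1 T).f (.id _) (fun _ => rfl),
      pull_id _ (fun _ => rfl), pull_pull (wi1 T).f (wq2 T).f (T.s.comp T.p) (fun _ => rfl),
      pull_sp (T.s.comp T.p) (fun _ => rfl) r2, add_zero, sub_self]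
  · rw [map_sub, map_add, pull_pull (wi2 T).f (wq2 T).f (.id _) (fun _ => rfl),
      pull_id _ (fun _ => rfl), pull_pull (wi2 T).f (wq1 T).f (T.s.comp T.p) (fun _ => rfl),
      pull_sp (T.s.comp T.p) (fun _ => rfl) r1, zero_add, sub_self]

/-- the fold map -/
theorem exists_fold (T : Ex X) : ∃ N : H1 (wg T) T, (∀ a, N.f ((wi1 T).f a) = a) ∧
    ∀ a, N.f ((wi2 T).f a) = a := by
  obtain ⟨N, hN⟩ := exists_desc (X := T.E ⊕ T.E) (Y := (wg T).E) (T := T.E)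
    ⟨Sum.elim (wi1 T).f (wi2 T).f, (wi1 T).f.continuous.sumElim (wi2 T).f.continuous⟩
    (fun z => by
      rcases wg_cov z with ⟨a, h⟩ | ⟨a, h⟩
      exacts [⟨.inl a, h⟩, ⟨.inr a, h⟩])
    ⟨Sum.elim id id, continuous_id.sumElim continuous_id⟩ (by
      rintro (a | a) (b | b) h
      · exact congrArg (fun z : (wg T).E => z.1.1) h
      · obtain ⟨x, h1, h2⟩ := wi12 h; exact h1.symm.trans h2
      · obtain ⟨x, h1, h2⟩ := wi12 h.symm; exact h2.symm.trans h1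
      · exact congrArg (fun z : (wg T).E => z.1.2) h)
  have n1 : ∀ a, N ((wi1 T).f a) = a := fun a => hN (.inl a)
  have n2 : ∀ a, N ((wi2 T).f a) = a := fun a => hN (.inr a)
  refine ⟨⟨N, fun z => ?_, fun x => ?_⟩, n1, n2⟩
  · rcases wg_cov z with ⟨a, rfl⟩ | ⟨a, rfl⟩
    · rw [n1]; rfl
    · rw [n2]; exact (hp1 (wi2 T) a).symm
  · rw [← hs1 (wi1 T), n1]; rfl

/-- the suspension of a wedge -/
def wsd (D : SD T S') : SD (wg T) (wg S') where
  c := ⟨fun z => ⟨(D.c (z.1.1.1, z.2), D.c (z.1.1.2, z.2)), by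
    rcases z.1.2 with h | h
    · exact .inl (by rw [h, c_s, D.hp])
    · exact .inr (by rw [h, c_s, D.hp])⟩, by fun_prop⟩
  hp z := D.hp _
  bd := bd_ind (fun e => wg_ext (c_0 D _) ((c_0 D _).trans (congrArg S'.s (wS_p e.2))))
    (fun e => wg_ext (c_1 D _) ((c_1 D _).trans (congrArg S'.s (wS_p e.2))))
    fun x t => wg_ext ((c_s D x t).trans (congrArg S'.s (T.ps x).symm))
      ((c_s D x t).trans (congrArg S'.s (T.ps x).symm))
  surj y := by
    rcases wg_cov y with ⟨a, rfl⟩ | ⟨a, rfl⟩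
    · obtain ⟨⟨b, t⟩, rfl⟩ := D.surj a
      exact ⟨((wi1 T).f b, t), wg_ext rfl ((c_s D _ t).trans (congrArg S'.s (D.hp (b, t)).symm))⟩
    · obtain ⟨⟨b, t⟩, rfl⟩ := D.surj a
      exact ⟨((wi2 T).f b, t), wg_ext ((c_s D _ t).trans (congrArg S'.s (D.hp (b, t)).symm)) rfl⟩
  inj z z' h := by
    obtain ⟨⟨⟨a, b⟩, m⟩, t⟩ := z
    obtain ⟨⟨⟨a', b'⟩, m'⟩, t'⟩ := z'
    have h1 : D.c (a, t) = D.c (a', t') := congrArg (fun z : (wg S').E => z.1.1) h
    have h2 : D.c (b, t) = D.c (b', t') := congrArg (fun z : (wg S').E => z.1.2) h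
    have p1 : T.p b = T.p a := wS_p m
    have p2 : T.p b' = T.p a' := wS_p m'
    have p3 : T.p a = T.p a' := (D.hp (a, t)).symm.trans ((congrArg S'.p h1).trans (D.hp _))
    have key : ∀ (a b : T.E) (m : (a, b) ∈ wS T) (t : I), T.Bd (a, t) → T.Bd (b, t) →
        (wg T).Bd (⟨(a, b), m⟩, t) := fun a b m t u v => by
      rcases u with u | u | u
      · exact .inl u
      · exact .inr (.inl u)
      rcases v with v | v | v
      · exact .inl v
      · exact .inr (.inl v)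
      · exact .inr (.inr (wg_ext u (v.trans (congrArg T.s (wS_p m)))))
    have k2 : ∀ (a a' : T.E) (t : I), T.p a = T.p a' → T.Bd (a, t) → T.Bd (a', t) →
        (t = 0 ∨ t = 1) ∨ a = a' := fun a a' t e u v => by
      rcases u with u | u | u
      · exact .inl (.inl u)
      · exact .inl (.inr u)
      rcases v with v | v | v
      · exact .inl (.inl v)
      · exact .inl (.inr v)
      · exact .inr (u.trans ((congrArg T.s e).trans v.symm))
    have k3 : ∀ (z : (wg T).E) (t : I), t = 0 ∨ t = 1 → (wg T).Bd (z, t) := fun z t u =>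
      u.elim .inl fun u => .inr (.inl u)
    rcases D.inj _ _ h1 with e1 | ⟨u, u'⟩ <;> rcases D.inj _ _ h2 with e2 | ⟨v, v'⟩
    · cases e1; cases e2; exact .inl rfl
    · cases e1
      rcases k2 b b' t (p1.trans p2.symm) v v' with e | rfl
      · exact .inr ⟨k3 _ t e, k3 _ t e⟩
      · exact .inl rfl
    · cases e2
      rcases k2 a a' t p3 u u' with e | rfl
      · exact .inr ⟨k3 _ t e, k3 _ t e⟩
      · exact .inl rfl
    · exact .inr ⟨key a b m t u v, key a' b' m' t' u' v'⟩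

/-- `F` is the sum of two maps with disjoint supports -/
def Dj (F₁ F₂ F : H1 A T) : Prop := ∀ e, (F₂.f e = T.s (A.p e) ∧ F.f e = F₁.f e) ∨
  (F₁.f e = T.s (A.p e) ∧ F.f e = F₂.f e)

/-- the map to the wedge -/
def Dj.g {F₁ F₂ F : H1 A T} (h : Dj F₁ F₂ F) : H1 A (wg T) :=
  ⟨⟨fun e => ⟨(F₁.f e, F₂.f e), (h e).elim (fun u => .inr (by rw [hp1]; exact u.1))
      fun u => .inl (by rw [hp1]; exact u.1)⟩, by fun_prop⟩, fun e => hp1 F₁ e,
    fun x => wg_ext (hs1 F₁ x) (hs1 F₂ x)⟩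

theorem Dj.fold {F₁ F₂ F : H1 A T} (h : Dj F₁ F₂ F) {N : H1 (wg T) T}
    (n1 : ∀ a, N.f ((wi1 T).f a) = a) (n2 : ∀ a, N.f ((wi2 T).f a) = a) (e : A.E) :
    N.f (h.g.f e) = F.f e := by
  rcases h e with ⟨u, v⟩ | ⟨u, v⟩
  · rw [v, ← n1 (F₁.f e)]
    exact congrArg N.f (wg_ext rfl (u.trans (congrArg T.s (hp1 F₁ e).symm)))
  · rw [v, ← n2 (F₂.f e)]
    exact congrArg N.f (wg_ext (u.trans (congrArg T.s (hp1 F₂ e).symm)) rfl)

theorem fold_pull [CompactSpace X] {N : H1 (wg T) T} (n1 : ∀ a, N.f ((wi1 T).f a) = a)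
    (n2 : ∀ a, N.f ((wi2 T).f a) = a) {l : KX T.E} (hl : T.Rd l) :
    pull N.f l = pull (wq1 T).f l + pull (wq2 T).f l := by
  rw [wg_split (rd_pull N hl), pull_pull _ _ (.id _) n1, pull_pull _ _ (.id _) n2,
    pull_id _ (fun _ => rfl)]

/-- **additivity of the pull-back** -/
theorem Dj.pull [CompactSpace X] {F₁ F₂ F : H1 A T} (h : Dj F₁ F₂ F) {l : KX T.E} (hl : T.Rd l) :
    pull F.f l = pull F₁.f l + pull F₂.f l := by
  obtain ⟨N, n1, n2⟩ := exists_fold T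
  rw [← pull_pull h.g.f N.f F.f (h.fold n1 n2), fold_pull n1 n2 hl, map_add,
    pull_pull h.g.f (wq1 T).f F₁.f (fun _ => rfl), pull_pull h.g.f (wq2 T).f F₂.f (fun _ => rfl)]

/-- **additivity of the defect class** -/
theorem Dj.ecl [CompactSpace X] {F₁ F₂ F : H1 A T} (h : Dj F₁ F₂ F) (D : SD A S) (D' : SD T S')
    {l : KX T.E} {ρ : KX X} (hl : T.Rd l) {x₁ x₂ x : KX S.E} (h1 : Ecl F₁ D l ρ x₁)
    (h2 : Ecl F₂ D l ρ x₂) (h0 : Ecl F D l ρ x) :
    ∃ y₁ y₂, Ecl F₁ D l ρ y₁ ∧ Ecl F₂ D l ρ y₂ ∧ x = y₁ + y₂ := by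
  obtain ⟨N, n1, n2⟩ := exists_fold T
  have a := ecl_sum _ D (ecl_post (G := h.g) (wq1 T) (fun _ => rfl) D h1)
    (ecl_post (G := h.g) (wq2 T) (fun _ => rfl) D h2)
  have b := ecl_post (G := h.g) N (h.fold n1 n2) D h0
  rw [fold_pull n1 n2 hl] at b
  obtain ⟨G, hG⟩ := exists_sus h.g D (wsd D')
  obtain ⟨G₁, hG₁⟩ := exists_sus F₁ D D'
  obtain ⟨G₂, hG₂⟩ := exists_sus F₂ D D'
  obtain ⟨w, y, hw, hy, e⟩ := ecl_un _ D (wsd D') G hG a b
  have e1 : ∀ z, (wq1 S').f (G.f z) = G₁.f z := fun z => by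
    obtain ⟨⟨a, t⟩, rfl⟩ := D.surj z
    rw [hG, hG₁]; rfl
  have e2 : ∀ z, (wq2 S').f (G.f z) = G₂.f z := fun z => by
    obtain ⟨⟨a, t⟩, rfl⟩ := D.surj z
    rw [hG, hG₂]; rfl
  refine ⟨_, _, ecl_add' _ D D' G₁ hG₁ (ecl_add _ D h1 hw) (rd_pull (wi1 S') hy),
    ecl_add' _ D D' G₂ hG₂ h2 (rd_pull (wi2 S') hy), ?_⟩
  rw [e, wg_split hy, map_add, pull_pull _ _ _ e1, pull_pull _ _ _ e2, ← wg_split hy]
  ring

end Crest.Agent.N218.K.Pup
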