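import Crest.Agent.N218.K.Dsum
import Crest.Agent.N218.K.Wdg

/-!
# Row 218, block D1 (helper28): additivity of the secondary class (on helper94's wedge lemma)
-/

set_option autoImplicit false
set_option linter.unusedVariables false
set_option maxHeartbeats 400000

open OnePoint

namespace Crest.Agent.N218.K

theorem rg_dj {Γ : Type} [Group Γ] [TopologicalSpace Γ] [CompactSpace Γ] {Y : GS Γ} {M N : LS Γ}
    {g1 g2 g : Y.Z × M.Z → OnePoint N.Z} {F1 F2 F : H1 (Sb Y M) (Sb Y N)} (r1 : Rg F1 g1)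
    (r2 : Rg F2 g2) (r0 : Rg F g) (h : ∀ z, (g z = g1 z ∧ g2 z = ∞) ∨ (g z = g2 z ∧ g1 z = ∞)) :
    Pup.Dj F1 F2 F := by
  refine sb_ind (fun y => .inl ?_) fun y w => ?_
  · rw [F.f_inf, F1.f_inf, F2.f_inf]; exact ⟨rfl, rfl⟩
  · rw [r0, r1, r2]
    rcases h (y, w) with ⟨a, b⟩ | ⟨a, b⟩
    · exact .inl ⟨by rw [b]; rfl, by rw [a]⟩
    · exact .inr ⟨by rw [b]; rfl, by rw [a]⟩

theorem esum (hC : CLE) : ESUM := by
  intro Γ _ _ _ _ χ r X V hd P U U' hP h1 h2 d z l ρ hl hρ h0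
  obtain ⟨g1, g2, g, F1, F2, F, -, -, r1, r2, r0, c1, c2, c0, -, -, h⟩ :=
    sum_data hC χ r X V hd P U U' hP h1 h2 d z
  obtain ⟨x1, e1⟩ := Pup.ecl_ex F1 (sd _ _) hl (h0 _) hρ
  obtain ⟨x2, e2⟩ := Pup.ecl_ex F2 (sd _ _) hl (h0 _) hρ
  obtain ⟨x, e⟩ := Pup.ecl_ex F (sd _ _) hl (h0 _) hρ
  obtain ⟨y1, y2, a, b, c⟩ := (rg_dj r1 r2 r0 h).ecl (sd _ _) (sd _ _) hl e1 e2 e
  exact ⟨y1, y2, ⟨F1, c1, a⟩, ⟨F2, c2, b⟩, F, c0, c ▸ e⟩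

theorem dsum0 : DSUM := dsum cle
theorem esum0 : ESUM := esum cle

end Crest.Agent.N218.K
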