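import Crest.Agent.N218.K.Eht
import Crest.Agent.N218.K.Cx0
import Crest.Agent.N218.K.Col

/-!
# N218/K/Eun0: suspensions and external products; indeterminacy from the relative Thom
isomorphism (helper94)
-/

set_option autoImplicit false

open unitInterval Topology Set OnePoint

noncomputable section

namespace Crest.Agent.N218.K.Pup

variable {Γ : Type} [Group Γ] [TopologicalSpace Γ] [CompactSpace Γ]

theorem triv_sph {T : Type} [TopologicalSpace T] [LocallyCompactSpace T] [T2Space T] (g : Γ)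
    (u : OnePoint T) : (LS.triv Γ T).sph.act g u = u := by
  induction u using OnePoint.rec <;> rfl

/-- the product of a map with the identity of `ℝ⁺` -/
theorem exists_prod {Y : GS Γ} {M T : LS Γ} (F : H1 (Sb Y M) (Sb Y T))
    (G : C((Sb Y (M.prod (LS.triv Γ ℝ))).E, (Sb Y (T.prod (LS.triv Γ ℝ))).E))
    (hG : ∀ e t, G ((sd Y M).c (e, t)) = (sd Y T).c (F.f e, t)) :
    ∃ g : C((smd Y M (LS.triv Γ ℝ)).P.E, (smd Y T (LS.triv Γ ℝ)).P.E),
      (∀ z, (smd Y T _).q (g z) = F.f ((smd Y M _).q z)) ∧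
      (∀ z, (smd Y T _).P.p (g z) = (smd Y M _).P.p z) ∧
      ∀ z, (smd Y T _).c (g z) = G ((smd Y M _).c z) := by
  obtain ⟨H, hH⟩ := sb_lift (Y := Y) (M := T) (T := OnePoint ℝ)
    (fun z => pt (Y.prod (LS.triv Γ ℝ).sph) T (z.2.1, z.1) z.2.2)
    (((Y.prod (LS.triv Γ ℝ).sph).prod T.sph).pr.continuous.comp
      ((continuous_snd.fst.prodMk continuous_fst).prodMk continuous_snd.snd))
    (fun t g y w => ((pt_eq (Y := Y.prod (LS.triv Γ ℝ).sph) (y := (y, t)) (y' := (Y.act g y, t))).2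
      ⟨g, Prod.ext rfl (triv_sph g t), rfl⟩).symm)
  let u : C((smd Y M (LS.triv Γ ℝ)).P.E, OnePoint ℝ) :=
    ((Y.prod (LS.triv Γ ℝ).sph).prod M.sph).lift ⟨fun z => z.1.2, continuous_fst.snd⟩
      fun g z => triv_sph g z.1.2
  refine ⟨H.comp (u.prodMk (F.f.comp (smd Y M _).q)), fun z => ?_, fun z => ?_, fun z => ?_⟩
  · change (smd Y T _).q (H (u z, F.f ((smd Y M _).q z))) = _
    obtain ⟨y, w, e⟩ := pt_surj' Y T (F.f ((smd Y M _).q z))
    rw [← e, hH]; rfl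
  · obtain ⟨⟨y, a⟩, w, rfl⟩ := pt_surj' (Y.prod (LS.triv Γ ℝ).sph) M z
    change (smd Y T _).P.p (H (a, F.f (pt Y M y w))) = pt Y _ y a
    obtain ⟨y', w', e⟩ := pt_surj' Y T (F.f (pt Y M y w))
    have hy : Y.pr y' = Y.pr y := by
      have := F.hp (pt Y M y w)
      rw [← e] at this; exact this
    obtain ⟨g, hg⟩ := Y.pr_eq.1 hy
    rw [← e, hH]
    exact pt_eq.2 ⟨g, hg, triv_sph g a⟩
  · obtain ⟨⟨y, a⟩, w, rfl⟩ := pt_surj' (Y.prod (LS.triv Γ ℝ).sph) M z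
    obtain ⟨t, rfl⟩ := thI_surj a
    change (smd Y T _).c (H (thI t, F.f (pt Y M y w))) = G ((sd Y M).c (pt Y M y w, t))
    rw [hG]
    obtain ⟨y', w', e⟩ := pt_surj' Y T (F.f (pt Y M y w))
    rw [← e, hH]; rfl

/-- the suspension of a map is compatible with external products -/
theorem sus_xm {Y : GS Γ} {M T : LS Γ} (F : H1 (Sb Y M) (Sb Y T))
    (G : C((Sb Y (M.prod (LS.triv Γ ℝ))).E, (Sb Y (T.prod (LS.triv Γ ℝ))).E))
    (hG : ∀ e t, G ((sd Y M).c (e, t)) = (sd Y T).c (F.f e, t)) {l : KS Y T}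
    {k : KS Y (LS.triv Γ ℝ)} (hl : (Sb Y T).Rd l) (hk : (Sb Y _).Rd k) :
    pull G (xm l k) = xm (pull F.f l) k := by
  obtain ⟨g, h1, h2, h3⟩ := exists_prod F G hG
  have := (smd Y M (LS.triv Γ ℝ)).natural (smd Y T _) F.f (.id _) g G h1 h2 h3 hl hk
    (rd_pull F hl) (by rw [K.pull_id]; exact hk)
  rw [K.pull_id] at this
  exact this

/-- indeterminacy of the defect class, given the relative Thom isomorphism -/
theorem eun_of {Y : GS Γ} {M T : LS Γ} (F : H1 (Sb Y M) (Sb Y T)) {l : KS Y T} {ρ : KX Y.Q}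
    {x x' : KS Y (M.prod (LS.triv Γ ℝ))} (hl : (Sb Y T).Rd l)
    (rel : ∀ y, (Sb Y (T.prod (LS.triv Γ ℝ))).Rd y → ∃ k, (Sb Y _).Rd k ∧ y = xm l k)
    (h0 : pull F.f l = 0) (h : Ecl F (sd _ _) l ρ x) (h' : Ecl F (sd _ _) l ρ x') :
    ∃ y, (Sb _ _).Rd y ∧ x - x' = ps _ y - (Sb _ _).sm ρ y := by
  obtain ⟨G, hG⟩ := exists_sus F (sd Y M) (sd Y T)
  obtain ⟨w, y, hw, hy, e⟩ := ecl_un F _ _ G hG h' h
  obtain ⟨k, hk, rfl⟩ := rel y hy
  refine ⟨w, hw, ?_⟩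
  rw [e, sus_xm F G.f hG hl hk, h0, show xm (0 : KS Y M) k = 0 from (smd Y M _).zero_mul k]
  ring

end Crest.Agent.N218.K.Pup
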