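import Crest.Agent.N218.K.Fin0
import Crest.Agent.N218.K.Sum2

/-! # Row 218, block D1 (helper34): the invariants exist -/

namespace Crest.Agent.N218.K

theorem inve' : INVE := inve0 esum'

theorem invd' : INVD := invd0 dsum'

end Crest.Agent.N218.K
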