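import Crest.Agent.N218.K.Gys
import Crest.Agent.N218.K.Sus

/-!
# Row 218, block D0 (helper36): the Gysin data of a circle bundle `Y/Γ' → Y/Γ`
-/

set_option autoImplicit false
set_option linter.unusedVariables false

open Crest.Agent.R204 Crest.Agent.R204.Ex837 unitInterval Topology OnePoint

noncomputable section

namespace Crest.Agent.N218.K

variable {Γ Γ' : Type} [Group Γ] [TopologicalSpace Γ] [Group Γ'] [TopologicalSpace Γ']
  [CompactSpace Γ] [CompactSpace Γ']

/-- a ray in `M` whose orbit is `M⁺`, with isotropy the image of `φ` -/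
structure Ray (φ : Γ' →* Γ) (M : LS Γ) (ε : I → OnePoint M.Z) : Prop where
  ct : Continuous ε
  e1 : ε 1 = ∞
  e0 : ∀ g, M.sph.act g (ε 0) = ε 0
  fx : ∀ g t, M.sph.act (φ g) (ε t) = ε t
  sj : ∀ w, ∃ g t, M.sph.act g (ε t) = w
  ij : ∀ g t t', M.sph.act g (ε t) = ε t' → t = t' ∧ (t = 0 ∨ t = 1 ∨ g ∈ φ.range)

theorem triv_act (g : Γ) (w : OnePoint ℝ) : (LS.triv Γ ℝ).sph.act g w = w := by
  induction w using OnePoint.rec <;> rfl

theorem thI_eq {t t' : I} (h : thI t = thI t') : t = t' ∨ ((t = 0 ∨ t = 1) ∧ (t' = 0 ∨ t' = 1)) := by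
  induction e : thI t' using OnePoint.rec with
  | infty => exact .inr ⟨thI_infty.1 (h.trans e), thI_infty.1 e⟩
  | coe x => exact .inl (thI_inj (h.trans e) e)

/-- the Gysin data -/
def gyS (Y : GS Γ) {φ : Γ' →* Γ} (hφ : Continuous φ) {M : LS Γ} {ε : I → OnePoint M.Z}
    (R : Ray φ M ε) (π : C((Y.res φ hφ).Q, Y.Q)) (hπ : ∀ y, π ((Y.res φ hφ).pr y) = Y.pr y)
    (z0 : C(Y.Q, (Sb Y M).E)) (hz : ∀ y, z0 (Y.pr y) = pt Y M y (ε 0)) :
    Gy Y.Q (Y.res φ hφ).Q (Sb (Y.res φ hφ) (LS.triv Γ' ℝ)).E (Sb Y M).E (Y.Z × I) :=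
  let c : C(Y.Z × I, (Sb (Y.res φ hφ) (LS.triv Γ' ℝ)).E) :=
    ⟨fun z => pt (Y.res φ hφ) (LS.triv Γ' ℝ) z.1 (thI z.2),
      (GS.pr _).continuous.comp (continuous_fst.prodMk (continuous_thI.comp continuous_snd))⟩
  let j : C(Y.Z × I, (Sb Y M).E) := ⟨fun z => pt Y M z.1 (ε z.2),
      (GS.pr _).continuous.comp (continuous_fst.prodMk (R.ct.comp continuous_snd))⟩
  have cq : IsQuotientMap c := c.continuous.isClosedMap.isQuotientMap c.continuous fun e => by
    obtain ⟨y, w, rfl⟩ := pt_surj' _ _ e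
    obtain ⟨t, rfl⟩ := thI_surj w
    exact ⟨(y, t), rfl⟩
  have jq : IsQuotientMap j := j.continuous.isClosedMap.isQuotientMap j.continuous fun e => by
    obtain ⟨y, w, rfl⟩ := pt_surj' _ _ e
    obtain ⟨g, t, rfl⟩ := R.sj w
    refine ⟨(Y.act g⁻¹ y, t), pt_eq.2 ⟨g, ?_, rfl⟩⟩
    rw [← Y.mul, mul_inv_cancel, Y.one]
  let hc : C(Y.Z × I, ℂ) := ⟨fun z => ((z.2 : ℝ) : ℂ), by fun_prop⟩
  have hh : Function.FactorsThrough hc j := fun z z' e => by
    obtain ⟨g, -, e⟩ := pt_eq.1 e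
    exact congrArg (fun t : I => ((t : ℝ) : ℂ)) (R.ij g _ _ e).1
  have j1 : ∀ y, j (y, 1) = (Sb Y M).s (Y.pr y) := fun y => congrArg (pt Y M y) R.e1
  have c0 : ∀ y t, (t = 0 ∨ t = 1) → c (y, t) =
      (Sb (Y.res φ hφ) (LS.triv Γ' ℝ)).s ((Y.res φ hφ).pr y) := fun y t h =>
    congrArg (pt (Y.res φ hφ) (LS.triv Γ' ℝ) y) (thI_infty.2 h)
  have hl : ∀ z, jq.lift hc hh (j z) = ((z.2 : ℝ) : ℂ) := fun z =>
    DFunLike.congr_fun (jq.lift_comp hc hh) z
  { π := π
    s := (Sb _ _).s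
    pE := (Sb _ _).p
    z0 := z0
    z1 := (Sb Y M).s
    pP := (Sb Y M).p
    c := c
    j := j
    h := jq.lift hc hh
    πs := fun b => by
      obtain ⟨y, rfl⟩ := Y.pr_surj b
      exact ⟨_, hπ y⟩
    hs := (Sb _ _).ps
    p0 := fun b => by
      obtain ⟨y, rfl⟩ := Y.pr_surj b
      rw [hz]; rfl
    p1 := (Sb Y M).ps
    cq := cq
    jq := jq
    hp := fun z => (hπ z.1).symm
    h0 := fun b => by
      obtain ⟨y, rfl⟩ := Y.pr_surj b
      rw [hz]
      exact (hl (y, 0)).trans (by simp)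
    h1 := fun b => by
      obtain ⟨y, rfl⟩ := Y.pr_surj b
      rw [← j1]
      exact (hl (y, 1)).trans (by simp)
    en := fun l => by
      obtain ⟨y, rfl⟩ := (Y.res φ hφ).pr_surj l
      exact ⟨(y, 0), (y, 1), c0 _ _ (.inl rfl), c0 _ _ (.inr rfl), 
        ((congrArg z0 (hπ y)).trans (hz y)).symm, (j1 y).trans (congrArg _ (hπ y).symm)⟩
    F1 := fun f hf ⟨y, t⟩ ⟨y', t'⟩ e => by
      obtain ⟨g, a, b⟩ := pt_eq.1 e
      have k : ∀ y t, (t = 0 ∨ t = 1) → f (j (y, t)) = f ((Sb Y M).s (Y.pr y)) := by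
        rintro y t (rfl | rfl)
        · rw [← hf, hz]; rfl
        · rw [j1]
      rcases thI_eq ((triv_act g _).symm.trans b) with h | ⟨h, h'⟩
      · obtain rfl : t = t' := h
        exact congrArg f (pt_eq.2 ⟨φ g, a, R.fx g t⟩)
      · rw [k y t h, k y' t' h', Y.pr_eq.2 ⟨φ g, a⟩]
    F2 := fun a b hab ⟨y, t⟩ ⟨y', t'⟩ e => by
      obtain ⟨g, e1, e2⟩ := pt_eq.1 e
      obtain ⟨h, h'⟩ := R.ij g _ _ e2
      obtain rfl : t = t' := h
      rw [← or_assoc] at h'
      rcases h' with h' | ⟨g, rfl⟩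
      · rw [c0 y t h', c0 y' t h', hab, hab]
        exact congrArg b ((hπ y).trans ((Y.pr_eq.2 ⟨g, e1⟩).trans (hπ y').symm))
      · exact congrArg a (pt_eq.2 ⟨g, e1, triv_act g _⟩) }

/-- the positive ray in `ℂ` -/
def rayC (t : I) : OnePoint ℂ := if (t : ℝ) = 1 then ∞ else ((((t : ℝ) / (1 - t) : ℝ) : ℂ) : ℂ)

theorem rayC_coe {t : I} {z : ℂ} (h : rayC t = z) :
    (t : ℝ) < 1 ∧ z = (((t : ℝ) / (1 - t) : ℝ) : ℂ) := by
  unfold rayC at h
  split_ifs at h with h0
  · exact absurd h (infty_ne_coe _)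
  · exact ⟨lt_of_le_of_ne t.2.2 h0, (coe_injective h).symm⟩

theorem rayC_infty {t : I} (h : rayC t = ∞) : t = 1 := by
  unfold rayC at h
  split_ifs at h with h0
  · exact Subtype.ext h0
  · exact absurd h (coe_ne_infty _)

theorem rayC_one : rayC 1 = ∞ := if_pos rfl

theorem rayC_zero : rayC 0 = ((0 : ℂ) : OnePoint ℂ) := by simp [rayC]

theorem rayC_real {r : ℝ} (hr : 0 ≤ r) : ∃ t, rayC t = ((r : ℂ) : OnePoint ℂ) := by
  have h1 : 0 < 1 + r := by linarith
  have h2 : r / (1 + r) < 1 := (div_lt_one h1).2 (by linarith)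
  refine ⟨⟨r / (1 + r), div_nonneg hr h1.le, h2.le⟩, ?_⟩
  unfold rayC
  rw [if_neg h2.ne]
  congr 2
  change r / (1 + r) / (1 - r / (1 + r)) = r
  have : 1 - r / (1 + r) = 1 / (1 + r) := by field_simp; ring
  rw [this]; field_simp

theorem continuous_rayC : Continuous rayC := by
  rw [continuous_iff_continuousAt]
  intro t
  by_cases h : (t : ℝ) = 1
  · have e : rayC t = ∞ := if_pos h
    unfold ContinuousAt
    rw [e, hasBasis_nhds_infty.tendsto_right_iff]
    rintro K ⟨-, hK⟩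
    obtain ⟨C, hC⟩ := hK.isBounded.exists_norm_le
    have h3 : ∀ᶠ s : I in 𝓝 t, C * (1 - (s : ℝ)) < s := by
      refine ContinuousAt.eventually_lt (by fun_prop) (by fun_prop) ?_
      rw [h]; norm_num
    filter_upwards [h3] with s hs
    induction e' : rayC s using OnePoint.rec with
    | infty => exact .inr rfl
    | coe x =>
      obtain ⟨a, b⟩ := rayC_coe e'
      refine .inl ⟨x, fun hx => ?_, rfl⟩
      have p := sub_pos.2 a
      have := hC x hx
      rw [b, Complex.norm_real, Real.norm_of_nonneg (div_nonneg s.2.1 p.le), div_le_iff₀ p] at this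
      linarith
  · have h3 : ∀ᶠ s : I in 𝓝 t, (s : ℝ) ≠ 1 := ContinuousAt.eventually_ne (by fun_prop) h
    refine ContinuousAt.congr (f := fun s : I =>
      (((((s : ℝ) / (1 - s) : ℝ) : ℂ) : ℂ) : OnePoint ℂ)) ?_ ?_
    · exact continuous_coe.continuousAt.comp (Complex.continuous_ofReal.continuousAt.comp
        (ContinuousAt.div (by fun_prop) (by fun_prop) (sub_ne_zero.2 (Ne.symm h))))
    · filter_upwards [h3] with s hs
      exact (if_neg hs).symm

/-- the ray of a character -/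
theorem ray_of (φ : Γ' →* Γ) (ψ : Γ →* Circle) (hψ : Function.Surjective ψ)
    (hk : φ.range = ψ.ker) (one mul cont) :
    Ray φ (⟨ℂ, fun g v => (ψ g : ℂ) * v, one, mul, cont⟩ : LS Γ) rayC where
  ct := continuous_rayC
  e1 := rayC_one
  e0 g := by rw [rayC_zero]; exact congrArg OnePoint.some (mul_zero _)
  fx g t := by
    have : ψ (φ g) = 1 := by rw [← MonoidHom.mem_ker, ← hk]; exact ⟨g, rfl⟩
    induction rayC t using OnePoint.rec with
    | infty => rfl
    | coe z => exact congrArg OnePoint.some (show (ψ (φ g) : ℂ) * z = z by rw [this]; simp)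
  sj w := by
    induction w using OnePoint.rec with
    | infty => exact ⟨1, 1, by rw [rayC_one]; rfl⟩
    | coe z =>
      obtain ⟨t, ht⟩ := rayC_real (norm_nonneg z)
      obtain ⟨g, hg⟩ := hψ (Circle.exp (Complex.arg z))
      refine ⟨g, t, ?_⟩
      rw [ht]
      refine congrArg OnePoint.some ?_
      change (ψ g : ℂ) * _ = z
      rw [hg, Circle.coe_exp, mul_comm, Complex.norm_mul_exp_arg_mul_I]
  ij g t t' h := by
    induction e : rayC t using OnePoint.rec with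
    | infty =>
      rw [e] at h
      exact ⟨(rayC_infty e).trans (rayC_infty h.symm).symm, .inr (.inl (rayC_infty e))⟩
    | coe z =>
      rw [e] at h
      obtain ⟨a, b⟩ := rayC_coe e
      obtain ⟨a', b'⟩ := rayC_coe h.symm
      have b2 : (ψ g : ℂ) * z = _ := b'
      have p := sub_pos.2 a
      have p' := sub_pos.2 a'
      have n := congrArg norm b2
      rw [norm_mul, Circle.norm_coe, one_mul, b, Complex.norm_real, Complex.norm_real,
        Real.norm_of_nonneg (div_nonneg t.2.1 p.le), Real.norm_of_nonneg (div_nonneg t'.2.1 p'.le),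
        div_eq_div_iff p.ne' p'.ne'] at n
      have tt : t = t' := Subtype.ext (by linarith)
      refine ⟨tt, ?_⟩
      by_cases h0 : t = 0
      · exact .inl h0
      · refine .inr (.inr ?_)
        rw [hk, MonoidHom.mem_ker]
        have z0 : z ≠ 0 := by
          rw [b, Complex.ofReal_ne_zero]
          exact div_ne_zero (fun e => h0 (Subtype.ext e)) p.ne'
        rw [← tt, ← b] at b2
        exact Circle.ext (mul_right_cancel₀ z0 (by rw [b2]; simp))

end Crest.Agent.N218.K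

end
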