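import Crest.Agent.N218.K.Gy2

/-!
# Row 218, block D0 (helper36): `K⁻¹` of a lens space, from the Gysin data
-/

set_option autoImplicit false
set_option linter.unusedVariables false

open Crest.Agent.R204 Crest.Agent.R204.Ex837 Polynomial

noncomputable section

namespace Crest.Agent.N218.K

theorem aeval_top {K : Type} [CommRing K] {l t : K} (h : (1 - l) * t = 0) (f : ℤ[X]) :
    aeval l f * t = (f.eval 1 : ℤ) * t := by
  obtain ⟨c, hc⟩ := X_sub_C_dvd_sub_C_eval (a := (1 : ℤ)) (p := f)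
  have := congrArg (aeval l) hc
  simp only [map_sub, map_mul, aeval_X, map_one, eq_intCast] at this
  rw [map_intCast] at this
  linear_combination t * this - aeval l c * h

theorem top_of {r q : ℕ} (hq : 0 < q) {p : ℤ[X]} (h : (1 - X) ^ (r + 1) ∣ p * (1 - X ^ q)) :
    (1 - X) ^ r ∣ p := by
  have hp : Prime (1 - X : ℤ[X]) := by
    have := (prime_X_sub_C (1 : ℤ)).neg
    rwa [neg_sub, map_one] at this
  rw [← mul_neg_geom_sum, ← mul_assoc, mul_right_comm, pow_succ,
    mul_dvd_mul_iff_right hp.ne_zero, mul_comm] at h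
  refine hp.pow_dvd_of_dvd_mul_left r (fun ⟨c, hc⟩ => ?_) h
  have := congrArg (eval 1) hc
  simp [eval_finsetSum] at this
  omega

/-- the properties of `K⁻¹` of a lens space -/
structure Lk {A : Type} [CommRing A] [Algebra ℂ A] (r : ℕ) (l x : KC A) : Prop where
  ps : ps A x = 3 ^ r * x
  sm : ∀ f : ℤ[X], aeval l f * x = (f.eval 1 : ℤ) * x
  tf : ∀ m : ℤ, m ≠ 0 → m * x = 0 → x = 0

/-- **KILL** -/
theorem Lk.kill {A : Type} [CommRing A] [Algebra ℂ A] {r : ℕ} {l x : KC A} (h : Lk r l x)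
    (f g : ℤ[X]) (e : aeval l f * K.ps A x = aeval l g * x) (ne : 3 ^ r * f.eval 1 ≠ g.eval 1) :
    x = 0 := by
  refine h.tf _ (sub_ne_zero.2 ne) ?_
  rw [h.ps, mul_left_comm, h.sm, h.sm] at e
  push_cast
  linear_combination e

theorem Gy.lk {B L E P Z : Type} [TopologicalSpace B] [TopologicalSpace L] [TopologicalSpace E]
    [TopologicalSpace P] [TopologicalSpace Z] [CompactSpace B] [CompactSpace P]
    (G : Gy B L E P Z) (hK : K1Triv C(B, ℂ)) {l : KX B} {r q : ℕ} (hq : 0 < q)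
    (sj : ∀ y, ∃ p : ℤ[X], aeval l p = y) (ker : ∀ p : ℤ[X], aeval l p = 0 → (1 - X) ^ (r + 1) ∣ p)
    (nil : (1 - l) ^ (r + 1) = 0) (pl : ps _ l = l ^ 3) {lam : KX P}
    (t1 : ∀ w, pull G.z1 w = 0 → ∃ a, w = pull G.pP a * lam)
    (t2 : ∀ a, pull G.pP a * lam = 0 → a = 0) (z0 : pull G.z0 lam = 1 - l ^ q)
    (pm : ps _ lam = pull G.pP (1 + l ^ q + (l ^ q) ^ 2) * lam) {x : KX E}
    (hx : pull G.s x = 0) : Lk (r + 1) (pull G.pE (pull G.π l)) x := by
  obtain ⟨w, hw⟩ := Gy.Rl.ex G hx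
  obtain ⟨a, rfl⟩ := t1 w hw.z1
  have h0 := hw.z0
  rw [map_mul, pull_pull_id G.z0 G.pP G.p0, z0] at h0
  obtain ⟨p, rfl⟩ := sj a
  obtain ⟨c, rfl⟩ := top_of hq (ker (p * (1 - X ^ q)) (by simpa using h0))
  have hT : (1 - l) * (1 - l) ^ r = 0 := by rw [← pow_succ', nil]
  have e : aeval l ((1 - X) ^ r * c) = (c.eval 1 : ℤ) * (1 - l) ^ r := by
    rw [← aeval_top hT]; simp [mul_comm]
  rw [e] at hw
  generalize c.eval 1 = n at hw
  refine ⟨?_, fun f => ?_, fun m hm h => ?_⟩
  · have k := hw.ps.sub (hw.int (3 ^ (r + 1)))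
    have e1 : ps _ ((n : KX B) * (1 - l) ^ r) * (1 + l ^ q + (l ^ q) ^ 2) =
        ((3 ^ (r + 1) : ℤ) : KX B) * ((n : KX B) * (1 - l) ^ r) := by
      have := aeval_top hT ((1 + X + X ^ 2) ^ r * (1 + X ^ q + (X ^ q) ^ 2))
      simp only [map_mul, map_pow, map_add, map_one, aeval_X, eval_mul, eval_pow, eval_add,
        eval_one, eval_X, one_pow] at this
      rw [map_mul, map_intCast, map_pow, map_sub, map_one, pl,
        show 1 - l ^ 3 = (1 + l + l ^ 2) * (1 - l) by ring, mul_pow]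
      push_cast at this ⊢
      linear_combination (n : KX B) * this
    rw [map_mul, ps_pull, pm, ← mul_assoc, ← map_mul, e1, map_mul, map_intCast, mul_assoc,
      sub_self] at k
    have := sub_eq_zero.1 (k.left hK)
    push_cast at this
    exact this
  · have k := (hw.sm (aeval l f)).sub (hw.int (f.eval 1))
    rw [← mul_assoc (pull G.pP _), ← map_mul, mul_left_comm, aeval_top hT, mul_left_comm, map_mul,
      map_intCast, mul_assoc, sub_self] at k
    have e2 : pull G.pE (pull G.π (aeval l f)) = aeval (pull G.pE (pull G.π l)) f :=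
      (aeval_algHom_apply ((pull G.pE).comp (pull G.π)).toIntAlgHom l f).symm
    rw [← e2]
    exact sub_eq_zero.1 (k.left hK)
  · have k := hw.int m
    rw [h] at k
    have k2 := k.right
    rw [← map_intCast (pull G.pP), ← mul_assoc, ← map_mul] at k2
    have k3 := ker (C (m * n) * (1 - X) ^ r) (by simpa [mul_assoc] using t2 _ k2)
    rw [pow_succ, mul_comm (C _), mul_dvd_mul_iff_left (pow_ne_zero _ (by
      intro h; simpa using congrArg (eval 0) h))] at k3
    obtain ⟨d, hd⟩ := k3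
    have := congrArg (eval 1) hd
    simp [hm] at this
    subst this
    simp only [Int.cast_zero, zero_mul, map_zero] at hw
    exact hw.left hK

end Crest.Agent.N218.K

end
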