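import Crest.Agent.N218.K.Pd
import Crest.Agent.N218.K.Ln

/-!
# Row 218, block D0 (helper36): the Gysin boundary `K⁻¹(sphere bundle) → K(Thom space)`, as a relation
-/

set_option autoImplicit false
set_option linter.unusedVariables false

open Crest.Agent.R204 Crest.Agent.R204.Ex837 unitInterval Topology Matrix
open K357 (K0 psi)

noncomputable section

namespace Crest.Agent.N218.K

/-- `E = L × S¹` and `P = ` double cone of `π : L → B`, both quotients of `Z` -/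
structure Gy (B L E P Z : Type) [TopologicalSpace B] [TopologicalSpace L] [TopologicalSpace E]
    [TopologicalSpace P] [TopologicalSpace Z] where
  π : C(L, B)
  s : C(L, E)
  pE : C(E, L)
  z0 : C(B, P)
  z1 : C(B, P)
  pP : C(P, B)
  c : C(Z, E)
  j : C(Z, P)
  h : C(P, ℂ)
  πs : Function.Surjective π
  hs : ∀ l, pE (s l) = l
  p0 : ∀ b, pP (z0 b) = b
  p1 : ∀ b, pP (z1 b) = b
  cq : IsQuotientMap c
  jq : IsQuotientMap j
  hp : ∀ z, pP (j z) = π (pE (c z))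
  h0 : ∀ b, h (z0 b) = 0
  h1 : ∀ b, h (z1 b) = 1
  en : ∀ l, ∃ z z', c z = s l ∧ c z' = s l ∧ j z = z0 (π l) ∧ j z' = z1 (π l)
  F1 : ∀ f : P → ℂ, (∀ b, f (z0 b) = f (z1 b)) → ∀ z z', c z = c z' → f (j z) = f (j z')
  F2 : ∀ (a : E → ℂ) (b : B → ℂ), (∀ l, a (s l) = b (π l)) →
    ∀ z z', j z = j z' → a (c z) = a (c z')

namespace Gy
variable {B L E P Z : Type} [TopologicalSpace B] [TopologicalSpace L] [TopologicalSpace E]
  [TopologicalSpace P] [TopologicalSpace Z] (G : Gy B L E P Z)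

/-- pull-back of functions -/
abbrev cr {X Y : Type} [TopologicalSpace X] [TopologicalSpace Y] (f : C(X, Y)) :
    C(Y, ℂ) →ₐ[ℂ] C(X, ℂ) := ContinuousMap.compRightAlgHom ℂ ℂ f

/-- functions with the same values on both sections -/
def R : Subalgebra ℂ C(P, ℂ) := AlgHom.equalizer (cr G.z0) (cr G.z1)

theorem mem_R {f : C(P, ℂ)} : f ∈ G.R ↔ ∀ b, f (G.z0 b) = f (G.z1 b) :=
  ⟨fun h b => DFunLike.congr_fun (show cr G.z0 f = cr G.z1 f from h) b,
    fun h => ContinuousMap.ext h⟩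

/-- descent to `E` -/
def ph0 (f : G.R) : C(E, ℂ) :=
  G.cq.lift (f.1.comp G.j) fun z z' h => G.F1 f.1 (G.mem_R.1 f.2) z z' h

theorem ph0_c (f : G.R) (z : Z) : G.ph0 f (G.c z) = f.1 (G.j z) :=
  DFunLike.congr_fun (G.cq.lift_comp (f.1.comp G.j)
    fun z z' h => G.F1 f.1 (G.mem_R.1 f.2) z z' h) z

theorem extE {a b : C(E, ℂ)} (h : ∀ z, a (G.c z) = b (G.c z)) : a = b := by
  ext e
  obtain ⟨z, rfl⟩ := G.cq.surjective e
  exact h z

/-- descent to `E` -/
def ph : G.R →ₐ[ℂ] C(E, ℂ) where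
  toFun := G.ph0
  map_one' := G.extE fun z => by rw [ph0_c]; rfl
  map_mul' a b := G.extE fun z => by simp only [ph0_c, ContinuousMap.mul_apply]; rfl
  map_zero' := G.extE fun z => by rw [ph0_c]; rfl
  map_add' a b := G.extE fun z => by simp only [ph0_c, ContinuousMap.add_apply]; rfl
  commutes' a := G.extE fun z => by rw [ph0_c]; rfl

theorem ph_c (f : G.R) (z : Z) : G.ph f (G.c z) = f.1 (G.j z) := G.ph0_c f z

/-- the inclusion -/
def vl : G.R →ₐ[ℂ] C(P, ℂ) := G.R.val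

theorem pull_cr {X Y : Type} [TopologicalSpace X] [TopologicalSpace Y] (f : C(X, Y)) (x : KX Y) :
    pull f x = KA (cr f) x := rfl

/-- restriction to the sections -/
def zz : G.R →ₐ[ℂ] C(B, ℂ) := (cr G.z1).comp G.vl

/-- functions from the base -/
def uu : C(B, ℂ) →ₐ[ℂ] G.R :=
  (cr G.pP).codRestrict G.R fun a => G.mem_R.2 fun b => congrArg a ((G.p0 b).trans (G.p1 b).symm)

/-- the excision square -/
def sq2 : Sq G.R C(E, ℂ) C(B, ℂ) C(L, ℂ) where
  p1 := (G.ph : G.R →+* C(E, ℂ))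
  p2 := (G.zz : G.R →+* C(B, ℂ))
  al := (cr G.s : C(E, ℂ) →+* C(L, ℂ))
  be := (cr G.π : C(B, ℂ) →+* C(L, ℂ))
  comm f := ContinuousMap.ext fun l => by
    obtain ⟨-, z, -, a, -, b⟩ := G.en l
    change G.ph f (G.s l) = f.1 (G.z1 (G.π l))
    rw [← a, ph_c, b]
  lift a b h := by
    have h' : ∀ l, a (G.s l) = b (G.π l) := fun l => DFunLike.congr_fun h l
    let f : C(P, ℂ) := G.jq.lift (a.comp G.c) fun z z' e => G.F2 a b h' z z' e
    have hf : ∀ z, f (G.j z) = a (G.c z) := fun z =>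
      DFunLike.congr_fun (G.jq.lift_comp (a.comp G.c) fun z z' e => G.F2 a b h' z z' e) z
    have k : ∀ x, f (G.z0 x) = b x ∧ f (G.z1 x) = b x := fun x => by
      obtain ⟨l, rfl⟩ := G.πs x
      obtain ⟨z, z', a1, a2, a3, a4⟩ := G.en l
      exact ⟨by rw [← a3, hf, a1, h'], by rw [← a4, hf, a2, h']⟩
    refine ⟨⟨f, G.mem_R.2 fun x => (k x).1.trans (k x).2.symm⟩, G.extE fun z => ?_,
      ContinuousMap.ext fun x => (k x).2⟩
    exact (G.ph_c _ z).trans (hf z)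
  inj x y h _ := Subtype.ext (ContinuousMap.ext fun p => by
    obtain ⟨z, rfl⟩ := G.jq.surjective p
    rw [← ph_c, ← ph_c]
    exact DFunLike.congr_fun h _)

/-- the identification square -/
def sq1 : Sq G.R C(P, ℂ) C(B, ℂ) (C(B, ℂ) × C(B, ℂ)) where
  p1 := (G.vl : G.R →+* C(P, ℂ))
  p2 := (G.zz : G.R →+* C(B, ℂ))
  al := ((cr G.z0).prod (cr G.z1) : C(P, ℂ) →ₐ[ℂ] C(B, ℂ) × C(B, ℂ))
  be := (RingHom.id _).prod (RingHom.id _)
  comm f := Prod.ext f.2 rfl
  lift a b h := ⟨⟨a, (congrArg Prod.fst h).trans (congrArg Prod.snd h).symm⟩, rfl,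
    congrArg Prod.snd h⟩
  inj _ _ h _ := Subtype.ext h

theorem al_surj : Function.Surjective G.sq1.al := fun ⟨a, b⟩ =>
  ⟨(1 - G.h) * cr G.pP a + G.h * cr G.pP b,
    Prod.ext (ContinuousMap.ext fun x => by
      change (1 - G.h (G.z0 x)) * a (G.pP (G.z0 x)) + G.h (G.z0 x) * b (G.pP (G.z0 x)) = a x
      rw [G.h0, G.p0]; ring) (ContinuousMap.ext fun x => by
      change (1 - G.h (G.z1 x)) * a (G.pP (G.z1 x)) + G.h (G.z1 x) * b (G.pP (G.z1 x)) = b x
      rw [G.h1, G.p1]; ring)⟩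

theorem al_open [CompactSpace B] [CompactSpace P] : IsOpenMap G.sq1.al := by
  let T : C(P, ℂ) →L[ℂ] C(B, ℂ) × C(B, ℂ) :=
    { toLinearMap := ((cr G.z0).prod (cr G.z1)).toLinearMap
      cont := (ContinuousMap.continuous_precomp G.z0).prodMk
        (ContinuousMap.continuous_precomp G.z1) }
  exact T.isOpenMap G.al_surj

/-- pairing of matrices -/
def pr2 {A n : Type} (x y : Matrix n n A) : Matrix n n (A × A) := Matrix.of fun i j => (x i j, y i j)

theorem pr2_mul {A n : Type} [Ring A] [Fintype n] (x y x' y' : Matrix n n A) :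
    pr2 x y * pr2 x' y' = pr2 (x * x') (y * y') := by
  ext i j <;> simp [pr2, Matrix.mul_apply, Prod.fst_sum, Prod.snd_sum]

theorem pr2_one {A n : Type} [Ring A] [DecidableEq n] : pr2 (1 : Matrix n n A) 1 = 1 := by
  ext i j <;> by_cases h : i = j <;> simp [pr2, Matrix.one_apply, h]

theorem stLift [CompactSpace B] [CompactSpace P] (hK : K1Triv C(B, ℂ)) : StLift G.sq1.al := by
  intro n g g' h1 h2
  let f := RingHom.fst C(B, ℂ) C(B, ℂ)
  let s := RingHom.snd C(B, ℂ) C(B, ℂ)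
  have a1 : g.map f * g'.map f = 1 := by rw [← Matrix.map_mul, h1, mapOne]
  have a2 : g'.map f * g.map f = 1 := by rw [← Matrix.map_mul, h2, mapOne]
  have b1 : g.map s * g'.map s = 1 := by rw [← Matrix.map_mul, h1, mapOne]
  have b2 : g'.map s * g.map s = 1 := by rw [← Matrix.map_mul, h2, mapOne]
  have c1 : (g.map f * g'.map s) * (g.map s * g'.map f) = 1 := by
    rw [Matrix.mul_assoc, ← Matrix.mul_assoc (g'.map s), b2, Matrix.one_mul, a1]
  have c2 : (g.map s * g'.map f) * (g.map f * g'.map s) = 1 := by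
    rw [Matrix.mul_assoc, ← Matrix.mul_assoc (g'.map f), a2, Matrix.one_mul, b1]
  obtain ⟨l, H, hH, hu, h0, h3⟩ := hK n _ _ c1 c2
  obtain ⟨U, V, u1, u2, u3, -⟩ := lift_of_path G.al_open (fun t => pr2 (H t) 1)
    (continuous_pi fun i => continuous_pi fun j =>
      ((continuous_apply_apply i j).comp hH).prodMk continuous_const)
    (fun t => by
      obtain ⟨⟨u, v, uv, vu⟩, e⟩ := hu t
      have e' : u = H t := e
      refine ⟨⟨pr2 (H t) 1, pr2 v 1, ?_, ?_⟩, rfl⟩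
      · rw [← e', pr2_mul, Matrix.one_mul, uv, pr2_one]
      · rw [← e', pr2_mul, Matrix.one_mul, vu, pr2_one])
    (by rw [h0, pr2_one]) (u := pr2 (dsum (g.map f * g'.map s) 1) 1)
    (v := pr2 (dsum (g.map s * g'.map f) 1) 1)
    (by rw [pr2_mul, dsum_mul, c1, Matrix.one_mul, Matrix.one_mul, dsum_one, pr2_one])
    (by rw [pr2_mul, dsum_mul, c2, Matrix.one_mul, Matrix.one_mul, dsum_one, pr2_one])
    (by rw [h3])
  let p : C(B, ℂ) →+* C(P, ℂ) := (cr G.pP : C(B, ℂ) →+* C(P, ℂ))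
  have hp : ∀ x : Matrix (Fin n ⊕ Fin l) (Fin n ⊕ Fin l) C(B, ℂ),
      (x.map p).map G.sq1.al = pr2 x x := fun x => by
    ext i j b
    · exact congrArg (x i j) (G.p0 b)
    · exact congrArg (x i j) (G.p1 b)
  refine ⟨l, U * (dsum (g.map s) 1).map p, (dsum (g'.map s) 1).map p * V, ?_, ?_, ?_⟩
  · rw [Matrix.mul_assoc, ← Matrix.mul_assoc _ _ V, ← Matrix.map_mul, dsum_mul, b1,
      Matrix.one_mul, dsum_one, mapOne, Matrix.one_mul, u1]
  · rw [Matrix.mul_assoc, ← Matrix.mul_assoc V, u2, Matrix.one_mul, ← Matrix.map_mul, dsum_mul, b2,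
      Matrix.one_mul, dsum_one, mapOne]
  · rw [Matrix.map_mul, u3, hp, pr2_mul, dsum_mul, Matrix.mul_assoc, b2, Matrix.mul_one,
      Matrix.one_mul, Matrix.one_mul]
    ext (i | i) (j | j) <;> first | rfl | (by_cases h : i = j <;> simp [pr2, h])

/-- the Gysin relation -/
def Rl (x : KX E) (w : KX P) : Prop :=
  ∃ y : KC G.R, KA G.ph y = x ∧ KA G.zz y = 0 ∧ KA G.vl y = w

variable {G} {x x' : KX E} {w w' : KX P}

theorem Rl.ex (G : Gy B L E P Z) (hx : pull G.s x = 0) : ∃ w, G.Rl x w := by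
  obtain ⟨y, a, b⟩ := G.sq2.exists_rel
    (fun b => ⟨cr G.pE b, ContinuousMap.ext fun l => congrArg b (G.hs l)⟩) (x := x) hx
  exact ⟨_, y, a, b, rfl⟩

theorem Rl.z1 (h : G.Rl x w) : pull G.z1 w = 0 := by
  obtain ⟨y, a, b, rfl⟩ := h
  rw [pull_cr, ka_ka (cr G.z1) G.vl G.zz (fun f => rfl) y, b]

theorem Rl.z0 (h : G.Rl x w) : pull G.z0 w = 0 := by
  obtain ⟨y, a, b, rfl⟩ := h
  rw [pull_cr, ka_ka (cr G.z0) G.vl G.zz (fun f => f.2) y, b]

theorem Rl.sub (h : G.Rl x w) (h' : G.Rl x' w') : G.Rl (x - x') (w - w') := by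
  obtain ⟨y, a, b, c⟩ := h
  obtain ⟨y', a', b', c'⟩ := h'
  exact ⟨y - y', by rw [map_sub, a, a'], by rw [map_sub, b, b', sub_zero], by rw [map_sub, c, c']⟩

theorem Rl.int (h : G.Rl x w) (m : ℤ) : G.Rl (m * x) (m * w) := by
  obtain ⟨y, a, b, c⟩ := h
  exact ⟨m * y, by rw [map_mul, map_intCast, a], by rw [map_mul, b, mul_zero],
    by rw [map_mul, map_intCast, c]⟩

theorem Rl.ps (h : G.Rl x w) : G.Rl (ps _ x) (ps _ w) := by
  obtain ⟨y, a, b, c⟩ := h
  exact ⟨K.ps _ y, by rw [← psi_ka, a], by rw [← psi_ka, b, map_zero], by rw [← psi_ka, c]⟩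

theorem Rl.sm (h : G.Rl x w) (a : KX B) :
    G.Rl (pull G.pE (pull G.π a) * x) (pull G.pP a * w) := by
  obtain ⟨y, a1, b, c⟩ := h
  refine ⟨KA G.uu a * y, ?_, by rw [map_mul, b, mul_zero], ?_⟩
  · rw [map_mul, a1, pull_cr, pull_cr, ka_sq (B := G.R) G.ph G.uu (cr G.pE) (cr G.π)
      (fun f => G.extE fun z => (G.ph_c (G.uu f) z).trans (congrArg f (G.hp z))) a]
  · rw [map_mul, c, pull_cr, ka_ka (B := G.R) G.vl G.uu (cr G.pP) (fun _ => rfl) a]

theorem Rl.right (h : G.Rl 0 w) : w = 0 := by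
  obtain ⟨y, a, b, rfl⟩ := h
  rw [G.sq2.K0_inj (stLift_of_section _ (cr G.pE : C(L, ℂ) →+* C(E, ℂ))
    fun b => ContinuousMap.ext fun l => congrArg b (G.hs l)) a b, map_zero]

theorem Rl.left [CompactSpace B] [CompactSpace P] (hK : K1Triv C(B, ℂ)) (h : G.Rl x 0) :
    x = 0 := by
  obtain ⟨y, rfl, b, c⟩ := h
  rw [G.sq1.K0_inj (G.stLift hK) c b, map_zero]

end Gy

end Crest.Agent.N218.K

end
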