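import Crest.Agent.R204.Ex4_837
import Crest.Agent.R204.HInv_313

/-!
# N218/K/Pw: algebra homomorphisms into function algebras, defined point by point (helper94)

* `Pw.hom χ hc` : from a family of characters `χ y : A →ₐ[ℂ] ℂ`, continuous in `y`, the algebra
  homomorphism `A →ₐ[ℂ] C(Y, ℂ)`;
* `Pw.htp` : homotopy invariance of `K0` for homomorphisms into a closed subalgebra of `C(Y, ℂ)`;
* `Pw.htp2` : the same for subalgebras of `C(Y, ℂ) × C(Y', ℂ)`;
* `up`, `dn`, `sc` : reparametrisations of the unit interval.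
-/

set_option autoImplicit false

open scoped unitInterval
open Crest.Agent.R204 Crest.Agent.R204.K357

noncomputable section

namespace Crest.Agent.N218.Pw

variable {A : Type*} [CommRing A] [Algebra ℂ A] {Y Y' : Type*} [TopologicalSpace Y]
  [TopologicalSpace Y']

/-- an algebra homomorphism into `C(Y, ℂ)` from a continuous family of characters -/
def hom (χ : Y → A →ₐ[ℂ] ℂ) (hc : ∀ a, Continuous fun y => χ y a) : A →ₐ[ℂ] C(Y, ℂ) where
  toFun a := ⟨fun y => χ y a, hc a⟩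
  map_one' := by ext y; simp
  map_mul' a b := by ext y; simp
  map_zero' := by ext y; simp
  map_add' a b := by ext y; simp
  commutes' c := by ext y; simp

@[simp] theorem hom_apply (χ : Y → A →ₐ[ℂ] ℂ) (hc : ∀ a, Continuous fun y => χ y a) (a : A)
    (y : Y) : hom χ hc a y = χ y a := rfl

theorem cont_slice (χ : I → Y → A →ₐ[ℂ] ℂ) (hc : ∀ a, Continuous fun z : I × Y => χ z.1 z.2 a)
    (t : I) (a : A) : Continuous fun y => χ t y a :=
  (hc a).comp (Continuous.prodMk continuous_const continuous_id)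

theorem cont_fam [CompactSpace Y] (χ : I → Y → A →ₐ[ℂ] ℂ)
    (hc : ∀ a, Continuous fun z : I × Y => χ z.1 z.2 a) (a : A) :
    Continuous fun t => hom (χ t) (cont_slice χ hc t) a :=
  ContinuousMap.continuous_of_continuous_uncurry _ (hc a)

/-- homotopy invariance, target `C(Y, ℂ)` -/
theorem htp0 [CompactSpace Y] (χ : I → Y → A →ₐ[ℂ] ℂ)
    (hc : ∀ a, Continuous fun z : I × Y => χ z.1 z.2 a) (φ₀ φ₁ : A →+* C(Y, ℂ))
    (h0 : ∀ a y, φ₀ a y = χ 0 y a) (h1 : ∀ a y, φ₁ a y = χ 1 y a) (x : K0 A) :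
    K0.map φ₀ x = K0.map φ₁ x := by
  have key := HInv313.map_apply_eq_of_homotopy (A := A) (B := C(Y, ℂ))
    (fun t => (hom (χ t) (cont_slice χ hc t) : A →+* C(Y, ℂ))) (cont_fam χ hc) x
  have e0 : φ₀ = (hom (χ 0) (cont_slice χ hc 0) : A →+* C(Y, ℂ)) := by
    ext a y; exact h0 a y
  have e1 : φ₁ = (hom (χ 1) (cont_slice χ hc 1) : A →+* C(Y, ℂ)) := by
    ext a y; exact h1 a y
  rw [e0, e1]; exact key

/-- homotopy invariance, target a closed subalgebra of `C(Y, ℂ)` -/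
theorem htp [CompactSpace Y] (S : Subalgebra ℂ C(Y, ℂ)) [CompleteSpace S]
    (χ : I → Y → A →ₐ[ℂ] ℂ) (hc : ∀ a, Continuous fun z : I × Y => χ z.1 z.2 a)
    (hm : ∀ t a, hom (χ t) (cont_slice χ hc t) a ∈ S) (φ₀ φ₁ : A →+* S)
    (h0 : ∀ a y, (φ₀ a : C(Y, ℂ)) y = χ 0 y a) (h1 : ∀ a y, (φ₁ a : C(Y, ℂ)) y = χ 1 y a)
    (x : K0 A) : K0.map φ₀ x = K0.map φ₁ x := by
  have key := HInv313.map_apply_eq_of_homotopy (A := A) (B := S)
    (fun t => ((hom (χ t) (cont_slice χ hc t)).codRestrict S (hm t) : A →+* S))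
    (fun a => (cont_fam χ hc a).subtype_mk _) x
  have e0 : φ₀ = ((hom (χ 0) (cont_slice χ hc 0)).codRestrict S (hm 0) : A →+* S) := by
    ext a y; exact h0 a y
  have e1 : φ₁ = ((hom (χ 1) (cont_slice χ hc 1)).codRestrict S (hm 1) : A →+* S) := by
    ext a y; exact h1 a y
  rw [e0, e1]; exact key

/-- homotopy invariance, target a closed subalgebra of `C(Y, ℂ) × C(Y', ℂ)` -/
theorem htp2 [CompactSpace Y] [CompactSpace Y'] (S : Subalgebra ℂ (C(Y, ℂ) × C(Y', ℂ)))
    [CompleteSpace S] (χ : I → Y → A →ₐ[ℂ] ℂ) (hc : ∀ a, Continuous fun z : I × Y => χ z.1 z.2 a)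
    (χ' : I → Y' → A →ₐ[ℂ] ℂ) (hc' : ∀ a, Continuous fun z : I × Y' => χ' z.1 z.2 a)
    (hm : ∀ t a, (hom (χ t) (cont_slice χ hc t) a, hom (χ' t) (cont_slice χ' hc' t) a) ∈ S)
    (φ₀ φ₁ : A →+* S)
    (h0 : ∀ a y, (φ₀ a : C(Y, ℂ) × C(Y', ℂ)).1 y = χ 0 y a)
    (h0' : ∀ a y, (φ₀ a : C(Y, ℂ) × C(Y', ℂ)).2 y = χ' 0 y a)
    (h1 : ∀ a y, (φ₁ a : C(Y, ℂ) × C(Y', ℂ)).1 y = χ 1 y a)
    (h1' : ∀ a y, (φ₁ a : C(Y, ℂ) × C(Y', ℂ)).2 y = χ' 1 y a)
    (x : K0 A) : K0.map φ₀ x = K0.map φ₁ x := by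
  have key := HInv313.map_apply_eq_of_homotopy (A := A) (B := S)
    (fun t => (((hom (χ t) (cont_slice χ hc t)).prod
      (hom (χ' t) (cont_slice χ' hc' t))).codRestrict S (hm t) : A →+* S))
    (fun a => ((cont_fam χ hc a).prodMk (cont_fam χ' hc' a)).subtype_mk _) x
  have e0 : φ₀ = (((hom (χ 0) (cont_slice χ hc 0)).prod
      (hom (χ' 0) (cont_slice χ' hc' 0))).codRestrict S (hm 0) : A →+* S) := by
    refine RingHom.ext fun a => Subtype.ext (Prod.ext ?_ ?_)
    · ext y; exact h0 a y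
    · ext y; exact h0' a y
  have e1 : φ₁ = (((hom (χ 1) (cont_slice χ hc 1)).prod
      (hom (χ' 1) (cont_slice χ' hc' 1))).codRestrict S (hm 1) : A →+* S) := by
    refine RingHom.ext fun a => Subtype.ext (Prod.ext ?_ ?_)
    · ext y; exact h1 a y
    · ext y; exact h1' a y
  rw [e0, e1]; exact key

/-! ### reparametrisations of the interval -/

/-- `min ((1 + τ) t) 1` -/
def sc (τ t : I) : I := Set.projIcc 0 1 zero_le_one ((1 + (τ : ℝ)) * t)

/-- `min ((1 + τ) (1 - t)) 1` -/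
def sd (τ t : I) : I := sc τ (σ t)

theorem cont_sc : Continuous fun z : I × I => sc z.1 z.2 := by
  unfold sc
  exact continuous_projIcc.comp (by fun_prop)

theorem cont_sd : Continuous fun z : I × I => sd z.1 z.2 :=
  cont_sc.comp (continuous_fst.prodMk (unitInterval.continuous_symm.comp continuous_snd))

@[fun_prop] theorem _root_.Continuous.n218sc {Z : Type*} [TopologicalSpace Z] {a b : Z → I}
    (ha : Continuous a) (hb : Continuous b) : Continuous fun z => sc (a z) (b z) :=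
  cont_sc.comp (ha.prodMk hb)

@[fun_prop] theorem _root_.Continuous.n218sd {Z : Type*} [TopologicalSpace Z] {a b : Z → I}
    (ha : Continuous a) (hb : Continuous b) : Continuous fun z => sd (a z) (b z) :=
  cont_sd.comp (ha.prodMk hb)

@[simp] theorem sc_zero_left (t : I) : sc 0 t = t := by
  unfold sc
  simp [Set.projIcc_val]

@[simp] theorem sc_zero (τ : I) : sc τ 0 = 0 := by
  unfold sc
  simp [Set.projIcc_left]

@[simp] theorem sc_one (τ : I) : sc τ 1 = 1 := by
  unfold sc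
  refine Set.projIcc_of_right_le _ ?_
  have := τ.2.1
  simp only [Set.Icc.coe_one, mul_one]
  linarith

theorem sc_half {t : I} (h : 1 / 2 ≤ (t : ℝ)) : sc 1 t = 1 := by
  unfold sc
  refine Set.projIcc_of_right_le _ ?_
  simp only [Set.Icc.coe_one]
  linarith

@[simp] theorem sd_zero_left (t : I) : sd 0 t = σ t := by simp [sd]

@[simp] theorem sd_zero (τ : I) : sd τ 0 = 1 := by simp [sd]

@[simp] theorem sd_one (τ : I) : sd τ 1 = 0 := by simp [sd]

theorem sd_half {t : I} (h : (t : ℝ) ≤ 1 / 2) : sd 1 t = 1 := by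
  refine sc_half ?_
  rw [unitInterval.coe_symm_eq]
  linarith

/-- gluing two continuous functions along the middle of the interval -/
theorem cont_glue {Z : Type*} [TopologicalSpace Z] {t : Z → I} (ht : Continuous t)
    {u v : Z → ℂ} (hu : Continuous u) (hv : Continuous v)
    (h : ∀ z, (t z : ℝ) = 1 / 2 → u z = v z) :
    Continuous fun z => if (t z : ℝ) ≤ 1 / 2 then u z else v z :=
  Continuous.if_le hu hv (by fun_prop) continuous_const h

end Crest.Agent.N218.Pw
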