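import Crest.Agent.N218.Th.One
import Crest.Agent.N218.Th.Loc
import Crest.Agent.N218.Th.Mv
import Crest.Agent.N218.Th.Base
import Crest.Agent.N218.K.Cp2
import Crest.Agent.N218.K.Lam

/-! Row 218, D0 (helper33): the unconditional Thom isomorphism. -/

namespace Crest.Agent.N218.K

/-- **Thom isomorphism for one character** -/
theorem thomAll : THOM1 := fun _ _ _ _ _ _ hχ h => Th.thom1 (Th.loc Th.five) Th.base hχ h

/-- **Thom isomorphism for sums of characters** -/
theorem thom_lam {Γ : Type} [Group Γ] [TopologicalSpace Γ] [CompactSpace Γ] {ι : Type} [Fintype ι]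
    {Y : GS Γ} {χ : ι → Γ →* Circle} (hχ : ∀ i, Continuous (χ i))
    (hS : ∀ i, Nonempty (Sec Y (χ i))) : (Sb Y (wl χ hχ)).Th (lam Y χ hχ) :=
  th_lam hχ (thomAll Γ) hS

end Crest.Agent.N218.K
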